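import Vale.Agent.P144D.I.O.Agree1
import Vale.Agent.P144D.FD.Both

/-!
The factors of the insertions only depend on the geometry nearby.
-/

namespace Vale.Agent.P144Z.IO

open Finset Matrix Geo Mn R6

set_option linter.unusedSectionVars false
set_option backward.isDefEq.respectTransparency false

namespace Ag

variable {g g' : Geo} {m : FMap g g'}

theorem hsq_sign {M : ℕ} [NeZero M] (A : Gauge M) (ρ : ℝ) (B : Finset (Tor M)) {c : ℝ}
    (hc : c * c = 1) (u : Tor M × Fin 4 → ℝ) : hsq A ρ B (c • u) = hsq A ρ B u :=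
  sum_congr rfl fun _ _ => by rw [mulVec_smul, E4.l2sq_smul, sq c, hc, one_mul]

theorem sgn_sq (t : g.P × Fin 4) : m.ε t.1 * m.y.σ t.2 * (m.ε t.1 * m.y.σ t.2) = 1 := by
  linear_combination (m.y.σ t.2 * m.y.σ t.2) * m.εε t.1 + m.σσ t.2

theorem dom_pull (hs : Function.Surjective m.pull) {t : g.P × Fin 4} {ℓ : ℕ}
    (hd : m.dep (2 * ℓ + 4) t.1) {ν : ℝ}
    (h : Dom g'.A ℓ (m.φ t.1) (Pi.single (m.φ t.1, m.y.π t.2) 1) ν) :
    Dom g.A ℓ t.1 (Pi.single t 1) ν := fun w => by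
  obtain ⟨w', rfl⟩ := hs w
  have h1 := h w'
  rw [single_one_dotProduct] at h1
  rwa [FMap.hsq_pull hd, single_one_dotProduct, FMap.pull, mul_pow, sq (_ * _), sgn_sq, one_mul]

theorem mkAt_pull (hs : Function.Surjective m.pull) {t : g.P × Fin 4} {ℓ ℓ' : ℕ} (hℓ : ℓ ≤ ℓ')
    (hd : m.dep (3 * ℓ' + 4) t.1) {u : g'.P × Fin 4 → ℝ} {ν ν' c η : ℝ}
    (h : MkAt g'.A ℓ ℓ' (m.φ t.1, m.y.π t.2) u ν ν' c η) :
    MkAt g.A ℓ ℓ' t ((m.ε t.1 * m.y.σ t.2) • m.pull u) ν ν' c η where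
  one := by rw [Pi.smul_apply, FMap.pull, h.one, mul_one, smul_eq_mul, sgn_sq]
  pos := h.pos
  pos' := h.pos'
  dom := dom_pull hs (Iso.le hd (by omega)) h.dom
  dom' := dom_pull hs (Iso.le hd (by omega)) h.dom'
  test := by
    rw [hsq_sign _ _ _ (sgn_sq t), FMap.hsq_pull (Iso.le hd (by omega))]
    exact h.test
  rank w := by
    obtain ⟨w', rfl⟩ := hs w
    have e : m.pull w' - m.pull w' t • (m.ε t.1 * m.y.σ t.2) • m.pull u =
        m.pull (w' - w' (m.φ t.1, m.y.π t.2) • u) := funext fun r => by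
      simp only [FMap.pull, Pi.sub_apply, Pi.smul_apply, smul_eq_mul]
      linear_combination (-(w' (m.φ t.1, m.y.π t.2) * (m.ε r.1 * m.y.σ r.2 *
        u (m.φ r.1, m.y.π r.2)))) * sgn_sq (m := m) t
    rw [e, FMap.hsq_pull (Iso.le hd (by omega)), FMap.hsq_pull (Iso.le hd (by omega))]
    exact h.rank w'
  le := h.le
  ge := h.ge

theorem hom_pull {z : g.P} {ρ : ℕ} (hd : m.dep (ρ + 1) z) {u : g'.P × Fin 4 → ℝ}
    (h : Hom g'.A (m.φ z) ρ u) (c : ℝ) : Hom g.A z ρ (c • m.pull u) := fun r hr => by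
  have h1 : m.dep 1 r.1 := m.mono hd (by omega)
  have h2 := FMap.Dm_pull u 1 r h1
  rw [pow_one, pow_one, pow_one, FMap.pull, h _ (by
    rw [m.iso (FMap.dep0 h1) (FMap.dep0 hd)]
    exact hr), mul_zero, mul_zero] at h2
  rw [mulVec_smul, Pi.smul_apply, h2, smul_zero]

theorem mkCh_pull (hs : Function.Surjective m.pull) {t : g.P × Fin 4} {L J : ℕ} (hL : 1 ≤ L)
    (hJ : 1 ≤ J) (hd : m.dep (3 * sc L J + 4) t.1) {u : ℕ → g'.P × Fin 4 → ℝ} {ν : ℕ → ℝ}
    {c η : ℝ} (h : MkCh g'.A L J (m.φ t.1, m.y.π t.2) u ν c η) :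
    MkCh g.A L J t (fun j => (m.ε t.1 * m.y.σ t.2) • m.pull (u j)) ν c η where
  zero := mkAt_pull hs (sc_mono hL (by omega))
    (Iso.le hd (by have := sc_mono hL hJ; omega)) h.zero
  nu0 := h.nu0
  pos j h1 h2 := mkAt_pull hs (sc_mono hL (by omega))
    (Iso.le hd (by have := sc_mono hL (show j + 1 ≤ J from h2); omega)) (h.pos j h1 h2)
  hom j h1 h2 := hom_pull (Iso.le hd (by have := sc_mono hL (show j + 1 ≤ J from h2); omega))
    (h.hom j h1 h2) _

theorem matchC {A' : Gauge g.M} {c : g.P} {T T' : ℕ} (hT : T' + 2 ≤ T) (hM : 4 * T + 1 ≤ g.M)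
    {ε : g.P → ℝ} (hε : IsSign ε) (h : ∀ x d, tdist x c ≤ T → tdist (x + uv g.M d) c ≤ T →
      A' (x, d) = ε x * ε (x + uv g.M d) * g.A (x, d)) : MatchC g (bare g A') 0 0 c c T' := by
  refine ⟨by omega, show _ ≤ g.M by omega, fun f hf => ?_, ⟨ε, hε, fun x d hx hx' => ?_⟩,
    fun _ _ _ => rfl⟩
  · have h1 : ∀ i, tdist (f + uv g.M i) c ≤ T' + 1 := fun i => (E3.near_add i).trans (by omega)
    have h2 : ∀ i j, tdist (f + uv g.M i + uv g.M j) c ≤ T := fun i j =>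
      (E3.near_add j).trans (by have := h1 i; omega)
    have h3 : ∀ i, tdist (f + uv g.M i) c ≤ T := fun i => (h1 i).trans (by omega)
    change flux A' _ = _
    rw [R6.shf_self, flux, flux, h f 0 (by omega) (h3 0), h f 1 (by omega) (h3 1),
      h _ 1 (h3 0) (h2 0 1), h _ 0 (h3 1) (h2 1 0), add_right_comm f (uv g.M 1)]
    have := G.sign_sq hε f
    have := G.sign_sq hε (f + uv g.M 0)
    have := G.sign_sq hε (f + uv g.M 1)
    have := G.sign_sq hε (f + uv g.M 0 + uv g.M 1)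
    grind
  · change A' _ = _
    rw [R6.shf_self]
    exact h x d (by omega) (by omega)

end Ag

open Ag

theorem agreeI {g : Geo} {A' : Gauge g.M} {L T : ℕ} {q : Par} (hL : 8 ≤ L) (hJ : 1 ≤ g.J)
    (hg : g.OkW) (hA' : IsW A') (hq : q.Ok) (hR : 16 * (q.R + 1) ≤ g.M) (hT : 7 * sc L g.J ≤ T)
    (hM : 4 * T + 1 ≤ g.M) {k : ℕ} {s : Fin k → g.P × Fin 4}
    (he : ∀ i, ∃ ε : g.P → ℝ, IsSign ε ∧ ∀ x d, tdist x (s i).1 ≤ T →
      tdist (x + uv g.M d) (s i).1 ≤ T → A' (x, d) = ε x * ε (x + uv g.M d) * g.A (x, d))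
    (hfar : ∀ i κ, 7 * sc L g.J < tdist (g.src κ).y (s i).1)
    {u : Fin k → ℕ → g.P × Fin 4 → ℝ} {ν : Fin k → ℕ → ℝ} {c η : ℝ}
    (hu : (bare g A').MkPre s u ν L c η) :
    ∃ u' : Fin k → ℕ → g.P × Fin 4 → ℝ, g.MkPre s u' ν L c η ∧
      ∀ (o : ℝ) (O : Fin k → g.Cfg → ℝ) (K : ℕ), LocO s K O →
        (g.flowI s L q o O K u' g.J).z = ((bare g A').flowI s L q o O K u g.J).z := by
  have h8 := R6.eight_le_sc (by omega : 1 ≤ L) g.J
  have hm : ∀ i, ∃ m : FMap g (bare g A'),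
      W.R6.IdC (g' := bare g A') 0 0 q (s i).1 (s i).1 (6 * sc L g.J) (fun _ => none) m := by
    intro i
    obtain ⟨ε, hε, h⟩ := he i
    exact (W.R6.exists_trC hg.src (MN.ok_bare hA').src (Cor.ok_zero _) hq.pot (by omega)
      (show _ ≤ g.M by omega) (matchC (by omega) hM hε h) (by omega) (srcs_none _ _ _ _)).imp
      fun _ h => h.1
  choose m hm using hm
  have hφ : ∀ i x, (m i).φ x = x := fun i x => by
    rw [(hm i).id.hφ]
    exact R6.shf_self _ x
  have hπ : ∀ i a, (m i).y.π a = a := fun i a => by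
    rw [(hm i).id.hy]
    rfl
  have hd : ∀ i, ∀ n ≤ 6 * sc L g.J, (m i).dep n (s i).1 := fun i n hn =>
    ((hm i).id.dep _ _).2 (by rw [tdist_self]; omega)
  have hk : ∀ i, Mk (m i) s s i := fun i =>
    ⟨by rw [(hm i).id.hy]; rfl, fun κ => by rw [(hm i).id.hκ], hd i 0 (Nat.zero_le _),
      by rw [hφ, hπ], fun i' hi x hx e => by
        have h1 := hu.sep i' i hi
        have h2 := ((hm i).id.dep _ _).1 hx
        rw [hφ] at e
        rw [← e] at h2
        change 7 * sc L g.J < _ at h1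
        omega⟩
  have hs : ∀ i, Function.Surjective (m i).pull := fun i w =>
    ⟨(m i).pull w, funext fun t => by
      rw [FMap.pull, hφ, hπ, FMap.pull, hφ, hπ, ← mul_assoc, sgn_sq, one_mul]⟩
  refine ⟨fun i j => ((m i).ε (s i).1 * (m i).y.σ (s i).2) • (m i).pull (u i j),
    ⟨hu.sep, hfar, fun i => mkCh_pull (hs i) (by omega) hJ (hd i _ (by omega))
      ((hk i).eq ▸ hu.ch i)⟩, fun o O K hO => funext fun i => ?_⟩
  have hη : ∀ n : g.Cfg, n ∘ (m i).η = n := fun n => funext fun e => by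
    rw [Function.comp_apply, FMap.η, hφ, hπ, und_dr]
  have him : ∀ X : Finset g.P, X.image (m i).φ = X := fun X =>
    (image_congr fun x _ => hφ i x).trans image_id
  have hr : ∀ j ≤ g.J, (hk i).Rel (sc L j + 3)
      (g.flowI s L q o O K (fun i j => ((m i).ε (s i).1 * (m i).y.σ (s i).2) • (m i).pull (u i j)) j)
      ((bare g A').flowI s L q o O K u j) := fun j => by
    induction j with
    | zero =>
      refine fun _ => ((hk i).init hg.src (fun X hX n' => ?_) (fun X hX => (hm i).W0 hX) o hO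
        (fun n' => by rw [hη]) fun X _ => by rw [him]).le (Nat.zero_le _)
      rw [HinC_zero, HinC_zero]
      exact (hm i).id.ini.hin (hm i).id.good hX n'
    | succ j ih =>
      intro hj
      have h1 := (hm i).flow (L := L) (by omega) j (by simp)
      have h2 := two_sc_le (by omega : 2 ≤ L) j
      have h3 := sc_mono (by omega : 1 ≤ L) hj
      have h4 := R6.eight_le_sc (by omega : 1 ≤ L) j
      exact ((ih (by omega)).le (n' := sc L (j + 1) + 3) (by omega)).step h1.loc.H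
        (fun X hX => h1.H (by omega) (hX.le (by omega))) (by omega) le_rfl (hd i _ (by omega)) rfl
  exact (hr g.J le_rfl).z.symm

end Vale.Agent.P144Z.IO
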