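import Vale.Agent.P144D.I.O.Defs2

/-!
Identifications of two geometries with marked half-edges.
-/

namespace Vale.Agent.P144Z.IO.Ag

open Finset Matrix Geo Mn R6

set_option linter.unusedSectionVars false
set_option backward.isDefEq.respectTransparency false

variable {g g' : Geo} {k : ℕ} {s : Fin k → g.P × Fin 4} {s' : Fin k → g'.P × Fin 4}

theorem embL_inl (t : Tor g.M × Fin 4) :
    g.embL s (Pi.single (Sum.inl t) 1) = (g.xt s).e1 t.1 t.2 := by
  funext x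
  rcases x with x | ⟨κ | i, d⟩ <;> simp [embL, Pi.single_apply]

theorem embL_inr (κ : g.K) (d : Fin 2) :
    g.embL s (Pi.single (Sum.inr (κ, d)) 1) = (g.xt s).e2 (Sum.inl κ) d := by
  funext x
  rcases x with x | ⟨κ' | i, d'⟩
  · simp [embL]
  · by_cases h : κ' = κ ∧ d' = d
    · rw [h.1, h.2, Geo.e2, Pi.single_eq_same]
      simp [embL]
    · rw [Geo.e2, Pi.single_eq_of_ne (by
        intro e
        obtain ⟨e1, e2⟩ := Prod.ext_iff.1 (Sum.inr.inj e)
        exact h ⟨Sum.inl.inj e1, e2⟩)]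
      exact Pi.single_eq_of_ne (by simpa using h) _
  · rw [Geo.e2, Pi.single_eq_of_ne (by
      intro e
      exact Sum.inr_ne_inl (Prod.ext_iff.1 (Sum.inr.inj e)).1)]
    rfl

theorem emb_el {X : Finset g.P} {F : g.E} (hF : F ∈ g.el X) : g.emb s F ∈ (g.xt s).el X := by
  rw [mem_evLoc, emb, val_evMap]
  refine map_loc hF fun t ht t' ht' => ?_
  rcases t with t | ⟨κ, d⟩
  · rw [embL_inl]
    exact single_zero (T := (g.xt s).gens X) ht t' ht'
  · rw [embL_inr]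
    exact single_zero (T := (g.xt s).gens X) ht t' ht'

theorem eI_eq (i : Fin k) :
    g.eI s i = pp ((g.xt s).e2 (Sum.inr i) 0) ((g.xt s).e1 (s i).1 (s i).2) :=
  congrArg (pp (g.et s i)) (RN.ex_single (g := g.xt s) (s i))

theorem eI_el {X : Finset g.P} {i : Fin k} (h : (s i).1 ∈ X) : g.eI s i ∈ (g.xt s).el X := by
  rw [eI_eq]
  exact pp_mem (single_zero h) (single_zero h)

theorem sum_el {X : Finset g.P} {p : Fin k → Prop} {_ : DecidablePred p}
    (h : ∀ i, p i → (s i).1 ∈ X) (c : Fin k → ℝ) :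
    ∑ i ∈ univ.filter p, c i • g.eI s i ∈ (g.xt s).el X :=
  Subalgebra.sum_mem _ fun i hi => Subalgebra.smul_mem _ (eI_el (h i (mem_filter.1 hi).2)) _

theorem carI_el (z : Fin k → ℝ) (X : Finset g.P) : g.carI s z X ∈ (g.xt s).el X :=
  sum_el (fun _ h => h ▸ mem_singleton_self _) z

theorem HI_el {H : Finset g.P → g.E} (hH : ∀ X, H X ∈ g.el X) {t : g.StI s}
    (ht : ∀ X, t.K X ∈ (g.xt s).el X) (X : Finset g.P) : g.HI s H t X ∈ (g.xt s).el X :=
  Subalgebra.add_mem _ (emb_el (hH X)) (Subalgebra.add_mem _ (ht X) (carI_el _ X))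

theorem remI_el (ℓ ℓ' : ℕ) {H : Finset g.P → g.E} (hH : ∀ X, H X ∈ g.el X) {t : g.StI s}
    (ht : ∀ X, t.K X ∈ (g.xt s).el X) (U : Finset g.P) :
    g.remI s ℓ ℓ' H t U ∈ (g.xt s).el U :=
  Subalgebra.sub_mem _ (Subalgebra.sub_mem _ (Cl_mem (g.xt s).pos (HI_el hH ht) U)
    (emb_el (Cl_mem g.pos hH U))) (carI_el _ U)

theorem HinI_RI (hg : ∀ κ, (g.src κ).Ok) (q : Par) (o : ℝ) {O : Fin k → g.Cfg → ℝ} {K : ℕ}
    (hO : LocO s K O) (X : Finset g.P) : g.HinI s q o O K X ∈ (g.xt s).RI X := by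
  have h := HinC_RI hg (Cor.ok_zero _) q X
  refine ⟨fun n => Subalgebra.add_mem _ (Subalgebra.add_mem _ (emb_el (h.1 n)) (carI_el _ X))
    (sum_el (fun i e => e ▸ mem_ball.2 (by rw [tdist_self]; omega)) _), fun n n' e => ?_⟩
  rw [HinI, HinI, h.2 n n' e]
  congr 1
  refine sum_congr rfl fun i hi => ?_
  rw [hO i n n' fun e' h1 h2 => e e' ⟨(mem_filter.1 hi).2 ▸ h1, (mem_filter.1 hi).2 ▸ h2⟩]

theorem initI_el (hg : ∀ κ, (g.src κ).Ok) (q : Par) (o : ℝ) {O : Fin k → g.Cfg → ℝ} {K : ℕ}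
    (hO : LocO s K O) (X : Finset g.P) : (g.initI s q o O K).K X ∈ (g.xt s).el X :=
  Subalgebra.sub_mem _ (Subalgebra.sub_mem _ (Cl_mem_sub _ (g.xt s).RI (g.xt s).el
    (fun _ _ h _ => RI_mono h) (fun _ _ h _ => el_mono h) (fun _ _ => E0_el _)
    fun Y _ => HinI_RI hg q o hO Y) (emb_el (W0C_el hg (Cor.ok_zero _) q X))) (carI_el _ X)

theorem E0_map (m : FMap g g') (w : ℝ) {X : Finset g.P} (hX : m.In 0 X) {F : g.Cfg → g.E}
    (hF : F ∈ g.RI X) : g'.E0 w (fun n' => m.Φ (F (n' ∘ m.η))) = m.Φ (g.E0 w F) := by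
  classical
  have h1 := sum_marg (fun t : {e // g.Ins X e} => m.η t.1)
    (fun t t' e => Subtype.ext (FMap.η_inj (hX _ t.2.1) (hX _ t'.2.1) e)) (g'.ew w) (ew_sum w)
    fun a => m.Φ (F (extd X a))
  rw [E0_RI w hF, map_sum]
  refine Eq.trans ?_ (h1.trans (sum_congr rfl fun a _ => ?_))
  · exact sum_congr rfl fun n' _ => congrArg₂ _ (congrArg m.Φ (RI_extd hF _)) rfl
  · rw [m.Φ_mul]
    congr 1
    refine Eq.trans (prod_congr rfl fun t _ => ?_)
      (map_prod (⟨⟨m.Φ, m.Φ_one⟩, m.Φ_mul⟩ : g.E →* g'.E) _ _).symm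
    have h2 := FMap.Φ_edge (a := dr t.1.2) (hX _ t.2.1) (by rw [stp_dr]; exact hX _ t.2.2)
    rw [und_dr] at h2
    change _ = m.Φ _
    unfold ew
    split_ifs
    · rw [map_smul, ← h2, FMap.η]
    · rw [map_sub, map_smul, m.Φ_one, ← h2, FMap.η]

/-- The mark `i` corresponds to the mark `i`, and the other marks are outside of the region. -/
structure Mk (m : FMap g g') (s : Fin k → g.P × Fin 4) (s' : Fin k → g'.P × Fin 4) (i : Fin k) :
    Prop where
  o : m.y.o = 1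
  κ : ∀ κ, m.κ κ = none
  dep : m.dep 0 (s i).1
  eq : s' i = (m.φ (s i).1, m.y.π (s i).2)
  out : ∀ i', i' ≠ i → ∀ x, m.dep 0 x → (s' i').1 ≠ m.φ x

variable {m : FMap g g'} {i : Fin k}

/-- The identification of the geometries with insertions. -/
noncomputable def Mk.lift (h : Mk m s s' i) : FMap (g.xt s) (g'.xt s') where
  toIso := m.toIso
  y := m.y
  ε := m.ε
  sm := m.sm
  κ := Sum.elim (fun _ => none) fun i' => if i' = i then some (Sum.inr i) else none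
  w _ _ := m.ε (s i).1 * m.y.σ (s i).2
  sε := m.sε
  sm1 := m.sm1
  lin := m.lin
  gauge := m.gauge
  pos {a b} e := by
    rcases a with a | a
    · simp at e
    · by_cases h1 : a = i
      · subst h1
        simp only [Sum.elim_inr, if_true] at e
        obtain rfl := Option.some.inj e
        exact ⟨h.dep, congrArg Prod.fst h.eq⟩
      · simp [h1] at e
  kinj {a a' b} e e' := by
    rcases a with a | a
    · simp at e
    rcases a' with a' | a'
    · simp at e'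
    by_cases h1 : a = i
    · by_cases h2 : a' = i
      · rw [h1, h2]
      · simp [h2] at e'
    · simp [h1] at e

theorem Mk.sq (_ : Mk m s s' i) :
    m.ε (s i).1 * m.y.σ (s i).2 * (m.ε (s i).1 * m.y.σ (s i).2) = 1 := by
  linear_combination (m.y.σ (s i).2 * m.y.σ (s i).2) * m.εε (s i).1 + m.σσ (s i).2

theorem Mk.κ_self (h : Mk m s s' i) : h.lift.κ (Sum.inr i) = some (Sum.inr i) := if_pos rfl

theorem Mk.emb (h : Mk m s s' i) (F : g.E) : h.lift.Φ (g.emb s F) = g'.emb s' (m.Φ F) := by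
  have e : h.lift.f ∘ₗ g.embL s = g'.embL s' ∘ₗ m.f := (Pi.basisFun ℝ g.S).ext fun t => by
    rw [Pi.basisFun_apply, LinearMap.comp_apply, LinearMap.comp_apply]
    rcases t with t | ⟨κ, d⟩
    · rw [embL_inl, FMap.f_e1, m.f_e1, map_smul, embL_inl]
      rfl
    · rw [embL_inr, h.lift.f_none rfl, m.f_none (h.κ κ), map_zero]
  refine Ev.val_injective ?_
  rw [Geo.emb, Geo.emb, FMap.val_Φ, val_evMap, val_evMap, FMap.val_Φ, h.o,
    show h.lift.y.o = 1 from h.o, monG_apply, monG_apply, rv_one, rv_one, ← AlgHom.comp_apply,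
    ExteriorAlgebra.map_comp_map, e, ← ExteriorAlgebra.map_comp_map, AlgHom.comp_apply]

theorem Mk.eI (h : Mk m s s' i) : h.lift.Φ (g.eI s i) = g'.eI s' i := by
  rw [eI_eq, eI_eq, FMap.Φ_pp, FMap.f_some _ h.κ_self, FMap.f_e1, pp_smul_left, pp_smul_right,
    smul_smul, smul_smul, h.eq, show h.lift.y.o = 1 from h.o, one_mul]
  exact (congrArg (· • _) h.sq).trans (one_smul _ _)

theorem Mk.eI_ne (h : Mk m s s' i) {i' : Fin k} (hi : i' ≠ i) : h.lift.Φ (g.eI s i') = 0 := by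
  rw [eI_eq, FMap.Φ_pp, FMap.f_none _ (if_neg hi), pp_zero_left, smul_zero]

theorem Mk.tI (h : Mk m s s' i) (u : g'.P × Fin 4 → ℝ) (F : (g.xt s).E) :
    g'.tI s' u i (h.lift.Φ F) = g.tI s ((m.ε (s i).1 * m.y.σ (s i).2) • m.pull u) i F := by
  rw [Geo.tI, FMap.val_Φ, et, beta_monG h.lift.y.so _ (A1.mem_loc_univ _)
    (fun t _ => FMap.f_dot_e2 h.κ_self 0 t) (fun t _ => h.lift.f_dot u t), Geo.tI,
    show h.lift.y.o = 1 from h.o, one_mul, beta_smul_left, RN.ex_smul (g := g.xt s),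
    beta_smul_right]
  rfl

theorem Mk.sum (h : Mk m s s' i) {X : Finset g.P} (hX : m.In 0 X) {p p' : Fin k → Prop}
    {_ : DecidablePred p} {_ : DecidablePred p'} (hp : ∀ j, p' j → (s' j).1 ∈ X.image m.φ)
    (hi : p' i ↔ p i) {c c' : Fin k → ℝ} (hc : p i → c' i = c i) :
    ∑ j ∈ univ.filter p', c' j • g'.eI s' j = h.lift.Φ (∑ j ∈ univ.filter p, c j • g.eI s j) := by
  rw [map_sum, sum_filter, sum_filter]
  refine sum_congr rfl fun j _ => ?_
  by_cases hj : j = i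
  · subst hj
    by_cases h1 : p j
    · rw [if_pos h1, if_pos (hi.2 h1), map_smul, h.eI, hc h1]
    · rw [if_neg h1, if_neg fun h2 => h1 (hi.1 h2)]
  · rw [map_smul, h.eI_ne hj, smul_zero, ite_self, if_neg]
    intro h1
    obtain ⟨x, hx, e⟩ := mem_image.1 (hp j h1)
    exact h.out j hj x (hX x hx) e.symm

theorem Mk.mem (h : Mk m s s' i) {X : Finset g.P} (hX : m.In 0 X) :
    (s' i).1 ∈ X.image m.φ ↔ (s i).1 ∈ X := by
  rw [h.eq]
  exact Iso.mem_image_iff hX h.dep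

theorem Mk.car (h : Mk m s s' i) {X : Finset g.P} (hX : m.In 0 X) {z z' : Fin k → ℝ}
    (hz : z' i = z i) : g'.carI s' z' (X.image m.φ) = h.lift.Φ (g.carI s z X) := by
  refine h.sum hX (fun j e => by rw [← e]; exact mem_singleton_self _) ?_ fun _ => hz
  rw [h.eq, ← image_singleton m.φ]
  exact ⟨Iso.image_inj (fun x hx => mem_singleton.1 hx ▸ h.dep) hX, fun e => by rw [e]⟩

/-- The states of the insertions agree at depth `n`. -/
structure Mk.Rel (h : Mk m s s' i) (n : ℕ) (t : g.StI s) (t' : g'.StI s') : Prop where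
  loc : ∀ X, t.K X ∈ (g.xt s).el X
  K : ∀ X, m.In n X → t'.K (X.image m.φ) = h.lift.Φ (t.K X)
  z : t'.z i = t.z i

section step

variable {h : Mk m s s' i} {n ℓ ℓ' : ℕ} {t : g.StI s} {t' : g'.StI s'} {H : Finset g.P → g.E}
  {H' : Finset g'.P → g'.E}

theorem Mk.Rel.le {n' : ℕ} (r : h.Rel n t t') (hn : n ≤ n') : h.Rel n' t t' :=
  ⟨r.loc, fun X hX => r.K X (hX.le hn), r.z⟩

theorem Mk.Rel.rem (r : h.Rel n t t') (hH : ∀ X, H X ∈ g.el X)
    (hH' : ∀ X, m.In n X → H' (X.image m.φ) = m.Φ (H X)) (hℓ : ℓ ≤ ℓ') (hn : ℓ' + 3 ≤ n)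
    {U : Finset g.P} (hU : m.In n U) :
    g'.remI s' ℓ ℓ' H' t' (U.image m.φ) = h.lift.Φ (g.remI s ℓ ℓ' H t U) := by
  have h0 : m.In 0 U := hU.le (Nat.zero_le _)
  have h1 := Cl_hom _ _ m.Φ m.Φ_one m.Φ_mul m.Φ m.Φ_one m.Φ_mul m.φ U h0.injOn (g.el U)
    (fun _ hF => FMap.cov_of (covP_anti (C.Dm_anti _) ℓ ℓ') (covP_anti (C.Dm_anti _) ℓ ℓ')
      (fun x hx x' hx' => FMap.covP_map hℓ (Iso.le (hU x hx) hn) (Iso.le (hU x' hx') hn)) hF) H H'
    (fun X hX => el_mono hX (hH X)) fun X hX => hH' X (hU.sub hX)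
  have h2 := Cl_hom _ _ h.lift.Φ h.lift.Φ_one h.lift.Φ_mul h.lift.Φ h.lift.Φ_one h.lift.Φ_mul m.φ U
    h0.injOn ((g.xt s).el U)
    (fun _ hF => FMap.cov_of (m := h.lift) (covP_anti (C.Dm_anti g.A) ℓ ℓ')
      (covP_anti (C.Dm_anti g'.A) ℓ ℓ')
      (fun x hx x' hx' => FMap.covP_map (m := m) hℓ (Iso.le (hU x hx) hn) (Iso.le (hU x' hx') hn))
      hF) (g.HI s H t) (g'.HI s' H' t')
    (fun X hX => el_mono (g := g.xt s) hX (HI_el hH r.loc X)) fun X hX => by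
      rw [HI, HI, StI.Y, StI.Y, map_add, map_add, h.emb, hH' X (hU.sub hX), r.K X (hU.sub hX),
        h.car (h0.sub hX) r.z]
  rw [remI, remI, map_sub, map_sub, h.emb, h1, h2, h.car h0 r.z]

theorem Mk.Rel.step (r : h.Rel n t t') (hH : ∀ X, H X ∈ g.el X)
    (hH' : ∀ X, m.In n X → H' (X.image m.φ) = m.Φ (H X)) (hℓ : ℓ ≤ ℓ') (hn : ℓ' + 3 ≤ n)
    (hd : m.dep (ℓ + n) (s i).1) {u : Fin k → g.P × Fin 4 → ℝ} {u' : Fin k → g'.P × Fin 4 → ℝ}
    (hu : u i = (m.ε (s i).1 * m.y.σ (s i).2) • m.pull (u' i)) :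
    h.Rel n (g.stepI s ℓ ℓ' H u t) (g'.stepI s' ℓ ℓ' H' u' t') where
  loc U := by
    classical
    exact Subalgebra.sub_mem _ (remI_el ℓ ℓ' hH r.loc U) (sum_el (fun _ e => e.2) _)
  K U hU := by
    simp only [stepI]
    rw [map_sub, r.rem hH hH' hℓ hn hU]
    exact congrArg _ (h.sum (hU.le (Nat.zero_le _)) (fun _ e => e.2)
      (and_congr (Iso.small_iff (hU.le (by omega))) (h.mem (hU.le (Nat.zero_le _))))
      fun _ => by rw [h.tI, ← hu])
  z := by
    classical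
    have hW : m.In n (ball (s i).1 ℓ) := Iso.in_ball hd le_rfl
    have h0 : m.In 0 (ball (s i).1 ℓ) := hW.le (Nat.zero_le _)
    simp only [stepI]
    rw [r.z, Iso.sum_sets h0 (fun U hU => subset_ball hU.2 hU.1) (fun U hU => by
        rw [Iso.image_ball (Iso.le hd (by omega))]
        exact subset_ball (by simpa only [h.eq] using hU.2) hU.1)
      fun U hU => and_congr (Iso.small_iff ((hW.sub hU).le (by omega))) (h.mem (h0.sub hU))]
    congr 1
    refine sum_congr rfl fun U hU => ?_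
    have h2 := (mem_filter.1 hU).2
    rw [r.rem hH hH' hℓ hn (hW.sub (subset_ball h2.2 h2.1)), h.tI, ← hu]

end step

theorem Mk.init (h : Mk m s s' i) (hg : ∀ κ, (g.src κ).Ok) {q : Par}
    (hin : ∀ X, m.In 0 X → ∀ n', g'.HinC q 0 (X.image m.φ) n' = m.Φ (g.HinC q 0 X (n' ∘ m.η)))
    (hW : ∀ X, m.In 0 X → g'.W0C q 0 (X.image m.φ) = m.Φ (g.W0C q 0 X)) (o : ℝ)
    {O : Fin k → g.Cfg → ℝ} {O' : Fin k → g'.Cfg → ℝ} {K : ℕ} (hO : LocO s K O)
    (hO' : ∀ n', O' i n' = O i (n' ∘ m.η))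
    (hb : ∀ X, m.In 0 X → (ball (s' i).1 K = X.image m.φ ↔ ball (s i).1 K = X)) :
    h.Rel 0 (g.initI s q o O K) (g'.initI s' q o O' K) where
  loc := initI_el hg q o hO
  K U hU := by
    have h1 := Cl_hom ((g.xt s).E0 (q.x * q.Z)) ((g'.xt s').E0 (q.x * q.Z))
      (LinearMap.pi fun n' => h.lift.Φ ∘ₗ LinearMap.proj (n' ∘ m.η))
      (funext fun _ => h.lift.Φ_one) (fun _ _ => funext fun _ => h.lift.Φ_mul _ _) h.lift.Φ
      h.lift.Φ_one h.lift.Φ_mul m.φ U hU.injOn ((g.xt s).RI U)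
      (fun _ hF => E0_map h.lift _ hU hF) (g.HinI s q o O K) (g'.HinI s' q o O' K)
      (fun X hX => RI_mono (g := g.xt s) hX (HinI_RI hg q o hO X)) fun X hX => funext fun n' => by
        change _ = h.lift.Φ (g.HinI s q o O K X (n' ∘ m.η))
        rw [HinI, HinI, map_add, map_add, h.emb, hin X (hU.sub hX), h.car (hU.sub hX) rfl]
        exact congrArg _ (h.sum (hU.sub hX)
          (fun j e => by rw [← e]; exact mem_ball.2 (by rw [tdist_self]; omega))
          (hb X (hU.sub hX)) fun _ => by rw [hO'])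
    simp only [initI]
    rw [map_sub, map_sub, h.emb, h1, hW U hU, h.car hU rfl]
  z := rfl

end Vale.Agent.P144Z.IO.Ag
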