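import Vale.Agent.P144D.I.O.Defs2

/-!
Algebra of the insertions: scaling of the sources, the inclusion, the local algebras.
-/

namespace Vale.Agent.P144Z.IO

open Finset Matrix Geo Mn

section Gen

variable {S S' S'' : Type} [Fintype S] [DecidableEq S] [Fintype S'] [DecidableEq S'] [Fintype S'']
  [DecidableEq S'']

theorem mulL_apply (u δ : S → ℝ) (t : S) : I1.mulL u δ t = u t * δ t := by
  rw [I1.mulL, Matrix.toLin'_apply, mulVec_diagonal]

theorem evMap_comp (f : (S → ℝ) →ₗ[ℝ] (S' → ℝ)) (f' : (S' → ℝ) →ₗ[ℝ] (S'' → ℝ)) (F : Ev S) :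
    evMap f' (evMap f F) = evMap (f' ∘ₗ f) F :=
  Ev.val_injective (by rw [val_evMap, val_evMap, val_evMap, I2.map_map])

theorem evMap_congr {f f' : (S → ℝ) →ₗ[ℝ] (S' → ℝ)} {T : Set S} {F : Ev S} (hF : F ∈ evLoc T)
    (h : ∀ s ∈ T, f (Pi.single s 1) = f' (Pi.single s 1)) : evMap f F = evMap f' F :=
  Ev.val_injective (by rw [val_evMap, val_evMap]; exact map_congr hF h)

theorem evMap_id (F : Ev S) : evMap LinearMap.id F = F :=
  Ev.val_injective (by rw [val_evMap, ExteriorAlgebra.map_id]; rfl)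

theorem evMap_mem {f : (S → ℝ) →ₗ[ℝ] (S' → ℝ)} {T : Set S} {T' : Set S'} {F : Ev S}
    (hF : F ∈ evLoc T) (h : ∀ s ∈ T, ∀ s' ∉ T', f (Pi.single s 1) s' = 0) :
    evMap f F ∈ evLoc T' := by
  rw [R6.mem_evLoc, val_evMap]
  exact map_loc hF h

theorem mulL_mem (u : S → ℝ) {T : Set S} {F : Ev S} (hF : F ∈ evLoc T) :
    evMap (I1.mulL u) F ∈ evLoc T :=
  evMap_mem hF fun s hs t ht => by rw [mulL_apply, R6.single_zero hs t ht, mul_zero]

theorem evG_evMap {C : Matrix S S ℝ} {C' : Matrix S' S' ℝ} (hC : Cᵀ = -C) (hC' : C'ᵀ = -C')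
    (f : (S → ℝ) →ₗ[ℝ] (S' → ℝ)) (h : ∀ a b, f a ⬝ᵥ C' *ᵥ f b = a ⬝ᵥ C *ᵥ b) (F : Ev S) :
    evG C' (evMap f F) = evMap f (evG C F) := by
  apply Ev.val_injective
  rw [val_evG, val_evMap, val_evMap, val_evG]
  refine gauss_map hC hC' f (A1.mem_loc_univ _) fun s _ s' _ => ?_
  rw [h, single_one_dotProduct, mulVec_single_one]
  rfl

theorem pp_smul_left (c : ℝ) (a b : S → ℝ) : pp (c • a) b = c • pp a b :=
  Ev.val_injective (by rw [map_smul, val_pp, val_pp, A1.psi_smul, smul_mul_assoc])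

theorem pp_sq (a b : S → ℝ) : pp a b * pp a b = 0 := by
  apply Ev.val_injective
  rw [map_mul, val_pp, map_zero, mul_assoc, ← mul_assoc (psi b), A1.psi_swap b a, neg_mul, mul_neg,
    ← mul_assoc, ← mul_assoc, A1.psi_sq, zero_mul, zero_mul, neg_zero]

theorem hom_E0 {ι : Type} [Fintype ι] [DecidableEq ι] (Φ : Ev S →ₗ[ℝ] Ev S') (h1 : Φ 1 = 1)
    (hm : ∀ F G, Φ (F * G) = Φ F * Φ G) {e : ι → Ev S} {e' : ι → Ev S'} (he : ∀ i, Φ (e i) = e' i)
    (w : ℝ) (F : (ι → Bool) → Ev S) :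
    ∑ n, Φ (F n) * ∏ i, (if n i then w • e' i else 1 - w • e' i) =
      Φ (∑ n, F n * ∏ i, if n i then w • e i else 1 - w • e i) := by
  rw [map_sum]
  refine sum_congr rfl fun n _ => ?_
  rw [hm]
  congr 1
  refine Eq.trans (prod_congr rfl fun i _ => ?_) (map_prod (AlgHom.ofLinearMap Φ h1 hm) _ _).symm
  change _ = Φ _
  split_ifs
  · rw [map_smul, he]
  · rw [map_sub, map_smul, h1, he]

omit [Fintype S] in
theorem sg_ne {a b : S} (h : b ≠ a) : (Pi.single a 1 : S → ℝ) b = 0 := Pi.single_eq_of_ne h _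

omit [Fintype S] in
theorem sg_eq (a : S) : (Pi.single a 1 : S → ℝ) a = 1 := Pi.single_eq_same _ _

end Gen

variable {g : Geo} {k : ℕ} {s : Fin k → g.P × Fin 4}

/-- The factors of `dg`. -/
def du (a : g.K → ℝ) : g.S → ℝ := Sum.elim 1 fun p => if p.2 = 0 then a p.1 else 1

theorem dg_eq (a : g.K → ℝ) : g.dg a = evMap (I1.mulL (du a)) := rfl

theorem du_ex (a : g.K → ℝ) (δ : g.P × Fin 4 → ℝ) : I1.mulL (du a) (g.ex δ) = g.ex δ := by
  funext t
  rw [mulL_apply]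
  rcases t with t | t
  · exact one_mul _
  · exact mul_zero _

theorem du_inl (a : g.K → ℝ) (δ : g.S → ℝ) : I1.mulL (du a) δ ∘ Sum.inl = δ ∘ Sum.inl :=
  funext fun _ => (mulL_apply _ _ _).trans (one_mul _)

theorem du_res (a : g.K → ℝ) (T : Set g.S) (δ : g.S → ℝ) :
    res T (I1.mulL (du a) δ) = I1.mulL (du a) (res T δ) := by
  funext t
  rw [mulL_apply, RN.res_apply, RN.res_apply, mulL_apply]
  split_ifs
  · rfl
  · rw [mul_zero]

theorem dg_one' (a : g.K → ℝ) : g.dg a 1 = 1 := R6.evMap_one _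

theorem dg_mul (a : g.K → ℝ) (F G : g.E) : g.dg a (F * G) = g.dg a F * g.dg a G :=
  R6.evMap_mul _ F G

theorem dg_exp (a : g.K → ℝ) (F : g.E) :
    g.dg a (NormedSpace.exp F) = NormedSpace.exp (g.dg a F) :=
  hom_exp _ (dg_one' a) (dg_mul a) F

theorem dg_dg (a b : g.K → ℝ) (F : g.E) : g.dg a (g.dg b F) = g.dg (a * b) F := by
  rw [dg_eq, dg_eq, dg_eq, evMap_comp]
  refine congrArg (evMap · F) (LinearMap.ext fun δ => funext fun t => ?_)
  rw [LinearMap.comp_apply, mulL_apply, mulL_apply, mulL_apply, ← mul_assoc]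
  congr 1
  rcases t with t | t
  · exact one_mul _
  · simp only [du, Sum.elim_inr, Pi.mul_apply]
    split_ifs
    · rfl
    · exact one_mul _

theorem dg_id (F : g.E) : g.dg 1 F = F := by
  rw [dg_eq]
  refine Eq.trans (congrArg (evMap · F) (LinearMap.ext fun δ => funext fun t => ?_)) (evMap_id F)
  rw [mulL_apply]
  rcases t with t | t
  · exact one_mul _
  · simp [du]

theorem dg_bv (a : g.K → ℝ) (κ : g.K) : g.dg a (g.bv κ) = a κ • g.bv κ := by
  rw [dg_eq, bv, R6.evMap_pp, I1.mulL_single, I1.mulL_single, pp_smul_left]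
  simp [du]

theorem dg_edge (a : g.K → ℝ) (x : g.P) (i : Fin 2) : g.dg a (g.edge x i) = g.edge x i := by
  rw [dg_eq, edge, map_smul, R6.evMap_pp, ← RN.ex_single, ← RN.ex_single, du_ex, du_ex]

theorem dg_bE (a : g.K → ℝ) (κ : g.K) : g.dg a (g.bE κ) = a κ • g.bE κ := by
  rw [bE, dg_mul, dg_bv, dg_edge, smul_mul_assoc]

theorem dg_el (a : g.K → ℝ) {X : Finset g.P} {F : g.E} (hF : F ∈ g.el X) : g.dg a F ∈ g.el X :=
  mulL_mem _ hF

theorem evG_dg {C : Matrix (Tor g.M × Fin 4) (Tor g.M × Fin 4) ℝ} (hC : Cᵀ = -C) (a : g.K → ℝ)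
    (F : g.E) : evG (g.exM C) (g.dg a F) = g.dg a (evG (g.exM C) F) :=
  evG_evMap (RN.exM_anti hC) (RN.exM_anti hC) (I1.mulL (du a))
    (fun _ _ => by rw [RN.exM_dot, RN.exM_dot, du_inl, du_inl]) F

theorem E0_dg (w : ℝ) (a : g.K → ℝ) (F : g.Cfg → g.E) :
    g.E0 w (fun n => g.dg a (F n)) = g.dg a (g.E0 w F) :=
  hom_E0 (g.dg a) (dg_one' a) (dg_mul a) (fun e : Tor g.M × Fin 2 => dg_edge a e.1 e.2) w F

theorem TL_dg (ℓ : ℕ) (a : g.K → ℝ) (F : g.E) : g.TL ℓ (g.dg a F) = g.dg a (g.TL ℓ F) :=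
  LM.TL_sub (du_ex a) (du_res a _) ℓ F

theorem noF_dg (a : g.K → ℝ) (F : g.E) : g.noF (g.dg a F) = g.dg a (g.noF F) := by
  rw [dg_eq, noF, evMap_comp, evMap_comp]
  exact congrArg (evMap · F) (LinearMap.ext (du_res a _))

theorem embL_ex (δ : g.P × Fin 4 → ℝ) : g.embL s (g.ex δ) = (g.xt s).ex δ := by
  funext t
  rcases t with t | ⟨κ | i, d⟩ <;> rfl

theorem embL_inl (x : g.P × Fin 4) :
    g.embL s (Pi.single (Sum.inl x) 1) = Pi.single (Sum.inl x) 1 := by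
  rw [← RN.ex_single, embL_ex]
  exact RN.ex_single (g := g.xt s) x

theorem embL_inr (κ : g.K) (d : Fin 2) :
    g.embL s (Pi.single (Sum.inr (κ, d)) 1) = Pi.single (Sum.inr (Sum.inl κ, d)) 1 := by
  funext t
  rcases t with t | ⟨κ' | i, d'⟩
  · exact (sg_ne (S := g.S) (a := Sum.inr (κ, d)) Sum.inl_ne_inr).trans
      (sg_ne (S := (g.xt s).S) Sum.inl_ne_inr).symm
  · by_cases h : (κ', d') = (κ, d)
    · obtain ⟨rfl, rfl⟩ := Prod.mk.inj h
      exact (sg_eq (S := g.S) _).trans (sg_eq (S := (g.xt s).S) _).symm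
    · refine (sg_ne (S := g.S) fun e => h (Sum.inr.inj e)).trans
        (sg_ne (S := (g.xt s).S) fun e => h ?_).symm
      obtain ⟨e1, e2⟩ := Prod.mk.inj (Sum.inr.inj e)
      rw [Sum.inl.inj e1, e2]
  · exact (sg_ne (S := (g.xt s).S) fun e => Sum.inr_ne_inl (Prod.mk.inj (Sum.inr.inj e)).1).symm

theorem emb_one : g.emb s 1 = 1 := R6.evMap_one _

theorem emb_mul (F G : g.E) : g.emb s (F * G) = g.emb s F * g.emb s G := R6.evMap_mul _ F G

theorem emb_exp (F : g.E) : g.emb s (NormedSpace.exp F) = NormedSpace.exp (g.emb s F) :=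
  hom_exp _ emb_one emb_mul F

theorem emb_edge (x : g.P) (i : Fin 2) : g.emb s (g.edge x i) = (g.xt s).edge x i := by
  rw [emb, edge, map_smul, R6.evMap_pp, embL_inl, embL_inl]
  rfl

theorem emb_bv (κ : g.K) : g.emb s (g.bv κ) = (g.xt s).bv (Sum.inl κ) := by
  rw [emb, bv, R6.evMap_pp, embL_inr, embL_inr]
  rfl

theorem emb_noF (F : g.E) : (g.xt s).noF (g.emb s F) = g.emb s (g.noF F) := by
  rw [emb, noF, noF, evMap_comp, evMap_comp]
  refine congrArg (evMap · F) (LinearMap.ext fun δ => funext fun t => ?_)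
  rcases t with t | ⟨κ | i, d⟩
  · exact (I2.pS_inl (g.xt s) _ t).trans (I2.pS_inl g δ t).symm
  · exact (I2.pS_inr (g.xt s) _ _).trans (I2.pS_inr g δ (κ, d)).symm
  · exact I2.pS_inr (g.xt s) _ _

theorem emb_elI {X : Finset g.P} {F : g.E} (hF : F ∈ g.el X) : g.emb s F ∈ g.elI s X := by
  refine evMap_mem hF fun t ht t' ht' => ?_
  rcases t with t | ⟨κ, d⟩
  · refine (congrFun (embL_inl t) t').trans (sg_ne (S := (g.xt s).S) ?_)
    rintro rfl
    exact ht' ⟨ht, by rintro ⟨i, ⟨⟩⟩⟩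
  · refine (congrFun (embL_inr κ d) t').trans (sg_ne (S := (g.xt s).S) ?_)
    rintro rfl
    exact ht' ⟨ht, by rintro ⟨i, ⟨⟩⟩⟩

theorem elI_el {X : Finset g.P} {F : (g.xt s).E} (hF : F ∈ g.elI s X) : F ∈ (g.xt s).el X :=
  A1.loc_mono Set.sdiff_subset hF

theorem emb_sub {X : Finset g.P} {F : g.E} (hF : F ∈ g.sub X) : g.emb s F ∈ (g.xt s).sub X := by
  refine RN.mem_sub.2 ⟨elI_el (emb_elI hF.1), ?_⟩
  have h : (g.xt s).flip ∘ₗ g.embL s = g.embL s ∘ₗ g.flip := by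
    refine LinearMap.ext fun δ => funext fun t => ?_
    rw [LinearMap.comp_apply, RN.flip_apply]
    rcases t with t | ⟨κ | i, d⟩
    · exact (RN.flip_apply δ (Sum.inl t)).symm
    · exact (RN.flip_apply δ (Sum.inr (κ, d))).symm
    · rfl
  rw [emb, val_evMap, I2.map_map, h, ← I2.map_map, RN.sub_flip hF]

theorem dg_emb (a : g.K ⊕ Fin k → ℝ) (F : g.E) :
    (g.xt s).dg a (g.emb s F) = g.emb s (g.dg (a ∘ Sum.inl) F) := by
  refine (evMap_comp _ _ F).trans (Eq.trans ?_ (evMap_comp _ _ F).symm)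
  refine congrArg (evMap · F) (LinearMap.ext fun δ => funext fun t => ?_)
  refine (mulL_apply (S := (g.xt s).S) _ _ t).trans ?_
  rcases t with t | ⟨κ | i, d⟩
  · exact (mulL_apply (du (a ∘ Sum.inl)) δ (Sum.inl t)).symm
  · exact (mulL_apply (du (a ∘ Sum.inl)) δ (Sum.inr (κ, d))).symm
  · exact mul_zero _

theorem scI_emb (a : Fin k → ℝ) (F : g.E) : g.scI s a (g.emb s F) = g.emb s F :=
  (dg_emb _ F).trans (congrArg _ (dg_id F))

theorem evG_emb {C : Matrix (Tor g.M × Fin 4) (Tor g.M × Fin 4) ℝ} (hC : Cᵀ = -C) (F : g.E) :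
    evG ((g.xt s).exM C) (g.emb s F) = g.emb s (evG (g.exM C) F) :=
  evG_evMap (RN.exM_anti hC) (RN.exM_anti (g := g.xt s) hC) _
    (fun a b => (RN.exM_dot (g := g.xt s) C _ _).trans (RN.exM_dot C a b).symm) F

theorem E0_emb (w : ℝ) (F : g.Cfg → g.E) :
    (g.xt s).E0 w (fun n => g.emb s (F n)) = g.emb s (g.E0 w F) :=
  hom_E0 (g.emb s) emb_one emb_mul (fun e : Tor g.M × Fin 2 => emb_edge e.1 e.2) w F

theorem Cl_emb {C : Matrix (Tor g.M × Fin 4) (Tor g.M × Fin 4) ℝ} (hC : Cᵀ = -C)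
    (H : Finset g.P → g.E) (U : Finset g.P) :
    Cl (evG ((g.xt s).exM C)) (fun X => g.emb s (H X)) U = g.emb s (Cl (evG (g.exM C)) H U) := by
  have h := Cl_hom (evG (g.exM C)) (evG ((g.xt s).exM C)) (g.emb s) emb_one emb_mul (g.emb s)
    emb_one emb_mul id U (Set.injOn_id _) ⊤ (fun F _ => evG_emb hC F) H
    (fun X => g.emb s (H X)) (fun _ _ => Algebra.mem_top) (fun X _ => by rw [image_id])
  rwa [image_id] at h

theorem Cl_emb0 (w : ℝ) (H : Finset g.P → g.Cfg → g.E) (U : Finset g.P) :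
    Cl ((g.xt s).E0 w) (fun X n => g.emb s (H X n)) U = g.emb s (Cl (g.E0 w) H U) := by
  have h := Cl_hom (g.E0 w) ((g.xt s).E0 w) ((g.emb s).compLeft g.Cfg) (funext fun _ => emb_one)
    (fun _ _ => funext fun _ => emb_mul _ _) (g.emb s)
    emb_one emb_mul id U (Set.injOn_id _) ⊤ (fun F _ => E0_emb w F) H
    (fun X n => g.emb s (H X n)) (fun _ _ => Algebra.mem_top) (fun X _ => by rw [image_id]; rfl)
  rwa [image_id] at h

/-- The product of the first generator of a source with a field. -/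
noncomputable def ei (κ : g.K) (x : g.P × Fin 4) : g.E :=
  pp (Pi.single (Sum.inr (κ, 0)) 1) (g.ex (Pi.single x 1))

theorem eI_eq (i : Fin k) : g.eI s i = ei (g := g.xt s) (Sum.inr i) (s i) := rfl

theorem dg_ei (a : g.K → ℝ) (κ : g.K) (x : g.P × Fin 4) : g.dg a (ei κ x) = a κ • ei κ x := by
  rw [dg_eq, ei, R6.evMap_pp, du_ex, I1.mulL_single, pp_smul_left]
  rfl

theorem sg_inl (p : g.K × Fin 2) : (Pi.single (Sum.inr p) 1 : g.S → ℝ) ∘ Sum.inl = 0 :=
  funext fun _ => sg_ne Sum.inl_ne_inr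

theorem evG_ei {C : Matrix (Tor g.M × Fin 4) (Tor g.M × Fin 4) ℝ} (hC : Cᵀ = -C) (κ : g.K)
    (x : g.P × Fin 4) : evG (g.exM C) (ei κ x) = ei κ x := by
  rw [ei, evG_pp (RN.exM_anti hC), RN.exM_dot, sg_inl, zero_dotProduct, zero_smul, add_zero]

theorem beta_ei (u : g.P × Fin 4 → ℝ) (κ : g.K) (x : g.P × Fin 4) :
    beta (Ev.val (ei κ x)) (Pi.single (Sum.inr (κ, 0)) 1) (g.ex u) = u x := by
  rw [ei, val_pp, beta_pp, single_one_dotProduct, sg_eq, I2.ex_dot, I2.ex_dot, sg_inl,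
    zero_dotProduct, mul_zero, sub_zero, one_mul, I2.ex_inl, single_one_dotProduct]

theorem dg_eI (a : g.K ⊕ Fin k → ℝ) (i : Fin k) :
    (g.xt s).dg a (g.eI s i) = a (Sum.inr i) • g.eI s i := dg_ei (g := g.xt s) a _ _

theorem scI_eI (a : Fin k → ℝ) (i : Fin k) : g.scI s a (g.eI s i) = a i • g.eI s i := dg_eI _ i

theorem scI_scI (a b : Fin k → ℝ) (F : (g.xt s).E) :
    g.scI s a (g.scI s b F) = g.scI s (a * b) F := by
  refine (dg_dg _ _ F).trans (congrArg ((g.xt s).dg · F) (funext fun t => ?_))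
  rcases t with t | t
  · exact one_mul (1 : ℝ)
  · rfl

theorem scI_id (F : (g.xt s).E) : g.scI s 1 F = F := by
  refine Eq.trans (congrArg ((g.xt s).dg · F) (funext fun t => ?_)) (dg_id F)
  rcases t with t | t <;> rfl

theorem scI_one (a : Fin k → ℝ) : g.scI s a 1 = 1 := dg_one' _

theorem scI_mul (a : Fin k → ℝ) (F G : (g.xt s).E) :
    g.scI s a (F * G) = g.scI s a F * g.scI s a G := dg_mul _ F G

theorem eI_sq (i : Fin k) : g.eI s i * g.eI s i = 0 := pp_sq _ _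

theorem evG_eI {C : Matrix (Tor g.M × Fin 4) (Tor g.M × Fin 4) ℝ} (hC : Cᵀ = -C) (i : Fin k) :
    evG ((g.xt s).exM C) (g.eI s i) = g.eI s i := evG_ei (g := g.xt s) hC _ _

theorem tI_eI {u : g.P × Fin 4 → ℝ} (i : Fin k) : g.tI s u i (g.eI s i) = u (s i) :=
  beta_ei (g := g.xt s) u _ _

theorem tI_add (u : g.P × Fin 4 → ℝ) (i : Fin k) (F G : (g.xt s).E) :
    g.tI s u i (F + G) = g.tI s u i F + g.tI s u i G := by
  simp only [tI, beta, map_add]

theorem tI_smul (u : g.P × Fin 4 → ℝ) (i : Fin k) (c : ℝ) (F : (g.xt s).E) :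
    g.tI s u i (c • F) = c * g.tI s u i F := by
  simp only [tI, beta, map_smul, smul_eq_mul]

theorem elI_mono {X Y : Finset g.P} (h : X ⊆ Y) : g.elI s X ≤ g.elI s Y := fun _ hF =>
  A1.loc_mono (Set.sdiff_subset_sdiff_left (s₂ := (g.xt s).gens Y) fun _ ht => h ht) hF

theorem eI_mem {X : Finset g.P} {i : Fin k} (h : (s i).1 ∈ X) : g.eI s i ∈ g.elI s X := by
  refine R6.pp_mem (R6.single_zero (T := _ \ _) ⟨h, ?_⟩) ?_
  · rintro ⟨j, e⟩
    exact absurd (Prod.mk.inj (Sum.inr.inj e)).2 (by decide)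
  · intro t ht
    refine (congrFun (RN.ex_single (g := g.xt s) (s i)) t).trans (sg_ne (S := (g.xt s).S) ?_)
    rintro rfl
    exact ht ⟨h, by rintro ⟨i, ⟨⟩⟩⟩

theorem dg_elI (a : g.K ⊕ Fin k → ℝ) {X : Finset g.P} {F : (g.xt s).E} (hF : F ∈ g.elI s X) :
    (g.xt s).dg a F ∈ g.elI s X := mulL_mem _ hF

theorem scI_elI (a : Fin k → ℝ) {X : Finset g.P} {F : (g.xt s).E} (hF : F ∈ g.elI s X) :
    g.scI s a F ∈ g.elI s X := mulL_mem _ hF

theorem evG_elI (C : Matrix (g.xt s).S (g.xt s).S ℝ) {X : Finset g.P} {F : (g.xt s).E}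
    (hF : F ∈ g.elI s X) : evG C F ∈ g.elI s X := R6.evG_mem C hF

theorem carI_mem (z : Fin k → ℝ) (X : Finset g.P) : g.carI s z X ∈ g.elI s X :=
  Subalgebra.sum_mem _ fun _ hi => Subalgebra.smul_mem _
    (eI_mem ((mem_filter.1 hi).2 ▸ mem_singleton_self _)) _

theorem carI_empty (z : Fin k → ℝ) : g.carI s z ∅ = 0 := by
  rw [carI, filter_eq_empty_iff.2 fun i _ => singleton_ne_empty _, sum_empty]

theorem sum_carI (z : Fin k → ℝ) : ∑ X, g.carI s z X = ∑ i, z i • g.eI s i :=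
  Finset.sum_fiberwise univ (fun i => ({(s i).1} : Finset g.P)) _

theorem scI_carI (a z : Fin k → ℝ) (X : Finset g.P) :
    g.scI s a (g.carI s z X) = g.carI s (a * z) X := by
  simp only [carI, map_sum, map_smul, scI_eI, smul_smul, Pi.mul_apply, mul_comm]

end Vale.Agent.P144Z.IO
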