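import Vale.Agent.P144D.I.O.Alg

/-!
The flow of the insertions is well formed.
-/

namespace Vale.Agent.P144Z.IO

open Finset Matrix Geo Mn

section Gen

variable {S : Type} [Fintype S] [DecidableEq S]

/-- An element is affine in the factor of one generator. -/
theorem mulL_affine {T : Set S} {u u₀ : S → ℝ} {η : S} (h0 : u₀ η = 0)
    (h1 : ∀ t ∈ T, t ≠ η → u t = 1 ∧ u₀ t = 1) {F : Gr S} (hF : F ∈ loc T) :
    gen η * ExteriorAlgebra.map (I1.mulL u₀) F = gen η * F ∧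
      ExteriorAlgebra.map (I1.mulL u) F = ExteriorAlgebra.map (I1.mulL u₀) F +
        u η • (F - ExteriorAlgebra.map (I1.mulL u₀) F) := by
  have hg : ∀ (v : S → ℝ) t, ExteriorAlgebra.map (I1.mulL v) (gen t) = v t • gen t := fun v t => by
    rw [gen, A1.map_psi, I1.mulL_single, A1.psi_smul]
  have hs : gen η * gen η = 0 := A1.psi_sq _
  induction hF using A1.loc_ind with
  | h1 => simp
  | hadd F G _ _ hF hG =>
    refine ⟨by rw [map_add, mul_add, mul_add, hF.1, hG.1], ?_⟩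
    rw [map_add, map_add, hF.2, hG.2]
    module
  | hsmul c F _ hF =>
    refine ⟨by rw [map_smul, mul_smul_comm, mul_smul_comm, hF.1], ?_⟩
    rw [map_smul, map_smul, hF.2]
    module
  | hgen t ht F _ ih =>
    rw [map_mul, map_mul, hg, hg, ih.2]
    by_cases e : t = η
    · subst e
      rw [h0, zero_smul, zero_mul, mul_zero, ← mul_assoc, hs, zero_mul, zero_add, sub_zero,
        smul_mul_assoc, mul_add, mul_smul_comm, mul_sub, ih.1, sub_self, smul_zero, add_zero]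
      exact ⟨rfl, rfl⟩
    · have hw : gen η * gen t = -(gen t * gen η) := A1.psi_swap _ _
      rw [(h1 t ht e).1, (h1 t ht e).2, one_smul, ← mul_assoc, ← mul_assoc, hw, neg_mul, neg_mul,
        mul_assoc, mul_assoc, ih.1, mul_add, mul_smul_comm, mul_sub]
      exact ⟨rfl, rfl⟩

end Gen

variable {g : Geo} {k : ℕ} {s : Fin k → g.P × Fin 4}

/-- `scI a` only depends on the values of `a` at the marks in `X`. -/
theorem scI_congr {X : Finset g.P} {F : (g.xt s).E} (hF : F ∈ g.elI s X) {a b : Fin k → ℝ}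
    (h : ∀ i, (s i).1 ∈ X → a i = b i) : g.scI s a F = g.scI s b F := by
  refine evMap_congr hF fun t ht => (I1.mulL_single _ t).trans
    (Eq.trans (congrArg (· • _) ?_) (I1.mulL_single _ t).symm)
  rcases t with t | ⟨κ | i, d⟩
  · rfl
  · rfl
  · exact congrArg (fun c => if d = 0 then c else 1) (h i ht.1)

theorem zero_of_no_mark {X : Finset g.P} {F : (g.xt s).E} (hF : F ∈ g.elI s X)
    (h0 : g.scI s 0 F = 0) (h : ∀ i, (s i).1 ∉ X) : F = 0 := by
  rw [← scI_id F, scI_congr hF (b := 0) fun i hi => absurd hi (h i), h0]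

theorem scI_lin {X : Finset g.P} {F : (g.xt s).E} (hF : F ∈ g.elI s X) (h0 : g.scI s 0 F = 0)
    {i : Fin k} (h : ∀ i', (s i').1 ∈ X → i' = i) (a : Fin k → ℝ) : g.scI s a F = a i • F := by
  have key : ∀ (b : Fin k → ℝ) (t : (g.xt s).S), t ∈ (g.xt s).gens X →
      t ≠ Sum.inr (Sum.inr i, 0) → du (g := g.xt s) (Sum.elim 1 b) t = 1 := by
    rintro b (t | ⟨κ | j, d⟩) ht hne
    · rfl
    · exact ite_self _
    · refine if_neg ?_
      rintro (rfl : d = 0)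
      exact hne (congrArg (fun j => Sum.inr (Sum.inr j, 0)) (h j ht))
  have h1 := (mulL_affine (u := du (g := g.xt s) (Sum.elim 1 a))
    (u₀ := du (g := g.xt s) (Sum.elim 1 (0 : Fin k → ℝ))) (η := Sum.inr (Sum.inr i, 0)) rfl
    (fun t ht hne => ⟨key a t ht hne, key 0 t ht hne⟩) (elI_el hF)).2
  have h2 := (val_evMap _ F).symm.trans (congrArg Ev.val h0)
  apply Ev.val_injective
  refine (val_evMap _ F).trans (h1.trans ?_)
  refine (congrArg (fun G => G + a i • (Ev.val F - G)) h2).trans ?_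
  simp

theorem scI_zero_eI (i : Fin k) : g.scI s 0 (g.eI s i) = 0 := by
  rw [scI_eI, Pi.zero_apply, zero_smul]

theorem scI_zero_carI (z : Fin k → ℝ) (X : Finset g.P) : g.scI s 0 (g.carI s z X) = 0 := by
  simp only [carI, map_sum, map_smul, scI_zero_eI, smul_zero, sum_const_zero]

theorem HI_mem {H : Finset g.P → g.E} (hH : ∀ X, H X ∈ g.el X) {t : g.StI s} (ht : g.WfI s t)
    (X : Finset g.P) : g.HI s H t X ∈ g.elI s X :=
  add_mem (emb_elI (hH X)) (add_mem (ht.mem X) (carI_mem _ X))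

theorem HI_empty {H : Finset g.P → g.E} (h0 : H ∅ = 0) {t : g.StI s} (ht : g.WfI s t) :
    g.HI s H t ∅ = 0 := by
  rw [HI, StI.Y, h0, map_zero, ht.K0, carI_empty, add_zero, add_zero]

theorem scI_zero_HI (H : Finset g.P → g.E) {t : g.StI s} (ht : g.WfI s t) (X : Finset g.P) :
    g.scI s 0 (g.HI s H t X) = g.emb s (H X) := by
  rw [HI, StI.Y, map_add, map_add, scI_emb, ht.kill, scI_zero_carI, add_zero, add_zero]

theorem Cl_elI (C : Matrix (g.xt s).S (g.xt s).S ℝ) {H : Finset g.P → (g.xt s).E}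
    (hH : ∀ X, H X ∈ g.elI s X) (U : Finset g.P) : Cl (evG C) H U ∈ g.elI s U :=
  Cl_mem_sub _ (g.elI s) (g.elI s) (fun _ _ => elI_mono) (fun _ _ => elI_mono)
    (fun _ _ h => evG_elI C h) fun X _ => hH X

theorem scI_Cl {C : Matrix (Tor g.M × Fin 4) (Tor g.M × Fin 4) ℝ} (hC : Cᵀ = -C) (a : Fin k → ℝ)
    (H : Finset g.P → (g.xt s).E) (U : Finset g.P) :
    g.scI s a (Cl (evG ((g.xt s).exM C)) H U) =
      Cl (evG ((g.xt s).exM C)) (fun X => g.scI s a (H X)) U :=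
  (R3W.Cl_map _ (g.scI s a) (scI_one a) (scI_mul a) (g.scI s a) (scI_one a) (scI_mul a)
    (evG_dg (g := g.xt s) hC _) H U).symm

theorem scI_Cl0 (w : ℝ) (a : Fin k → ℝ) (H : Finset g.P → g.Cfg → (g.xt s).E) (U : Finset g.P) :
    g.scI s a (Cl ((g.xt s).E0 w) H U) =
      Cl ((g.xt s).E0 w) (fun X n => g.scI s a (H X n)) U :=
  (R3W.Cl_map ((g.xt s).E0 w) ((g.scI s a).compLeft g.Cfg) (funext fun _ => scI_one a)
    (fun _ _ => funext fun _ => scI_mul a _ _) (g.scI s a) (scI_one a) (scI_mul a)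
    (E0_dg (g := g.xt s) w _) H U).symm

theorem remI_mem (hA : IsW g.A) (ℓ ℓ' : ℕ) {H : Finset g.P → g.E} (hH : ∀ X, H X ∈ g.el X)
    (h0 : H ∅ = 0) {t : g.StI s} (ht : g.WfI s t) :
    g.remI s ℓ ℓ' H t ∅ = 0 ∧ ∀ U, g.remI s ℓ ℓ' H t U ∈ g.elI s U ∧
      g.scI s 0 (g.remI s ℓ ℓ' H t U) = 0 := by
  have _ := hA
  refine ⟨?_, fun U => ⟨?_, ?_⟩⟩
  · rw [remI, R3W.Cl_eq_zero _ (RN.evG_one _) fun X hX => by
      rw [subset_empty.1 hX, HI_empty h0 ht],
      R3W.Cl_eq_zero _ (RN.evG_one _) fun X hX => by rw [subset_empty.1 hX, h0], map_zero,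
      carI_empty, sub_zero, sub_zero]
  · exact sub_mem (sub_mem (Cl_elI _ (HI_mem hH ht) U) (emb_elI (Cl_mem g.pos hH U)))
      (carI_mem _ U)
  · have h1 := scI_Cl (s := s) (R3W.cov_anti ℓ ℓ') 0 (g.HI s H t) U
    simp only [scI_zero_HI H ht] at h1
    rw [remI, map_sub, map_sub, scI_emb, scI_zero_carI, sub_zero]
    exact sub_eq_zero.2 (h1.trans (Cl_emb (R3W.cov_anti ℓ ℓ') H U))

theorem wf_stepI (hA : IsW g.A) (ℓ ℓ' : ℕ) {H : Finset g.P → g.E} (hH : ∀ X, H X ∈ g.el X)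
    (h0 : H ∅ = 0) (u : Fin k → g.P × Fin 4 → ℝ) {t : g.StI s} (ht : g.WfI s t) :
    g.WfI s (g.stepI s ℓ ℓ' H u t) := by
  classical
  obtain ⟨h1, h2⟩ := remI_mem hA ℓ ℓ' hH h0 ht
  refine ⟨?_, fun X => ?_, fun X => ?_⟩
  · simp only [stepI]
    rw [filter_eq_empty_iff.2 fun i _ h => notMem_empty _ h.2, sum_empty, h1, sub_zero]
  · exact sub_mem (h2 X).1 (Subalgebra.sum_mem _ fun i hi =>
      Subalgebra.smul_mem _ (eI_mem (mem_filter.1 hi).2.2) _)
  · simp only [stepI, map_sub, map_sum, map_smul, scI_zero_eI, (h2 X).2, smul_zero,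
      sum_const_zero, sub_zero]

theorem self_mem_ball (x : g.P) (K : ℕ) : x ∈ ball x K :=
  R6.mem_ball.2 (by rw [tdist_self]; exact Nat.zero_le _)

theorem E0_elI (w : ℝ) {X : Finset g.P} {F : g.Cfg → (g.xt s).E} (hF : F ∈ (g.xt s).RI X)
    (hF' : ∀ n, F n ∈ g.elI s X) : (g.xt s).E0 w F ∈ g.elI s X := by
  refine (E0_RI (g := g.xt s) w hF).symm ▸ Subalgebra.sum_mem _ fun m _ =>
    Subalgebra.mul_mem _ (hF' _) (Subalgebra.prod_mem _ fun t _ => ?_)
  have h : w • (g.xt s).edge t.1.1 t.1.2 ∈ g.elI s X :=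
    Subalgebra.smul_mem _ (emb_edge (s := s) t.1.1 t.1.2 ▸ emb_elI (edge_el t.2.1 t.2.2)) w
  unfold ew
  split_ifs
  · exact h
  · exact Subalgebra.sub_mem _ (Subalgebra.one_mem _) h

theorem HinI_mem (hg : g.OkW) (q : Par) (o : ℝ) (O : Fin k → g.Cfg → ℝ) (K : ℕ)
    (X : Finset g.P) (n : g.Cfg) : g.HinI s q o O K X n ∈ g.elI s X :=
  add_mem (add_mem (emb_elI ((W.R3W.HinC_mem hg (Cor.ok_zero _) q X).2 n).1) (carI_mem _ X))
    (Subalgebra.sum_mem _ fun _ hi => Subalgebra.smul_mem _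
      (eI_mem ((mem_filter.1 hi).2 ▸ self_mem_ball _ K)) _)

theorem HinI_RI (hg : g.OkW) (q : Par) (o : ℝ) {O : Fin k → g.Cfg → ℝ} {K : ℕ}
    (hO : LocO s K O) (X : Finset g.P) : g.HinI s q o O K X ∈ (g.xt s).RI X := by
  refine ⟨fun n => elI_el (HinI_mem hg q o O K X n), fun n n' e => ?_⟩
  have h1 : g.HinC q 0 X n = g.HinC q 0 X n' := by
    rw [HinC_zero]
    exact (Hin_RI hg.src q X).2 n n' e
  unfold HinI
  rw [h1]
  congr 1
  refine sum_congr rfl fun i hi => ?_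
  have h2 := (mem_filter.1 hi).2
  rw [hO i n n' fun e' h3 h4 => e e' ⟨h2 ▸ h3, h2 ▸ h4⟩]

theorem HinI_empty (hg : g.OkW) (q : Par) (o : ℝ) (O : Fin k → g.Cfg → ℝ) (K : ℕ) :
    g.HinI s q o O K ∅ = 0 := by
  funext n
  rw [HinI, W.R3W.HinC_empty hg (Cor.ok_zero _), carI_empty,
    filter_eq_empty_iff.2 fun i _ => ne_empty_of_mem (self_mem_ball _ K), sum_empty]
  simp

theorem scI_zero_HinI (q : Par) (o : ℝ) (O : Fin k → g.Cfg → ℝ) (K : ℕ) (X : Finset g.P)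
    (n : g.Cfg) : g.scI s 0 (g.HinI s q o O K X n) = g.emb s (g.HinC q 0 X n) := by
  simp only [HinI, map_add, map_sum, map_smul, scI_emb, scI_zero_carI, scI_zero_eI, smul_zero,
    sum_const_zero, add_zero]

/-- Functions of the edges inside `X` with values in `elI X`. -/
noncomputable def RII (s : Fin k → g.P × Fin 4) (X : Finset g.P) :
    Subalgebra ℝ (g.Cfg → (g.xt s).E) where
  carrier := {F | F ∈ (g.xt s).RI X ∧ ∀ n, F n ∈ g.elI s X}
  mul_mem' h h' := ⟨((g.xt s).RI X).mul_mem h.1 h'.1, fun n => mul_mem (h.2 n) (h'.2 n)⟩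
  add_mem' h h' := ⟨((g.xt s).RI X).add_mem h.1 h'.1, fun n => add_mem (h.2 n) (h'.2 n)⟩
  algebraMap_mem' r := ⟨((g.xt s).RI X).algebraMap_mem r, fun _ => (g.elI s X).algebraMap_mem r⟩

theorem Cl0_elI (w : ℝ) {H : Finset g.P → g.Cfg → (g.xt s).E} (hH : ∀ X, H X ∈ (g.xt s).RI X)
    (hH' : ∀ X n, H X n ∈ g.elI s X) (U : Finset g.P) : Cl ((g.xt s).E0 w) H U ∈ g.elI s U :=
  Cl_mem_sub (𝒜 := g.Cfg → (g.xt s).E) _ (RII s) (g.elI s)
    (fun _ _ h _ hF => ⟨RI_mono (g := g.xt s) h hF.1, fun n => elI_mono h (hF.2 n)⟩)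
    (fun _ _ => elI_mono) (fun _ _ h => E0_elI w h.1 h.2) fun X _ => ⟨hH X, hH' X⟩

theorem wf_initI (hg : g.OkW) (q : Par) (o : ℝ) {O : Fin k → g.Cfg → ℝ} {K : ℕ}
    (hO : LocO s K O) : g.WfI s (g.initI s q o O K) := by
  refine ⟨?_, fun X => ?_, fun X => ?_⟩
  · have h1 : Cl ((g.xt s).E0 (q.x * q.Z)) (g.HinI s q o O K) ∅ = 0 :=
      R3W.Cl_eq_zero _ (R3W.E0_one _) fun X hX => by
        rw [subset_empty.1 hX]
        exact HinI_empty hg q o O K
    simp only [initI]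
    rw [h1, W.R3W.W0C_empty hg (Cor.ok_zero _), map_zero, carI_empty, sub_zero, sub_zero]
  · exact sub_mem (sub_mem (Cl0_elI _ (HinI_RI hg q o hO) (HinI_mem hg q o O K) X)
      (emb_elI (W.Geo.W0C_mem hg (Cor.ok_zero _) q X).1)) (carI_mem _ X)
  · have h1 := (scI_Cl0 (q.x * q.Z) 0 (g.HinI s q o O K) X).trans
      (Cl_congr _ fun X _ => funext (scI_zero_HinI q o O K X))
    simp only [initI]
    rw [map_sub, map_sub, scI_emb, scI_zero_carI, sub_zero]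
    exact sub_eq_zero.2 (h1.trans (Cl_emb0 _ _ X))

theorem wf_flowI (hg : g.OkW) (L : ℕ) (q : Par) (o : ℝ) {O : Fin k → g.Cfg → ℝ} {K : ℕ}
    (hO : LocO s K O) (u : Fin k → ℕ → g.P × Fin 4 → ℝ) (j : ℕ) :
    g.WfI s (g.flowI s L q o O K u j) := by
  induction j with
  | zero => exact wf_initI hg q o hO
  | succ j ih =>
    have h := W.Geo.wf_flowC hg (Cor.ok_zero _) L q j
    exact wf_stepI hg.sign _ _ (fun X => (h.H_mem X).1) h.H_empty _ ih

theorem sum_Y_init (q : Par) (o : ℝ) (O : Fin k → g.Cfg → ℝ) (K : ℕ) :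
    ∑ X, (g.initI s q o O K).Y X =
      ∑ U, Cl ((g.xt s).E0 (q.x * q.Z)) (g.HinI s q o O K) U - g.emb s (∑ U, g.W0C q 0 U) := by
  simp only [StI.Y, initI, sub_add_cancel, sum_sub_distrib, map_sum]

theorem sum_Y_step (ℓ ℓ' : ℕ) (H : Finset g.P → g.E) (u : Fin k → g.P × Fin 4 → ℝ) (t : g.StI s) :
    ∑ X, (g.stepI s ℓ ℓ' H u t).Y X =
      ∑ U, Cl (evG ((g.xt s).exM (covP (Dm g.A) ℓ ℓ'))) (g.HI s H t) U -
        g.emb s (∑ U, Cl (evG (g.exM (covP (Dm g.A) ℓ ℓ'))) H U) := by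
  classical
  have h1 : ∑ U, g.remI s ℓ ℓ' H t U + ∑ i, t.z i • g.eI s i =
      ∑ U, Cl (evG ((g.xt s).exM (covP (Dm g.A) ℓ ℓ'))) (g.HI s H t) U -
        g.emb s (∑ U, Cl (evG (g.exM (covP (Dm g.A) ℓ ℓ'))) H U) := by
    simp only [remI, sum_sub_distrib, map_sum, sum_carI, sub_add_cancel]
  rw [← h1]
  simp only [StI.Y, stepI, sum_add_distrib, sum_sub_distrib, sum_carI, add_smul, sum_smul,
    sum_filter, ite_smul, zero_smul]
  rw [sum_comm]
  abel

end Vale.Agent.P144Z.IO
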