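import Vale.Agent.P144D.I.O.Defs2

/-!
Contraction at a marked half-edge.
-/

namespace Vale.Agent.P144Z.IO

open Finset Matrix Geo RN

namespace CnI

section gen

variable {G : Geo} {T : Set G.S} {κ₀ : G.K} {H : Gr G.S}

/-- The first generator of the source `κ₀`. -/
noncomputable abbrev eta (G : Geo) (κ₀ : G.K) : G.S → ℝ := Pi.single (Sum.inr (κ₀, 0)) 1

/-- The set `T` only contains fields and the first generator of `κ₀`. -/
def One (T : Set G.S) (κ₀ : G.K) : Prop := ∀ t ∈ T, (∃ x, t = Sum.inl x) ∨ t = Sum.inr (κ₀, 0)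

theorem eta_dot : eta G κ₀ ⬝ᵥ eta G κ₀ = 1 := by
  rw [single_one_dotProduct]
  exact Pi.single_eq_same _ _

theorem rk_apply {S : Type} [Fintype S] (f d δ : S → ℝ) :
    (pair f).smulRight d δ = (δ ⬝ᵥ f) • d := rfl

/-- An element without the term of order zero in the generator is linear in it. -/
theorem lin (hT : One T κ₀) (hH : H ∈ loc T) (h0 : ExteriorAlgebra.map (prF G) H = 0)
    (D : (G.S → ℝ) →ₗ[ℝ] (G.S → ℝ)) (a : ℝ)
    (h1 : ∀ x, D (Pi.single (Sum.inl x) 1) = Pi.single (Sum.inl x) 1)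
    (h2 : D (eta G κ₀) = a • eta G κ₀) : ExteriorAlgebra.map D H = a • H := by
  have key : ∀ (D : (G.S → ℝ) →ₗ[ℝ] (G.S → ℝ)) (a : ℝ),
      (∀ x, D (Pi.single (Sum.inl x) 1) = Pi.single (Sum.inl x) 1) →
      D (eta G κ₀) = a • eta G κ₀ → ExteriorAlgebra.map D H =
        a • (psi (eta G κ₀) * ExteriorAlgebra.map (prF G) (del (eta G κ₀) H)) := by
    intro D a h1 h2
    rw [map_congr hH (f' := prF G + a • (pair (eta G κ₀)).smulRight (eta G κ₀)) ?_,
      A5.map_rank_one, h0, zero_add]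
    intro t ht
    rw [LinearMap.add_apply, LinearMap.smul_apply, rk_apply]
    rcases hT t ht with ⟨x, rfl⟩ | rfl
    · rw [h1, ← ex_single, prF_ex, ex_dot_src, zero_smul, smul_zero, add_zero]
    · rw [h2, prF_src, eta_dot, one_smul, zero_add]
  have h3 := key LinearMap.id 1 (fun _ => rfl) (one_smul ℝ _).symm
  rw [R1.map_id', one_smul] at h3
  rw [key D a h1 h2, ← h3]

theorem map_prB_eq (hT : One T κ₀) (hH : H ∈ loc T) : ExteriorAlgebra.map (prB G) H =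
    aug H • 1 + aug (del (eta G κ₀) H) • psi (eta G κ₀) := by
  rw [map_congr hH (f' := 0 + (1 : ℝ) • (pair (eta G κ₀)).smulRight (eta G κ₀)) ?_,
    A5.map_rank_one, I2.map_zero_eq, I2.map_zero_eq, one_smul, mul_smul_comm, mul_one]
  intro t ht
  rw [LinearMap.add_apply, LinearMap.smul_apply, rk_apply, LinearMap.zero_apply, zero_add,
    one_smul]
  rcases hT t ht with ⟨x, rfl⟩ | rfl
  · rw [← ex_single, prB_ex, ex_dot_src, zero_smul]
  · rw [prB_src, eta_dot, one_smul]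

/-- The substitution of rank one. -/
theorem rank (hT : One T κ₀) (hH : H ∈ loc T) (he : H ∈ evenS G.S)
    (h0 : ExteriorAlgebra.map (prF G) H = 0) (u d : G.S → ℝ) :
    ExteriorAlgebra.map (prB G + (pair u).smulRight d) H =
      beta H (eta G κ₀) u • (psi (eta G κ₀) * psi d) := by
  have h1 := A5.map_rank_one (prB G) u d 1 H
  have h2 : aug H = 0 := by rw [← aug_map (prF G) H, h0, map_zero]
  rw [one_smul, one_smul, map_prB_eq hT hH, map_prB_eq hT (del_loc u hH), h2,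
    A5.aug_del_even he, A5.aug_del_even he, A1.del_comm, map_neg] at h1
  rw [h1, A1.psi_swap (eta G κ₀) d]
  simp only [zero_smul, add_zero, zero_add, mul_smul_comm, neg_smul, smul_neg, mul_neg, beta]

variable {U : Finset G.P} {ℓ ℓ' : ℕ} {c η ν ν' h h' β β' : ℝ} {s : G.P × Fin 4}
  {u : G.P × Fin 4 → ℝ}

theorem dot_le (hℓ : 1 ≤ ℓ) (hc : 0 ≤ c) (hm : MkAt G.A ℓ ℓ' s u ν ν' c η) {z : G.P}
    (hz : tdist z s.1 ≤ ℓ) {δ : G.P × Fin 4 → ℝ} {c₀ : ℝ} (hc₀ : 0 ≤ c₀) (hd : Dom G.A ℓ z δ c₀) :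
    |δ ⬝ᵥ u| ≤ c₀ * (c / ν) := by
  have hν := hm.pos
  refine Dom.abs_le hℓ hc₀ hd (by positivity) ?_
  refine (RN.hsq_mono G.A (Nat.cast_nonneg ℓ) le_rfl
    (E4.ball_sub (r' := 3 * ℓ) (z' := s.1) (by omega)) u).trans ?_
  rw [div_pow, div_mul_eq_mul_div, le_div_iff₀ (by positivity)]
  exact hm.test

/-- The coefficient is bounded by the norm. -/
theorem first (hℓ : 1 ≤ ℓ) (hc : 0 < c) (hm : MkAt G.A ℓ ℓ' s u ν ν' c η) (hh : 0 < h)
    (hβ : 0 < β) (hU : ∀ z ∈ U, tdist z s.1 ≤ ℓ) (hH : H ∈ loc (G.gens U)) :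
    √β * (h * ν / c) * |beta H (eta G κ₀) (G.ex u)| ≤ nrm (G.cons ℓ h β U) (G.gens U) H := by
  have hν := hm.pos
  refine abs_beta_le (adm hℓ hh hβ U) hH (by positivity) (by positivity) fun p hp => ?_
  rcases cons_cases hp with ⟨z, hz, δ, c₀, -, hc₀, hd, rfl⟩ | ⟨k, i, -, rfl⟩
  · dsimp only
    rw [ex_dot_src, abs_zero, mul_zero, zero_add, ex_dot]
    refine (mul_le_mul_of_nonneg_left (dot_le hℓ hc.le hm (hU z hz) hc₀ hd)
      (by positivity)).trans_eq ?_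
    field_simp
  · dsimp only
    rw [src_dot_ex, abs_zero, mul_zero, add_zero, single_one_dotProduct]
    refine mul_le_of_le_one_right (Real.sqrt_nonneg _) ?_
    unfold eta
    rw [Pi.single_apply]
    split_ifs <;> simp

/-- The field minus its part of rank one is small at the next scale. -/
theorem small (hℓ : 1 ≤ ℓ) {L : ℕ} (hL : 2 ≤ L) (hη : 0 < η)
    (hm : MkAt G.A ℓ (L * ℓ) s u ν ν' c η) {r : Rep G.S} (hr : r.In (G.cons (L * ℓ) h' β' U))
    (hs : s.1 ∈ U) {z : G.P} (hz : tdist z s.1 ≤ ℓ) {δ : G.P × Fin 4 → ℝ} {c₀ : ℝ}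
    (h1 : SuppIn δ z ℓ) (hc₀ : 0 ≤ c₀) (hd : Dom G.A ℓ z δ c₀) :
    opn (r.Ψ (G.ex δ - (δ ⬝ᵥ u) • G.ex (Pi.single s 1))) ≤ h' * (c₀ * (η / √L)) := by
  have hL0 : (0 : ℝ) < L := by exact_mod_cast (by omega : 0 < L)
  have l0 : (0 : ℝ) < ℓ := by exact_mod_cast hℓ
  have h2 : ℓ + tdist z s.1 ≤ L * ℓ := by nlinarith
  rw [← ex_smul, ← ex_sub]
  refine In.fld hr hs (SuppIn.sub (SuppIn.mono h1 h2) (SuppIn.smul (supp_single s _) _))
    (by positivity) (Dom.transfer hℓ hd fun w => ⟨w - w s • u, ?_, ?_⟩)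
  · rw [sub_dotProduct, smul_dotProduct, dotProduct_sub, dotProduct_smul, smul_eq_mul,
      smul_eq_mul, single_one_dotProduct, mul_comm]
  · have e1 := RN.hsq_mono G.A l0.le le_rfl
      (E4.ball_sub (z := z) (r := 2 * ℓ) (r' := 3 * ℓ) (z' := s.1) (by omega)) (w - w s • u)
    have e2 := RN.hsq_mono G.A (Nat.cast_nonneg (L * ℓ)) le_rfl
      (E4.ball_sub (z := s.1) (r := L * ℓ) (r' := 2 * (L * ℓ)) (z' := s.1)
        (by rw [tdist_self]; omega)) w
    have e3 := hm.rank w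
    have e4 : (0 : ℝ) < ((L * ℓ : ℕ) : ℝ) := by push_cast; positivity
    refine le_of_mul_le_mul_right ?_ e4
    have e5 : (η / √L) ^ 2 * ℓ * ((L * ℓ : ℕ) : ℝ) = η ^ 2 * (ℓ : ℝ) ^ 2 := by
      rw [div_pow, Real.sq_sqrt hL0.le]
      push_cast
      field_simp
    have e6 := mul_le_mul_of_nonneg_right e1 (sq_nonneg ((L * ℓ : ℕ) : ℝ))
    have e7 := mul_le_mul_of_nonneg_left e2 (show 0 ≤ η ^ 2 * (ℓ : ℝ) ^ 2 by positivity)
    rw [mul_right_comm _ (hsq _ _ _ w), e5]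
    nlinarith

theorem sqrt_ratio {L : ℕ} (hℓ : 1 ≤ ℓ) : √((ℓ : ℝ) / (L * ℓ : ℕ)) = 1 / √L := by
  have l0 : (ℓ : ℝ) ≠ 0 := by exact_mod_cast (by omega : ℓ ≠ 0)
  have e : (ℓ : ℝ) / (L * ℓ : ℕ) = 1 / L := by
    push_cast
    rw [mul_comm, ← div_div, div_self l0]
  rw [e, Real.sqrt_div zero_le_one, Real.sqrt_one]

theorem sqrt_ratio' {L : ℕ} (hℓ : 1 ≤ ℓ) : √(((L * ℓ : ℕ) : ℝ) / ℓ) = √L := by
  have l0 : (ℓ : ℝ) ≠ 0 := by exact_mod_cast (by omega : ℓ ≠ 0)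
  push_cast
  rw [mul_div_cancel_right₀ _ l0]

/-- The remainder is small at the next scale. -/
theorem second (hT : One T κ₀) (hTU : T ⊆ G.gens U) (hH : H ∈ loc T) (he : H ∈ evenS G.S)
    (h0 : ExteriorAlgebra.map (prF G) H = 0) (hℓ : 1 ≤ ℓ) {L : ℕ} (hc : 1 ≤ c) (hη : 0 < η)
    (hηc : η ≤ c) (hL : 256 * c ^ 4 ≤ L) (hm : MkAt G.A ℓ (L * ℓ) s u ν ν' c η) (hh : 0 < h)
    (hh' : 0 < h') (hhh : h' ≤ 4 * h) (hβ : 0 < β) (hβ' : 0 < β') (hs : s.1 ∈ U)
    (hκ : (G.src κ₀).y ∈ U) (hU : ∀ z ∈ U, tdist z s.1 ≤ ℓ) :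
    √β / √β' * nrm (G.cons (L * ℓ) h' β' U) (G.gens U)
      (H - beta H (eta G κ₀) (G.ex u) • (psi (eta G κ₀) * psi (G.ex (Pi.single s 1)))) ≤
      16 * η / √L * nrm (G.cons ℓ h β U) (G.gens U) H := by
  have hν := hm.pos
  have hν' := hm.pos'
  have c2 : 1 ≤ c ^ 2 := one_le_pow₀ hc
  have c4 : 1 ≤ c ^ 4 := one_le_pow₀ hc
  have cc : c ≤ c ^ 2 := by nlinarith
  have hL2 : 2 ≤ L := by
    have : (2 : ℝ) ≤ L := by linarith
    exact_mod_cast this
  have hsL : 16 * c ^ 2 ≤ √L := Real.le_sqrt_of_sq_le (by nlinarith)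
  have hsL0 : 0 < √(L : ℝ) := by linarith
  have hl : 1 ≤ L * ℓ := Nat.mul_pos (by omega) hℓ
  have hlam : 0 < √β / √β' := by positivity
  set d : G.S → ℝ := G.ex (Pi.single s 1) with hd
  set P : (G.S → ℝ) →ₗ[ℝ] (G.S → ℝ) := prB G + (pair (G.ex u)).smulRight d with hP
  set D : (G.S → ℝ) →ₗ[ℝ] (G.S → ℝ) := prF G + (√β / √β') • prB G with hD
  have hDf : ∀ δ, D (G.ex δ) = G.ex δ := fun δ => by
    rw [hD, LinearMap.add_apply, LinearMap.smul_apply, prF_ex, prB_ex, smul_zero, add_zero]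
  have hDs : ∀ k : G.K × Fin 2, D (Pi.single (Sum.inr k) 1) =
      (√β / √β') • (Pi.single (Sum.inr k) 1 : G.S → ℝ) := fun k => by
    rw [hD, LinearMap.add_apply, LinearMap.smul_apply, prF_src, prB_src, zero_add]
  have hrk := rank hT hH he h0 (G.ex u) d
  have hDH : ExteriorAlgebra.map D H = (√β / √β') • H :=
    lin hT hH h0 D _ (fun x => by rw [← ex_single, hDf]) (hDs _)
  have hHU : H ∈ loc (G.gens U) := A1.loc_mono hTU hH
  have hmem : H - beta H (eta G κ₀) (G.ex u) • (psi (eta G κ₀) * psi d) ∈ loc (G.gens U) := by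
    refine Subalgebra.sub_mem _ hHU (Subalgebra.smul_mem _ (Subalgebra.mul_mem _ ?_ ?_) _)
    · exact A1.gen_mem (s := Sum.inr (κ₀, 0)) hκ
    · rw [hd, ex_single]
      exact A1.gen_mem (s := Sum.inl s) hs
  rw [← le_div_iff₀' hlam]
  refine nrm_le (adm hl hh' hβ' U) hmem fun r hr => ?_
  rw [le_div_iff₀' hlam]
  have key := R1.opn_pert (fun r hr => le_nrm (adm hℓ hh hβ U) hHU r hr) (P - LinearMap.id)
    (A3.comap r D) (ρ := 8 * η / √L) (by positivity)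
    (by rw [div_le_one hsL0]; linarith) fun p hp => by
      rw [A3.opn_comap, A3.opn_comap]
      rcases cons_cases hp with ⟨z, hz, δ, c₀, s1, hc₀, hδ, rfl⟩ | ⟨k, i, hy, rfl⟩
      · dsimp only
        have e1 : (P - LinearMap.id : (G.S → ℝ) →ₗ[ℝ] (G.S → ℝ)) (G.ex δ) =
            -G.ex (δ - (δ ⬝ᵥ u) • Pi.single s 1) := by
          rw [LinearMap.sub_apply, hP, LinearMap.add_apply, prB_ex, rk_apply, ex_dot, ex_sub,
            ex_smul, zero_add, neg_sub]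
          rfl
        rw [e1, map_neg, hDf, hDf, map_neg, A3.opn_neg, ex_sub, ex_smul]
        have b1 := small hℓ hL2 hη hm hr hs (hU z hz) s1 hc₀ hδ
        have b2 := dot_le hℓ (by linarith) hm (hU z hz) hc₀ hδ
        have b3 : opn (r.Ψ (G.ex (Pi.single s 1))) ≤ h' * ν' :=
          In.fld hr hs (supp_single s _) hν'.le hm.dom'
        have b4 := hm.le
        rw [sqrt_ratio hℓ] at b4
        have b5 : opn (r.Ψ ((δ ⬝ᵥ u) • G.ex (Pi.single s 1))) ≤ h' * (c₀ * (c ^ 2 / √L)) := by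
          rw [map_smul, A3.opn_smul]
          refine (mul_le_mul b2 (b3.trans (mul_le_mul_of_nonneg_left b4 hh'.le))
            (A3.opn_nonneg _) (by positivity)).trans_eq ?_
          field_simp
        have b6 : opn (r.Ψ (G.ex δ)) ≤ h' * (c₀ * (η / √L)) + h' * (c₀ * (c ^ 2 / √L)) := by
          have e2 : r.Ψ (G.ex δ) = r.Ψ (G.ex δ - (δ ⬝ᵥ u) • G.ex (Pi.single s 1)) +
              r.Ψ ((δ ⬝ᵥ u) • G.ex (Pi.single s 1)) := by
            rw [← map_add, sub_add_cancel]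
          rw [e2]
          exact (A3.opn_add _ _).trans (add_le_add b1 b5)
        have b7 : opn (r.Ψ (G.ex δ - (δ ⬝ᵥ u) • G.ex (Pi.single s 1))) / (8 * η / √L) ≤
            h' * (c₀ * (1 / 8)) := by
          rw [div_le_iff₀ (by positivity)]
          refine b1.trans_eq ?_
          field_simp
        have b8 : η / √L ≤ 1 / 16 := by rw [div_le_iff₀ hsL0]; linarith
        have b9 : c ^ 2 / √L ≤ 1 / 16 := by rw [div_le_iff₀ hsL0]; linarith
        have b10 := mul_le_mul_of_nonneg_left (mul_le_mul_of_nonneg_left b8 hc₀) hh'.le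
        have b11 := mul_le_mul_of_nonneg_left (mul_le_mul_of_nonneg_left b9 hc₀) hh'.le
        have b12 := mul_le_mul_of_nonneg_right hhh hc₀
        linarith
      · dsimp only
        have e1 : (P - LinearMap.id : (G.S → ℝ) →ₗ[ℝ] (G.S → ℝ))
            (Pi.single (Sum.inr (k, i)) 1) = 0 := by
          rw [LinearMap.sub_apply, hP, LinearMap.add_apply, prB_src, rk_apply, src_dot_ex,
            zero_smul, add_zero]
          exact sub_self _
        rw [e1, map_zero, opn_Psi_zero, zero_div, add_zero, hDs, map_smul, A3.opn_smul,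
          abs_of_pos hlam]
        refine (mul_le_mul_of_nonneg_left (In.src hr hy i) hlam.le).trans_eq ?_
        have : √β' ≠ 0 := by positivity
        field_simp
  rw [add_sub_cancel, hrk, A3.opn_comap_ev, map_sub, hDH, map_smul, map_mul, A1.map_psi,
    A1.map_psi, hDs, hd, hDf, A1.psi_smul, smul_mul_assoc, smul_comm, ← smul_sub, map_smul,
    A3.opn_smul, abs_of_pos hlam, ← neg_sub, map_neg, A3.opn_neg] at key
  refine key.trans_eq ?_
  ring

end gen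

variable {g : Geo} {k : ℕ} {s : Fin k → g.P × Fin 4} {U : Finset g.P} {i : Fin k}

theorem one_of (h1 : ∀ i', (s i').1 ∈ U → i' = i) (h2 : ∀ κ, (g.src κ).y ∉ U) :
    One (G := g.xt s) ((g.xt s).gens U \ Set.range fun i : Fin k => Sum.inr (Sum.inr i, 1))
      (Sum.inr i) := by
  rintro (x | ⟨κ | i', d⟩) ⟨ht, ht'⟩
  · exact Or.inl ⟨x, rfl⟩
  · exact absurd ht (h2 κ)
  · obtain rfl : i' = i := h1 i' ht
    fin_cases d
    · exact Or.inr rfl
    · exact absurd ⟨i', rfl⟩ ht'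

theorem val_scI (a : Fin k → ℝ) (F : (g.xt s).E) : ∃ D : ((g.xt s).S → ℝ) →ₗ[ℝ] ((g.xt s).S → ℝ),
    Ev.val (g.scI s a F) = ExteriorAlgebra.map D (Ev.val F) ∧
    (∀ x, D (Pi.single (Sum.inl x) 1) = Pi.single (Sum.inl x) 1) ∧
    ∀ i, D (eta (g.xt s) (Sum.inr i)) = a i • eta (g.xt s) (Sum.inr i) :=
  ⟨_, val_evMap _ _, fun _ => (I1.mulL_single _ _).trans (one_smul ℝ _),
    fun _ => I1.mulL_single _ _⟩

theorem kill (h1 : ∀ i', (s i').1 ∈ U → i' = i) (h2 : ∀ κ, (g.src κ).y ∉ U) {F : (g.xt s).E}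
    (hF : F ∈ g.elI s U) (h0 : g.scI s 0 F = 0) :
    ExteriorAlgebra.map (prF (g.xt s)) (Ev.val F) = 0 := by
  obtain ⟨D, e, d1, d2⟩ := val_scI (0 : Fin k → ℝ) F
  rw [h0, map_zero] at e
  rw [e]
  refine map_congr hF fun t ht => ?_
  rcases one_of h1 h2 t ht with ⟨x, rfl⟩ | rfl
  · rw [d1, ← ex_single, prF_ex]
  · rw [prF_src]
    exact ((d2 i).trans (zero_smul ℝ _)).symm

theorem pI_eq (h1 : ∀ i', (s i').1 ∈ U → i' = i) (h2 : ∀ κ, (g.src κ).y ∉ U) {F : (g.xt s).E}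
    (hF : F ∈ g.elI s U) (h0 : ExteriorAlgebra.map (prF (g.xt s)) (Ev.val F) = 0) {ℓ : ℕ}
    {h β : ℝ} {w : Fin k → ℝ} (hℓ : 1 ≤ ℓ) (hh : 0 < h) (hβ : 0 < β) (hw : 0 < w i) :
    g.pI s ℓ h β w U F =
      w i / √β * nrm ((g.xt s).cons ℓ h β U) ((g.xt s).gens U) (Ev.val F) := by
  obtain ⟨D, e, d1, d2⟩ := val_scI (fun i => w i / √β) F
  unfold Geo.pI Geo.pn
  rw [e, lin (H := Ev.val F) (one_of h1 h2) hF h0 D _ d1 (d2 i),
    nrm_smul (adm (g := g.xt s) hℓ hh hβ U), abs_of_pos (by positivity)]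

end CnI

open CnI in
theorem con_I : ∃ C : ℝ, 1 ≤ C ∧ ∀ (g : Geo) (k : ℕ) (s : Fin k → g.P × Fin 4) (L ℓ : ℕ)
    (c η ν ν' h h' β β' δ : ℝ) (w w' : Fin k → ℝ) (i : Fin k) (u : g.P × Fin 4 → ℝ), 1 ≤ ℓ →
    1 ≤ c → 0 < η → η ≤ c → C * c ^ 4 ≤ L → MkAt g.A ℓ (L * ℓ) (s i) u ν ν' c η → 0 < h → h ≤ h' →
    h' ≤ 2 * h → 0 < β → 0 < β' → 0 < δ → w i = δ / (h * ν) → w' i = δ / (h' * ν') →
    ∀ U : Finset g.P, stein U ≤ ℓ → (s i).1 ∈ U → (∀ i', (s i').1 ∈ U → i' = i) →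
    (∀ κ, (g.src κ).y ∉ U) → ∀ F ∈ g.elI s U, g.scI s 0 F = 0 →
      δ * |g.tI s u i F| ≤ C * c * g.pI s ℓ (h / 2) β w U F ∧
      g.pI s (L * ℓ) h' β' w' U (F - g.tI s u i F • g.eI s i) ≤
        C * c ^ 2 * η * g.pI s ℓ (h / 2) β w U F := by
  refine ⟨256, by norm_num, ?_⟩
  intro g k s L ℓ c η ν ν' h h' β β' δ w w' i u hℓ hc hη hηc hL hm hh hhh hh2 hβ hβ' hδ hw hw' U hU
    hs h1 h2 F hF h0
  have hν := hm.pos
  have hν' := hm.pos'
  have hh' : 0 < h' := hh.trans_le hhh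
  have c0 : 0 < c := by linarith
  have c4 : 1 ≤ c ^ 4 := one_le_pow₀ hc
  have hL0 : (0 : ℝ) < L := by linarith
  have hl : 1 ≤ L * ℓ := Nat.mul_pos (by exact_mod_cast hL0) hℓ
  have hsL0 : 0 < √(L : ℝ) := Real.sqrt_pos.2 hL0
  have hsb : 0 < √β := Real.sqrt_pos.2 hβ
  have hsb' : 0 < √β' := Real.sqrt_pos.2 hβ'
  have hU' : ∀ z ∈ U, tdist z (s i).1 ≤ ℓ := fun z hz => (tdist_le_stein hz hs).trans hU
  have hk := kill h1 h2 hF h0
  have hT := one_of h1 h2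
  have hw0 : 0 < w i := by rw [hw]; positivity
  have hw0' : 0 < w' i := by rw [hw']; positivity
  have hval : Ev.val (F - g.tI s u i F • g.eI s i) = Ev.val F -
      beta (Ev.val F) (eta (g.xt s) (Sum.inr i)) ((g.xt s).ex u) •
        (psi (eta (g.xt s) (Sum.inr i)) * psi ((g.xt s).ex (Pi.single (s i) 1))) := by
    rw [map_sub, map_smul]
    unfold Geo.eI
    rw [val_pp]
    rfl
  have hG : F - g.tI s u i F • g.eI s i ∈ g.elI s U := by
    refine Subalgebra.sub_mem _ hF (Subalgebra.smul_mem _ ?_ _)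
    refine R6.pp_mem (R6.single_zero (s := Sum.inr (Sum.inr i, 0)) ⟨hs, ?_⟩) ?_
    · rintro ⟨i', e⟩
      have e1 : (1 : Fin 2) = 0 := congrArg Prod.snd (Sum.inr.inj e)
      exact absurd e1 (by decide)
    · have e := ex_single (g.xt s) (s i)
      rw [e]
      exact R6.single_zero (s := Sum.inl (s i)) ⟨hs, fun ⟨_, e⟩ => Sum.inr_ne_inl e⟩
  have hk' : ExteriorAlgebra.map (prF (g.xt s)) (Ev.val (F - g.tI s u i F • g.eI s i)) = 0 := by
    rw [hval, map_sub, hk, map_smul, map_mul, A1.map_psi, prF_src, A1.psi_zero, zero_mul,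
      smul_zero, sub_zero]
  have f1 := first (G := g.xt s) (κ₀ := Sum.inr i) (U := U) (H := Ev.val F) hℓ c0 hm (half_pos hh) hβ
    hU' (A1.loc_mono Set.sdiff_subset hF)
  have f2 := second (G := g.xt s) (H := Ev.val F) hT Set.sdiff_subset hF (Ev.val_mem F) hk hℓ hc
    hη hηc hL hm (half_pos hh) hh' (by linarith) hβ hβ' hs hs hU'
  rw [← hval] at f2
  rw [pI_eq h1 h2 hF hk hℓ (half_pos hh) hβ hw0, pI_eq h1 h2 hG hk' hl hh' hβ' hw0']
  have hN := nrm_nonneg (𝒞 := (g.xt s).cons ℓ (h / 2) β U) (T := (g.xt s).gens U) (Ev.val F)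
  change √β * (h / 2 * ν / c) * |g.tI s u i F| ≤ _ at f1
  generalize nrm ((g.xt s).cons ℓ (h / 2) β U) ((g.xt s).gens U) (Ev.val F) = N at f1 f2 hN ⊢
  generalize nrm ((g.xt s).cons (L * ℓ) h' β' U) ((g.xt s).gens U)
    (Ev.val (F - g.tI s u i F • g.eI s i)) = N' at f2 ⊢
  constructor
  · have e2 : δ * |g.tI s u i F| =
        2 * c * (w i / √β) * (√β * (h / 2 * ν / c) * |g.tI s u i F|) := by
      rw [hw]
      field_simp
    rw [e2]
    have e3 := mul_le_mul_of_nonneg_left f1 (show 0 ≤ 2 * c * (w i / √β) by positivity)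
    have e4 : 0 ≤ c * (w i / √β * N) := by positivity
    nlinarith
  · have b1 := hm.ge
    rw [sqrt_ratio' hℓ] at b1
    have b2 : w' i ≤ c * √L * w i := by
      rw [hw, hw', mul_div_assoc', div_le_div_iff₀ (by positivity) (by positivity)]
      have b3 := mul_le_mul hhh b1 hν.le hh'.le
      nlinarith [mul_le_mul_of_nonneg_left b3 hδ.le]
    have e1 : w' i / √β' * N' = w' i / √β * (√β / √β' * N') := by field_simp
    rw [e1]
    refine (mul_le_mul_of_nonneg_left f2 (by positivity)).trans ?_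
    refine (mul_le_mul_of_nonneg_right (div_le_div_of_nonneg_right b2 hsb.le)
      (by positivity)).trans ?_
    have e2 : c * √L * w i / √β * (16 * η / √L * N) = 16 * c * η * (w i / √β * N) := by
      field_simp
    rw [e2]
    refine mul_le_mul_of_nonneg_right ?_ (by positivity)
    nlinarith [mul_pos c0 hη]

end Vale.Agent.P144Z.IO
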