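import Vale.Agent.P144D.I.Defs
import Vale.Agent.P144D.MN.Main

/-!
The flow with insertions at marked half-edges: definitions.
-/

namespace Vale.Agent.P144Z

open Finset Matrix

namespace Geo

variable (g : Geo)

/-- Multiplication of the first generator of the source `κ` by `a κ`. -/
noncomputable def dg (a : g.K → ℝ) : g.E →ₗ[ℝ] g.E :=
  evMap (I1.mulL (Sum.elim 1 fun p => if p.2 = 0 then a p.1 else 1))

/-- The last integration is bounded by `K` on the whole even algebra. -/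
def LastE (ℓ : ℕ) (h K : ℝ) : Prop :=
  ∀ β > 0, ∀ F, g.ps β univ (g.TL ℓ F) ≤ K * g.pn ℓ h β univ F

/-- The change of scale near the faces that are not in the bulk. -/
def SchA (L : ℕ) (c : ℝ) : Prop :=
  ∀ j < g.J, ∀ z, (∃ f, tdist f z ≤ L * sc L j ∧ |flux g.A f| ≠ 1) →
    RN.Shr g.A (sc L j) (L * sc L j) z (c * √((sc L j : ℝ) / (L * sc L j : ℕ)))

variable {k : ℕ} (s : Fin k → g.P × Fin 4)

/-- The geometry with one more pair of generators at each marked half-edge. -/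
def xt : Geo :=
  { M := g.M, A := g.A, K := g.K ⊕ Fin k, J := g.J
    src := Sum.elim g.src fun i => ⟨(s i).1, {(0, 0)}, 0, false, 0⟩ }

/-- The inclusion of the generators. -/
def embL : (g.S → ℝ) →ₗ[ℝ] ((g.xt s).S → ℝ) where
  toFun δ := Sum.elim (fun x => δ (Sum.inl x))
    fun p => Sum.elim (fun κ => δ (Sum.inr (κ, p.2))) (fun _ => 0) p.1
  map_add' a b := by
    ext (x | ⟨κ | i, d⟩) <;> simp
  map_smul' c a := by
    ext (x | ⟨κ | i, d⟩) <;> simp

/-- The inclusion of the algebras. -/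
noncomputable def emb : g.E →ₗ[ℝ] (g.xt s).E := evMap (g.embL s)

/-- The odd variable of the insertion `i`. -/
noncomputable def et (i : Fin k) : (g.xt s).S → ℝ := Pi.single (Sum.inr (Sum.inr i, 0)) 1

/-- The insertion `i`. -/
noncomputable def eI (i : Fin k) : (g.xt s).E :=
  pp (g.et s i) ((g.xt s).ex (Pi.single (s i) 1))

/-- Multiplication of the variable of the insertion `i` by `a i`. -/
noncomputable def scI (a : Fin k → ℝ) : (g.xt s).E →ₗ[ℝ] (g.xt s).E :=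
  (g.xt s).dg (Sum.elim 1 a)

/-- The local algebra without the unused generators. -/
noncomputable def elI (X : Finset g.P) : Subalgebra ℝ (g.xt s).E :=
  evLoc ((g.xt s).gens X \ Set.range fun i : Fin k => Sum.inr (Sum.inr i, 1))

/-- The norm in which the variable of the insertion `i` has size `w i`. -/
noncomputable def pI (ℓ : ℕ) (h β : ℝ) (w : Fin k → ℝ) (X : Finset g.P) (F : (g.xt s).E) : ℝ :=
  (g.xt s).pn ℓ h β X (g.scI s (fun i => w i / √β) F)

/-- The state of the insertions. -/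
structure StI where
  K : Finset g.P → (g.xt s).E
  z : Fin k → ℝ

/-- The carried insertions. -/
noncomputable def carI (z : Fin k → ℝ) (X : Finset g.P) : (g.xt s).E :=
  ∑ i ∈ univ.filter (fun i => {(s i).1} = X), z i • g.eI s i

/-- The part of the potential that depends on the insertions. -/
noncomputable def StI.Y {g : Geo} {s : Fin k → g.P × Fin 4} (t : g.StI s) (X : Finset g.P) :
    (g.xt s).E := t.K X + g.carI s t.z X

/-- Well-formed states. -/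
structure WfI (t : g.StI s) : Prop where
  K0 : t.K ∅ = 0
  mem : ∀ X, t.K X ∈ g.elI s X
  kill : ∀ X, g.scI s 0 (t.K X) = 0

/-- The interaction with insertions. -/
noncomputable def HinI (q : Par) (o : ℝ) (O : Fin k → g.Cfg → ℝ) (K : ℕ) (X : Finset g.P)
    (n : g.Cfg) : (g.xt s).E :=
  g.emb s (g.HinC q 0 X n) + g.carI s (fun _ => √q.Z * o) X +
    ∑ i ∈ univ.filter (fun i => ball (s i).1 K = X), (√q.Z * (O i n - o)) • g.eI s i

/-- The initial state. -/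
noncomputable def initI (q : Par) (o : ℝ) (O : Fin k → g.Cfg → ℝ) (K : ℕ) : g.StI s where
  K X := Cl ((g.xt s).E0 (q.x * q.Z)) (g.HinI s q o O K) X - g.emb s (g.W0C q 0 X) -
    g.carI s (fun _ => √q.Z * o) X
  z _ := √q.Z * o

/-- The potential with insertions. -/
noncomputable def HI (H : Finset g.P → g.E) (t : g.StI s) (X : Finset g.P) : (g.xt s).E :=
  g.emb s (H X) + t.Y X

/-- The integrated insertions without the carried terms. -/
noncomputable def remI (ℓ ℓ' : ℕ) (H : Finset g.P → g.E) (t : g.StI s) (U : Finset g.P) :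
    (g.xt s).E :=
  Cl (evG ((g.xt s).exM (covP (Dm g.A) ℓ ℓ'))) (g.HI s H t) U -
    g.emb s (Cl (evG (g.exM (covP (Dm g.A) ℓ ℓ'))) H U) - g.carI s t.z U

/-- The coefficient of the insertion `i`, seen by the test function `u`. -/
noncomputable def tI (u : g.P × Fin 4 → ℝ) (i : Fin k) (F : (g.xt s).E) : ℝ :=
  beta (Ev.val F) (g.et s i) ((g.xt s).ex u)

open Classical in
/-- One step of the flow of the insertions. -/
noncomputable def stepI (ℓ ℓ' : ℕ) (H : Finset g.P → g.E) (u : Fin k → g.P × Fin 4 → ℝ)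
    (t : g.StI s) : g.StI s where
  K U := g.remI s ℓ ℓ' H t U - ∑ i ∈ univ.filter (fun i => stein U ≤ ℓ ∧ (s i).1 ∈ U),
    g.tI s (u i) i (g.remI s ℓ ℓ' H t U) • g.eI s i
  z i := t.z i + ∑ U ∈ univ.filter (fun U : Finset g.P => stein U ≤ ℓ ∧ (s i).1 ∈ U),
    g.tI s (u i) i (g.remI s ℓ ℓ' H t U)

/-- The flow of the insertions. -/
noncomputable def flowI (L : ℕ) (q : Par) (o : ℝ) (O : Fin k → g.Cfg → ℝ) (K : ℕ)
    (u : Fin k → ℕ → g.P × Fin 4 → ℝ) : ℕ → g.StI s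
  | 0 => g.initI s q o O K
  | j + 1 => g.stepI s (sc L j) (sc L (j + 1)) (g.flowC L q 0 j).H (fun i => u i j)
      (flowI L q o O K u j)

/-- The localized logarithm of one step is a logarithm. -/
def ExpI (ℓ ℓ' : ℕ) (H : Finset g.P → g.E) (t : g.StI s) : Prop :=
  NormedSpace.exp (∑ U, Cl (evG ((g.xt s).exM (covP (Dm g.A) ℓ ℓ'))) (g.HI s H t) U) =
    evG ((g.xt s).exM (covP (Dm g.A) ℓ ℓ')) (NormedSpace.exp (∑ X, g.HI s H t X))

/-- The localized logarithms of the flow are logarithms. -/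
structure ConvI (L : ℕ) (q : Par) (o : ℝ) (O : Fin k → g.Cfg → ℝ) (K : ℕ)
    (u : Fin k → ℕ → g.P × Fin 4 → ℝ) : Prop where
  init : NormedSpace.exp (∑ U, Cl ((g.xt s).E0 (q.x * q.Z)) (g.HinI s q o O K) U) =
    (g.xt s).E0 (q.x * q.Z) (NormedSpace.exp (∑ X, g.HinI s q o O K X))
  step : ∀ j < g.J, g.ExpI s (sc L j) (sc L (j + 1)) (g.flowC L q 0 j).H (g.flowI s L q o O K u j)

/-- The marked half-edges are separated, far from the sources, and good at all scales. -/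
structure MkPre (u : Fin k → ℕ → g.P × Fin 4 → ℝ) (ν : Fin k → ℕ → ℝ) (L : ℕ) (c η : ℝ) :
    Prop where
  sep : ∀ i i', i ≠ i' → 7 * sc L g.J < tdist (s i).1 (s i').1
  far : ∀ i κ, 7 * sc L g.J < tdist (g.src κ).y (s i).1
  ch : ∀ i, MkCh g.A L g.J (s i) (u i) (ν i) c η

/-- The step of the insertions at the scale `j`, with the contraction factor `ρ`. -/
def StepI (u : Fin k → ℕ → g.P × Fin 4 → ℝ) (ν : Fin k → ℕ → ℝ) (L j : ℕ) (C ρ : ℝ) : Prop :=
  ∀ h h' δ : ℝ, (L : ℝ) ^ 2 ≤ h → h ≤ h' → h' ≤ 2 * h → 0 < δ → C * δ ≤ 1 →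
    ∀ r : g.St, g.Wf r → (∀ κ, |r.z κ| ≤ 2) → ∀ t : g.StI s, g.WfI s t → (∀ i, |t.z i| ≤ 2) →
    ∀ D b a : ℝ, D ≤ δ → b ≤ δ → a ≤ δ →
    Anch (sc L j) L (g.df (sc L j) h (δ * sc L j / h ^ 2) r (g.srcSt r.z)) D →
    Anch (sc L j) L (g.bf (sc L j) h r) b →
    Anch (sc L j) L (fun X => g.pI s (sc L j) h (δ * sc L j / h ^ 2) (fun i => δ / (h * ν i j)) X
      (t.K X)) a →
      g.ExpI s (sc L j) (sc L (j + 1)) r.H t ∧
      Anch (sc L (j + 1)) L (fun X => g.pI s (sc L (j + 1)) h' (δ * sc L (j + 1) / h' ^ 2)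
        (fun i => δ / (h' * ν i (j + 1))) X
        ((g.stepI s (sc L j) (sc L (j + 1)) r.H (fun i => u i j) t).K X)) (ρ * a + C * (D + b)) ∧
      ∀ i, δ * |(g.stepI s (sc L j) (sc L (j + 1)) r.H (fun i => u i j) t).z i - t.z i| ≤
        C * (a + D + b)

/-- The bounds on the flow of the insertions. -/
structure FlowI (L : ℕ) (q : Par) (o : ℝ) (O : Fin k → g.Cfg → ℝ) (K : ℕ)
    (u : Fin k → ℕ → g.P × Fin 4 → ℝ) (ν : Fin k → ℕ → ℝ) (w b h : ℝ) : Prop where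
  conv : g.ConvI s L q o O K u
  conv0 : g.ConvI s L par0 1 1 K u
  flow0 : ∑ X, (g.flowI s L par0 1 1 K u g.J).Y X = ∑ i, g.eI s i
  last : g.pI s (sc L g.J) h (w * sc L g.J) (fun i => w / ν i g.J) univ
    (∑ X, (g.flowI s L q o O K u g.J).K X) ≤ b / 2 ^ g.J
  z : ∀ i, |(g.flowI s L q o O K u g.J).z i - o| ≤ 1 / 2
  size : ∀ i, g.pI s (sc L g.J) h (w * sc L g.J) (fun i => w / ν i g.J) univ (g.eI s i) ≤ 1 / 2

/-- The last integration with insertions. -/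
noncomputable def TTI (L : ℕ) (q : Par) (o : ℝ) (O : Fin k → g.Cfg → ℝ) (K : ℕ)
    (u : Fin k → ℕ → g.P × Fin 4 → ℝ) : (g.xt s).E :=
  (g.xt s).TL (sc L g.J) (NormedSpace.exp
    (∑ X, g.HI s (g.flowC L q 0 g.J).H (g.flowI s L q o O K u g.J) X))

/-- The contour `n` with the insertions. -/
noncomputable def CI (n : g.Cfg) (a : Fin k → ℝ) : (g.xt s).E :=
  (g.xt s).noF (evG ((g.xt s).exM (gM g.M))
    ((∏ e : Tor g.M × Fin 2, if n e then (g.xt s).edge e.1 e.2 else 1) *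
      ∏ i, (1 + a i • g.eI s i)))

/-- The mixed correlation with insertions, normalised and centred in the reference field `A'`. -/
noncomputable def mixDJ (A' : Gauge g.M) (q : Par) (O : Fin k → g.Cfg → ℝ) : ℝ :=
  ZJ q g.A s O (fun n => ∏ κ, (g.sgK κ n - ZwC q 0 A' (g.sgK κ) / ZwC q 0 A' 1)) / ZwC q 0 A' 1

end Geo

/-- The bounds on the flow with insertions, when the steps contract. -/
def FlowSI : Prop :=
  ∃ ε₁ > (0 : ℝ), ∀ c' : ℝ, 1 ≤ c' → ∃ η₁ > (0 : ℝ), ∃ L₀ : ℕ, ∀ L ≥ L₀, ∀ C₁ : ℝ, 1 ≤ C₁ →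
    ∃ C : ℝ, 1 ≤ C ∧ ∃ η₀ > 0, ∀ η, 0 < η → η ≤ η₀ → ∀ R : ℕ, ∃ δ₀ > 0, ∀ q : Par, q.R = R →
      Crit L q η δ₀ → ∀ Z : ℝ, |Z * (-2 * tc)| ≤ 2 →
      (∀ j, |FM.zr L q j - Z * (-2 * tc)| ≤ 1 / 2 ^ j) → ∀ K : ℕ, ∃ θ > (0 : ℝ),
      ∀ (Λ : ℕ) (h : ℝ), 0 < h → ∃ w > 0, ∃ b > 0, ∃ J₀ : ℕ, ∀ g : Geo, J₀ ≤ g.J →
        g.PreS L R C₁ → g.M ≤ Λ * sc L g.J → g.FlowD L q 0 Z w (C * η) b h ∧
        ∀ c : ℝ, 1 ≤ c → c ^ 2 ≤ ε₁ * L → g.SchA L c → ∀ (k : ℕ) (s : Fin k → g.P × Fin 4)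
          (u : Fin k → ℕ → g.P × Fin 4 → ℝ) (ν : Fin k → ℕ → ℝ) (o : ℝ)
          (O : Fin k → g.Cfg → ℝ), g.MkPre s u ν L c' η₁ → LocO s K O → |o| ≤ 1 →
          (∀ i n, |O i n - o| ≤ θ) → g.FlowI s L q o O K u ν w b h

end Vale.Agent.P144Z
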