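import Vale.Agent.P144D.I.O.Defs

/-!
The main estimates for an arbitrary class of good boundaries.
-/

namespace Vale.Agent.P144Z

open Finset Matrix

/-- A class of fields: `Q M A J` says that `A` is good below the scale `J`. -/
abbrev Cls : Type := (M : ℕ) → [NeZero M] → Gauge M → ℕ → Prop

/-- For the fields of the class the steps contract and the scale can be changed. -/
def Cls.Ok (Q : Cls) (L : ℕ) (C c : ℝ) : Prop :=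
  ∀ g : Geo, g.OkW → (∀ k, (g.src k).on = true) → 16 * sc L g.J ≤ g.M → g.SepW (8 * sc L g.J) →
    Q g.M g.A g.J → g.Steps L g.J C ∧ g.SchA L c

open Classical in
/-- The field `g.A` has `n` isolated fluxes more than the reference field `A'`, which has a gap. -/
structure Geo.Dom0 (g : Geo) (A' : Gauge g.M) (L n Λ r : ℕ) (Γ : ℝ) : Prop where
  ok : g.OkW
  on : ∀ k, (g.src k).on = true
  w : IsW A'
  lo : 8 * sc L g.J ≤ r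
  hi : r ≤ 8 * sc L (g.J + 1)
  Mlo : 8 * r ≤ g.M
  Mhi : g.M ≤ Λ * r
  sep : g.SepW r
  card : (univ.filter fun f => flux g.A f = -1).card = n
  fl : ∀ f, flux A' f = if flux g.A f = -1 then 1 else flux g.A f
  eqv : ∀ z, ∀ T ≤ r, (∀ f, tdist f z ≤ T → flux g.A f ≠ -1) → ∃ s : g.P → ℝ, IsSign s ∧
    ∀ x i, tdist x z ≤ T → tdist (x + uv g.M i) z ≤ T →
      A' (x, i) = s x * s (x + uv g.M i) * g.A (x, i)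
  gap : ∀ φ, φ ⬝ᵥ φ ≤ (Γ * sc L g.J) ^ 2 * ((Dm A' *ᵥ φ) ⬝ᵥ (Dm A' *ᵥ φ))
  ne : Zw par0 A' 1 ≠ 0

/-- The data of the main estimate for the class `Q`. -/
structure DomQ (Q : Cls) {M : ℕ} [NeZero M] (P B : Gauge M) {ι : Type} [Fintype ι]
    [DecidableEq ι] (y : ι → Tor M) (d : ι → Fin 2) (n L J N Λ : ℕ) (Γ : ℝ) : Prop where
  P_ok : IsP P
  str : Str P B (16 * sc L J)
  sep : (geoD M (P * B) y d J).SepW (8 * sc L J)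
  lo : 64 * sc L J ≤ M
  hi : M ≤ Λ * sc L J
  bd : Q M (P * B) J
  bd0 : Q M P J
  gap : ∀ φ, φ ⬝ᵥ φ ≤ (Γ * sc L J) ^ 2 * ((Dm P *ᵥ φ) ⬝ᵥ (Dm P *ᵥ φ))
  card : (univ.filter fun f => flux B f = -1).card + Fintype.card ι ≤ N
  cnt : (univ.filter fun f => flux (P * B) f = -1).card = n

/-- `MainR` for the class `Q`. -/
def MainQ (Q : Cls) (q : Par) (Zσ Zε : ℝ) (L : ℕ) (γ δ : ℝ) : Prop :=
  ∀ (N Λ : ℕ) (Γ h : ℝ), 1 ≤ Γ → 0 < h → ∃ C : ℝ, ∀ ε > 0, ∃ J₀ : ℕ, ∀ J ≥ J₀,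
    ∀ (M : ℕ) [NeZero M] (P B : Gauge M) (Δ : Cor M) (ι : Type) [Fintype ι] [DecidableEq ι]
    (y : ι → Tor M) (d : ι → Fin 2) (n : ℕ) (K : ℝ), DomQ Q P B y d n L J N Λ Γ →
    Δ.Ok → Δ.Sm q.R γ δ → Δ.Off P → 0 ≤ K →
    (geoD M (P * B) y d J).LastB (sc L J) h (K * |Zw par0 P 1|) →
      |mixC q Δ P B y d - Zσ ^ n * Zε ^ Fintype.card ι * mixC par0 0 P B y d| ≤
        ε / (sc L J : ℝ) ^ Fintype.card ι * K ∧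
      |mixC par0 0 P B y d| ≤ C / (sc L J : ℝ) ^ Fintype.card ι * K

/-- `MainJ` for the class `Q`. -/
def MainJQ (Q : Cls) (q : Par) (Zσ Zε : ℝ) (L : ℕ) (c' η₁ : ℝ) : Prop :=
  ∀ K : ℕ, ∃ θ > 0, ∀ (N Λ : ℕ) (Γ : ℝ), 1 ≤ Γ → ∃ C : ℝ, ∀ ε > 0, ∃ J₀ : ℕ, ∀ J ≥ J₀,
    ∀ (M : ℕ) [NeZero M] (P : Gauge M) (k : ℕ) (s : Fin k → Tor M × Fin 4)
    (u : Fin k → ℕ → Tor M × Fin 4 → ℝ) (ν : Fin k → ℕ → ℝ) (o : ℝ)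
    (O : Fin k → (Tor M × Fin 2 → Bool) → ℝ), k ≤ N → MkDat P s u ν L J c' η₁ → LocO s K O →
    |o| ≤ 1 → (∀ i n, |O i n - o| ≤ θ) → ∃ z : Fin k → ℝ, (∀ i, |z i - o| ≤ 1 / 2) ∧
      ∀ (B : Gauge M) (ι : Type) [Fintype ι] [DecidableEq ι] (y : ι → Tor M) (d : ι → Fin 2)
      (n : ℕ) (K' : ℝ), DomQ Q P B y d n L J N Λ Γ →
      (∀ φ, φ ⬝ᵥ φ ≤ (Γ * sc L J) ^ 2 * ((Dm (P * B) *ᵥ φ) ⬝ᵥ (Dm (P * B) *ᵥ φ))) →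
      |Zw par0 (P * B) 1| ≤ K' * |Zw par0 P 1| →
        |mixJ q P B s O y d - (∏ i, z i) * Zσ ^ n * Zε ^ Fintype.card ι * mixJ par0 P B s 1 y d| ≤
          ε / (sc L J : ℝ) ^ Fintype.card ι * (K' * ∏ i, ν i J) ∧
        |mixJ par0 P B s 1 y d| ≤ C / (sc L J : ℝ) ^ Fintype.card ι * (K' * ∏ i, ν i J)

/-- Universality for every good class, with the constants of the plane. -/
def MainGen : Prop :=
  ∃ ε₁ > (0 : ℝ), ∀ c' : ℝ, 1 ≤ c' → ∃ η₁ > (0 : ℝ), ∃ L₀ : ℕ, ∀ L ≥ L₀, ∀ C₁ : ℝ, 1 ≤ C₁ →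
    ∀ ε > 0, ∃ η₂ > 0, ∀ R : ℕ, ∃ δ₀ > 0, ∀ q : Par, q.R = R → Crit L q η₂ δ₀ →
      ∃ Zσ Zε : ℝ, |Zσ - 1| < ε ∧ |Zε - 1| < ε ∧ MainOK q Zσ Zε ∧
        ∀ (Q : Cls) (c : ℝ), 1 ≤ c → c ^ 2 ≤ ε₁ * L → Q.Ok L C₁ c →
          MainQ Q q Zσ Zε L η₂ δ₀ ∧ MainJQ Q q Zσ Zε L c' η₁

end Vale.Agent.P144Z
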