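import Vale.Agent.P144D.I.O.GenT
import Vale.Agent.P144D.I.O.Alg

/-!
The exact formula for the mixed correlations with insertions.
-/

namespace Vale.Agent.P144Z.IO

open Finset Matrix Geo Mn

namespace G4

section

variable (G : Geo)

/-- A chain of integrations that extract constants. -/
theorem flow_abs (L N : ℕ) (c V : ℕ → G.E) (hc : ∀ j, G.noF (c j) = c j)
    (hs : ∀ j < N, evG (G.exM (covP (Dm G.A) (sc L j) (sc L (j + 1)))) (NormedSpace.exp (V j)) =
      NormedSpace.exp (c (j + 1) + V (j + 1))) :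
    G.Om (NormedSpace.exp (c 0 + V 0)) =
      NormedSpace.exp (∑ j ∈ range (N + 1), c j) * G.TL (sc L N) (NormedSpace.exp (V N)) := by
  have ha := C.Dm_anti G.A
  refine LM.Om_eq_TL _ (by simp only [I2.noF_exp, map_sum, hc]) ?_
  induction N with
  | zero =>
    rw [← I2.evG_src G (covL_anti ha _) (by simp only [I2.noF_exp, map_sum, hc]), ← I2.exp_add',
      show sc L 0 = 8 by simp [sc], covL_eight, zero_add, range_one, sum_singleton]
  | succ N ih =>
    rw [ih fun j hj => hs j (by omega), covL_split ha (sc L N) (sc L (N + 1)), I2.evG_exM_add,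
      hs N (by omega), sum_range_succ _ (N + 1), I2.exp_add', I2.exp_add', mul_assoc,
      I2.evG_src G (covL_anti ha _) (by rw [I2.noF_exp, hc])]

theorem scF_ei (c : ℝ) (κ : G.K) (x : G.P × Fin 4) :
    evMap (I2.scF G c) (ei κ x) = c • ei κ x := by
  have h : I2.scF G c (Pi.single (Sum.inr (κ, 0)) 1) = (1 : ℝ) • Pi.single (Sum.inr (κ, 0)) 1 := by
    rw [one_smul, ← RN.prB_src]
    exact LinearMap.congr_fun (I2.scF_pS G c) _
  rw [ei, I2.evMap_pp, I2.scF_ex, h, I2.pp_smul_smul, one_mul]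

/-- The contour sum with insertions as a Grassmann integral. -/
theorem contourI (x : ℝ) {Z : ℝ} (hZ : 0 < Z) {k : ℕ} (κ : Fin k → G.K)
    (t : Fin k → G.P × Fin 4) (F : G.Cfg → G.E) (hF : ∀ n, G.noF (F n) = F n)
    (a : Fin k → G.Cfg → ℝ) :
    G.Om (NormedSpace.exp (∑ y, ((Z * (x - tc)) • G.O1 y + (Z - 1) • G.O2 y)) *
      G.E0 (x * Z) fun n => F n * ∏ i, (1 + (√Z * a i n) • ei (κ i) (t i))) =
      Z ^ (2 * G.M ^ 2) • ∑ n, wt 1 x n • (F n * G.noF (evG (G.exM (gM G.M))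
        ((∏ e : Tor G.M × Fin 2, if n e then G.edge e.1 e.2 else 1) *
          ∏ i, (1 + a i n • ei (κ i) (t i))))) := by
  have e1 : NormedSpace.exp (tc • ∑ e : Tor G.M × Fin 2, G.edge e.1 e.2) *
      NormedSpace.exp (∑ y, ((Z * (x - tc)) • G.O1 y + (Z - 1) • G.O2 y)) =
      NormedSpace.exp ((Z - 1) • ∑ y, G.site y) *
        NormedSpace.exp ((x * Z) • ∑ e : Tor G.M × Fin 2, G.edge e.1 e.2) := by
    rw [← I2.exp_add', ← I2.exp_add', Finset.sum_add_distrib, ← Finset.smul_sum,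
      ← Finset.smul_sum, I2.sum_O1, I2.sum_O2]
    congr 1
    module
  have hC : (Z⁻¹ • gM G.M)ᵀ = -(Z⁻¹ • gM G.M) := by rw [transpose_smul, I2.gM_anti, smul_neg]
  rw [Geo.Om, ← mul_assoc, e1, mul_assoc, I2.E0_exp, I2.noF_site G hZ.ne', map_sum, map_sum]
  congr 1
  refine Finset.sum_congr rfl fun n _ => ?_
  have e : (∏ i, (1 + (√Z * a i n) • ei (κ i) (t i))) *
      (∏ e : Tor G.M × Fin 2, if n e then (x * Z) • G.edge e.1 e.2 else 1) =
      evMap (I2.scF G √Z) (wt 1 x n •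
        ((∏ e : Tor G.M × Fin 2, if n e then G.edge e.1 e.2 else 1) *
          ∏ i, (1 + a i n • ei (κ i) (t i)))) := by
    rw [map_smul, I2.evMap_mul, I2.evMap_prod, I2.evMap_prod, mul_comm, ← smul_mul_assoc, wt,
      ← Finset.prod_smul]
    congr 1
    · refine Finset.prod_congr rfl fun e _ => ?_
      split_ifs
      · rw [I2.scF_edge, Real.mul_self_sqrt hZ.le, smul_smul, Pi.one_apply, mul_one]
      · rw [I2.evMap_one, one_smul]
    · refine Finset.prod_congr rfl fun i _ => ?_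
      rw [map_add, map_smul, I2.evMap_one, scF_ei, smul_smul, mul_comm]
  rw [mul_assoc, I2.evG_src G hC (hF n), I2.noF_mul, hF, e,
    I2.evG_scF G (I2.gM_anti _) (by rw [Real.mul_self_sqrt hZ.le, inv_mul_cancel₀ hZ.ne']),
    I2.noF_scF, map_smul, map_smul, mul_smul_comm]

end

variable {g : Geo} {k : ℕ} {s : Fin k → g.P × Fin 4}

theorem emb_O1 (x : g.P) : g.emb s (g.O1 x) = (g.xt s).O1 x := by
  simp only [Geo.O1, map_smul, map_sum, map_add, emb_edge]
  rfl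

theorem emb_site (x : g.P) : g.emb s (g.site x) = (g.xt s).site x := by
  unfold Geo.site
  rw [map_sum]
  refine sum_congr rfl fun a _ => ?_
  rw [map_sum]
  refine sum_congr rfl fun b _ => ?_
  split_ifs
  · exact (I2.evMap_pp _ _ _).trans (congrArg₂ pp (embL_inl _) (embL_inl _))
  · exact map_zero _

theorem emb_O2 (x : g.P) : g.emb s (g.O2 x) = (g.xt s).O2 x := by
  rw [Geo.O2, map_add, map_smul, emb_O1, emb_site]
  rfl

theorem sum_HI0 (q : Par) (o : ℝ) (O : Fin k → g.Cfg → ℝ) (K : ℕ) :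
    g.emb s (∑ U, g.csC 0 q 0 0 U) + ∑ X, g.HI s (g.initC q 0).H (g.initI s q o O K) X =
      g.emb s (∑ y, (g.init q).v y) +
        ∑ U, Cl ((g.xt s).E0 (q.x * q.Z)) (g.HinI s q o O K) U := by
  simp only [Geo.HI, StI.Y, Geo.initI, sum_add_distrib, sum_sub_distrib, ← map_sum,
    W.I2.sum_initC, Geo.csC, map_add, map_sub]
  abel

open Classical in
theorem sum_HIs (j ℓ ℓ' : ℕ) (r : g.St) (u : Fin k → g.P × Fin 4 → ℝ) (t : g.StI s) :
    g.emb s (∑ U, g.noF (g.intg ℓ ℓ' r U)) +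
      ∑ X, g.HI s (g.step j ℓ ℓ' 0 r).H (g.stepI s ℓ ℓ' r.H u t) X =
      ∑ U, Cl (evG ((g.xt s).exM (covP (Dm g.A) ℓ ℓ'))) (g.HI s r.H t) U := by
  have h : ∑ U : Finset g.P, ∑ i ∈ univ.filter (fun i => stein U ≤ ℓ ∧ (s i).1 ∈ U),
      g.tI s (u i) i (g.remI s ℓ ℓ' r.H t U) • g.eI s i =
      ∑ i, (∑ U ∈ univ.filter (fun U : Finset g.P => stein U ≤ ℓ ∧ (s i).1 ∈ U),
        g.tI s (u i) i (g.remI s ℓ ℓ' r.H t U)) • g.eI s i := by
    simp only [sum_filter, sum_smul]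
    rw [sum_comm]
    refine sum_congr rfl fun i _ => sum_congr rfl fun U _ => ?_
    split_ifs
    · rfl
    · rw [zero_smul]
  have h1 : ∑ U, g.remI s ℓ ℓ' r.H t U =
      ∑ U, Cl (evG ((g.xt s).exM (covP (Dm g.A) ℓ ℓ'))) (g.HI s r.H t) U -
        g.emb s (∑ U, g.intg ℓ ℓ' r U) - ∑ i, t.z i • g.eI s i := by
    simp only [Geo.remI, sum_sub_distrib, sum_carI, map_sum, Geo.intg]
  have h2 : ∑ X, (g.stepI s ℓ ℓ' r.H u t).Y X =
      ∑ U, g.remI s ℓ ℓ' r.H t U + ∑ i, t.z i • g.eI s i := by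
    simp only [StI.Y, sum_add_distrib, sum_carI, Geo.stepI, sum_sub_distrib, h, add_smul]
    abel
  have h3 : ∑ X, g.HI s (g.step j ℓ ℓ' 0 r).H (g.stepI s ℓ ℓ' r.H u t) X =
      g.emb s (∑ X, (g.step j ℓ ℓ' 0 r).H X) + ∑ X, (g.stepI s ℓ ℓ' r.H u t).Y X := by
    rw [map_sum, ← sum_add_distrib]
    rfl
  rw [h3, h2, h1, I2.sum_step, Prod.fst_zero, Prod.snd_zero, zero_smul, zero_smul, add_zero,
    add_zero, map_sub]
  abel

theorem exp_HinI (q : Par) (o : ℝ) (O : Fin k → g.Cfg → ℝ) (K : ℕ) :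
    NormedSpace.exp (∑ X, g.HinI s q o O K X) = fun n => g.emb s (Real.exp (uint q n) •
      NormedSpace.exp (∑ κ, (g.src κ).O (g.see (g.src κ).y n) • g.bv κ)) *
        ∏ i, (1 + (√q.Z * O i n) • g.eI s i) := by
  funext n
  have h : ∑ X, g.HinI s q o O K X n =
      g.emb s (uint q n • 1 + ∑ κ, (g.src κ).O (g.see (g.src κ).y n) • g.bv κ) +
        ∑ i, (√q.Z * O i n) • g.eI s i := by
    simp only [Geo.HinI, sum_add_distrib, sum_carI, ← map_sum, Geo.HinC, Pi.zero_apply, zero_smul,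
      add_zero, I2.sum_Hin]
    rw [sum_fiberwise, add_assoc, ← sum_add_distrib]
    refine congrArg _ (sum_congr rfl fun i _ => ?_)
    rw [← add_smul, ← mul_add, add_sub_cancel]
  rw [I2.exp_pi, Finset.sum_apply, h, I2.exp_add', ← emb_exp, exp_add', exp_smul_one,
    smul_mul_assoc, one_mul, I2.exp_sum_sq _ _ fun i => I2.smul_sq (eI_sq i) _]

/-- The generating function with insertions. -/
theorem genI {L K : ℕ} {q : Par} {o : ℝ} {O : Fin k → g.Cfg → ℝ}
    {u : Fin k → ℕ → g.P × Fin 4 → ℝ} (hZ : 0 < q.Z) (hc : g.ConvI s L q o O K u) :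
    ∑ n, (wt 1 q.x n * Real.exp (uint q n)) •
      (g.emb s (NormedSpace.exp (∑ κ, (g.src κ).O (g.see (g.src κ).y n) • g.bv κ)) *
        g.CI s n fun i => O i n) = (q.Z ^ (2 * g.M ^ 2))⁻¹ •
      (g.emb s (NormedSpace.exp (MN.CC g L q 0)) * g.TTI s L q o O K u) := by
  have h1 := flow_abs (g.xt s) L g.J (fun j => g.emb s (∑ U, g.csC L q 0 j U))
    (fun j => ∑ X, g.HI s (g.flowC L q 0 j).H (g.flowI s L q o O K u j) X)
    (fun j => by rw [emb_noF, map_sum g.noF]; simp only [W.I2.noF_csC]) fun j hj =>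
      (hc.step j hj).symm.trans (congrArg _ (sum_HIs j _ _ _ _ _).symm)
  have h2 := contourI (g.xt s) q.x hZ Sum.inr s (fun n => g.emb s (Real.exp (uint q n) •
      NormedSpace.exp (∑ κ, (g.src κ).O (g.see (g.src κ).y n) • g.bv κ)))
    (fun n => by
      rw [emb_noF, map_smul g.noF, I2.noF_exp]
      simp only [map_sum, map_smul, noF_bv]) O
  have h3 : g.emb s (∑ y, (g.init q).v y) =
      ∑ y, ((q.Z * (q.x - tc)) • (g.xt s).O1 y + (q.Z - 1) • (g.xt s).O2 y) := by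
    simp only [Geo.init, map_sum, map_add, map_smul, emb_O1, emb_O2]
    rfl
  have h4 : NormedSpace.exp (g.emb s (∑ U, g.csC L q 0 0 U) +
      ∑ X, g.HI s (g.flowC L q 0 0).H (g.flowI s L q o O K u 0) X) = _ :=
    (congrArg _ (sum_HI0 q o O K)).trans (I2.exp_add' _ _)
  have h7 := h4.trans (congrArg₂ (· * ·) (congrArg _ h3)
    (hc.init.trans (congrArg _ (exp_HinI q o O K))))
  have h5 := (h1.symm.trans (congrArg _ h7)).trans h2
  rw [← map_sum, ← emb_exp] at h5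
  have h6 : g.emb s (NormedSpace.exp (MN.CC g L q 0)) * g.TTI s L q o O K u =
      q.Z ^ (2 * g.M ^ 2) • ∑ n, wt 1 q.x n • (g.emb s (Real.exp (uint q n) •
        NormedSpace.exp (∑ κ, (g.src κ).O (g.see (g.src κ).y n) • g.bv κ)) *
          g.CI s n fun i => O i n) := h5
  rw [h6, smul_smul, inv_mul_cancel₀ (pow_ne_zero _ hZ.ne'), one_smul]
  exact sum_congr rfl fun n _ => by rw [map_smul, smul_mul_assoc, smul_smul]

end G4

theorem mix_eqI {g : Geo} {k : ℕ} {s : Fin k → g.P × Fin 4} {A' : Gauge g.M} {L K : ℕ} {q : Par}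
    {o : ℝ} {O : Fin k → g.Cfg → ℝ} {u : Fin k → ℕ → g.P × Fin 4 → ℝ} (hg : g.OkW)
    (hon : ∀ κ, (g.src κ).on = true) (hZ : 0 < q.Z) (hc : g.ConvI s L q o O K u)
    (hc0 : (bare g A').ConvC L q 0 g.J) (hc1 : ∀ κ, (one g A' κ).ConvC L q 0 g.J)
    (h1 : ∀ κ, ag _ (MN.TT (one g A' κ) L q 0) ≠ 0) (top : (g.xt s).E →ₗ[ℝ] ℝ)
    (ht : ∀ (a : g.K → ℝ) (n : g.Cfg) (b : Fin k → ℝ),
      top (g.emb s (NormedSpace.exp (∑ κ, a κ • g.bv κ)) * g.CI s n b) =
        (∏ κ, a κ) * (∏ i, b i) * (cwI s n * wt g.A 1 n)) :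
    g.mixDJ s A' q O = top (NormedSpace.exp
      (g.emb s (MN.WW g A' L q 0 - ∑ κ, MN.tt g A' L q 0 κ • g.bv κ)) * g.TTI s L q o O K u) /
        ag _ (MN.TT (bare g A') L q 0) := by
  rw [mixDJ]
  simp only [fun κ => MN.en_eq hg κ (hon κ) hZ.ne' (hc1 κ) (h1 κ)]
  have h5 : ZwC q 0 A' 1 = _ := MN.Z_eq (g := bare g A') hZ.ne' hc0
  set a := ag _ (MN.CC (bare g A') L q 0) with ha
  set c := fun κ => cf (one g A' κ) () (MN.CC (one g A' κ) L q 0) + MN.tt g A' L q 0 κ with hcc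
  have h1 := congrArg (fun F => top (g.emb s (NormedSpace.exp (-∑ κ, c κ • g.bv κ)) * F))
    (G4.genI hZ hc)
  have h2 : -∑ κ, c κ • g.bv κ + MN.CC g L q 0 =
      a • (1 : g.E) + (MN.WW g A' L q 0 - ∑ κ, MN.tt g A' L q 0 κ • g.bv κ) := by
    simp only [MN.WW, br, hcc, add_smul, sum_add_distrib]
    abel
  have h3 : ∀ n : g.Cfg, -∑ κ, c κ • g.bv κ + ∑ κ, (g.src κ).O (g.see (g.src κ).y n) • g.bv κ
      = ∑ κ, (g.sgK κ n - c κ) • g.bv κ := by
    intro n
    simp only [sub_smul, sum_sub_distrib, MN.see_en hg _ (hon _)]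
    abel
  simp only [mul_sum, mul_smul_comm, ← mul_assoc, ← emb_mul, ← exp_add', h3, h2,
    map_sum top, map_smul top, ht, smul_eq_mul] at h1
  rw [exp_add', exp_smul_one, smul_mul_assoc, one_mul, map_smul, smul_mul_assoc, map_smul,
    smul_eq_mul, emb_exp] at h1
  have h4 : ZJ q g.A s O (fun n => ∏ κ, (g.sgK κ n - c κ)) = _ :=
    Eq.trans (sum_congr rfl fun n _ => by
      have := I1.wt_mul g.A 1 q.x n
      rw [mul_one] at this
      rw [this]
      ring) h1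
  rw [h4, h5]
  have := pow_ne_zero (2 * g.M ^ 2) hZ.ne'
  have := (Real.exp_pos a).ne'
  field_simp

end Vale.Agent.P144Z.IO
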