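import Vale.Agent.P144D.I.O.InitA
import Vale.Agent.P144D.W.Init
import Vale.Agent.P144D.I.Defs

/-!
The initial step with insertions in an arbitrary local system.
-/

namespace Vale.Agent.P144Z.IO.O5

open Finset R5

/-- The coefficient of the interaction. -/
noncomputable def uS (g : Geo) (q : Par) (X : Finset g.P) (n : g.Cfg) : ℝ :=
  ∑ y : g.P, ∑ B ∈ (potSets q.R).filter (fun B => g.put y (hull B) = X),
    q.μ * q.V B / B.card * spinFn B (g.see y n)

variable {g : Geo}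

theorem uS_empty (q : Par) (n : g.Cfg) : uS g q ∅ n = 0 := by
  refine sum_eq_zero fun y _ => sum_eq_zero fun B hB => ?_
  obtain ⟨hB, he⟩ := mem_filter.1 hB
  exact absurd (he ▸ self_mem_put y (zero_mem_hull hB)) (notMem_empty _)

theorem uS_dep (q : Par) (X : Finset g.P) : Dep (edg X) (uS g q X) := by
  intro n n' hn
  refine sum_congr rfl fun y _ => sum_congr rfl fun B hB => ?_
  rw [← (mem_filter.1 hB).2] at hn
  rw [spinFn_congr (see_congr hn)]

theorem abs_uS (q : Par) (X : Finset g.P) (n : g.Cfg) :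
    |uS g q X n| ≤ |q.μ| * vv g q.R q.V X := by
  rw [uS, vv, mul_sum]
  refine (abs_sum_le_sum_abs _ _).trans (sum_le_sum fun y _ => ?_)
  rw [mul_sum]
  refine (abs_sum_le_sum_abs _ _).trans (sum_le_sum fun B hB => ?_)
  have h1 : (1 : ℝ) ≤ B.card := by
    exact_mod_cast card_pos.2 ⟨_, (mem_filter.1 (mem_filter.1 hB).1).2⟩
  rw [abs_mul, abs_div, abs_mul, Nat.abs_cast]
  exact (mul_le_of_le_one_right (by positivity) (abs_spinFn _ _)).trans
    (div_le_self (by positivity) h1)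

variable {B : Type} [NormedCommRing B] [NormedAlgebra ℝ B] {k : ℕ}

/-- The supports of the sources and of the carried insertions. -/
def suI (g : Geo) (s : Fin k → g.P × Fin 4) : g.K ⊕ Fin k → Finset g.P :=
  Sum.elim (fun κ => g.put (g.src κ).y (g.src κ).Y) fun i => {(s i).1}

/-- The coefficients of the sources and of the carried insertions. -/
noncomputable def cfI (g : Geo) (k : ℕ) (z : ℝ) : g.K ⊕ Fin k → g.Cfg → ℝ :=
  Sum.elim (fun κ n => (g.src κ).O (g.see (g.src κ).y n)) fun _ _ => z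

/-- Functions of the contours with local values. -/
noncomputable def fB (𝓛 : LocSys g.P B) : LocSys g.P (g.Cfg → B) := funSys 𝓛 edg edg_mono

theorem mem_fB {𝓛 : LocSys g.P B} {X : Finset g.P} {c : g.Cfg → ℝ} (h : Dep (edg X) c) {F : B}
    (h' : F ∈ 𝓛.sub X) : (fun n => c n • F) ∈ (fB 𝓛).sub X :=
  ⟨fun n n' hn => congrArg (· • F) (h n n' hn), fun _ => Subalgebra.smul_mem _ h' _⟩

theorem fB_le {𝓛 : LocSys g.P B} {X : Finset g.P} {c : g.Cfg → ℝ} {F : B} {a b : ℝ}
    (h : ∀ n, |c n| ≤ a) (h' : 𝓛.p X F ≤ b) : (fB 𝓛).p X (fun n => c n • F) ≤ a * b :=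
  funSys_le (hT := edg_mono) fun n => by
    rw [𝓛.p_smul]
    exact mul_le_mul (h n) h' (𝓛.p_nonneg _ _) ((abs_nonneg _).trans (h n))

theorem init_gen [FiniteDimensional ℝ B] (hinj : Function.Injective (NormedSpace.exp : B → B))
    {κ τ : ℝ} (hκ : 0 ≤ κ) (hτ : 0 ≤ τ) {𝓛 : LocSys g.P B} {E : (g.Cfg → B) →ₗ[ℝ] B}
    (hE : IsExp (Z1 g.M) (fB 𝓛) 𝓛 κ E) {a : Tor g.M × Fin 2 → B} (hEx : ∀ F, E F = Ex a F)
    (hg : g.OkW) (hon : ∀ κ, (g.src κ).on = true)
    (hsep : ∀ κ κ', κ ≠ κ' → 8 < tdist (g.src κ).y (g.src κ').y) {s : Fin k → g.P × Fin 4} {K : ℕ}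
    (hss : ∀ i i', i ≠ i' → 2 * K < tdist (s i).1 (s i').1)
    (hsk : ∀ i κ, 8 < tdist (g.src κ).y (s i).1) {q : Par} {δ θ β y o : ℝ} (hδ : q.Small δ)
    (hθ : 0 ≤ θ) (hβ : 0 ≤ β) (hy : |y| ≤ 2) (ho : |o| ≤ 1) {O : Fin k → g.Cfg → ℝ}
    (hO : LocO s K O) (hOo : ∀ i n, |O i n - o| ≤ θ) (b : g.K → B) (e : Fin k → B)
    (hb : ∀ κ, b κ * b κ = 0) (he : ∀ i, e i * e i = 0)
    (hbm : ∀ κ X, (g.src κ).y ∈ X → b κ ∈ 𝓛.sub X ∧ 𝓛.p X (b κ) ≤ β)
    (hem : ∀ i X, (s i).1 ∈ X → e i ∈ 𝓛.sub X ∧ 𝓛.p X (e i) ≤ β)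
    (hsm : Real.exp ((τ + κ + 2) * (1 + (9 : ℕ))) * (2 * β) ≤ 1 / 96)
    (hC : cR (τ + κ + 2) q.R * δ + W.R5.eR (τ + κ + 2) K * θ ≤ 1 / 96)
    {H H' : Finset g.P → g.Cfg → B}
    (hH' : ∀ X n, H' X n = uS g q X n • 1 +
      ∑ κ ∈ univ.filter (fun κ => g.put (g.src κ).y (g.src κ).Y = X),
        (g.src κ).O (g.see (g.src κ).y n) • b κ)
    (hH : ∀ X n, H X n = H' X n + ∑ i ∈ univ.filter (fun i => {(s i).1} = X), (y * o) • e i +
      ∑ i ∈ univ.filter (fun i => ball (s i).1 K = X), (y * (O i n - o)) • e i) :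
    NormedSpace.exp (∑ U, Cl E H U) = E (NormedSpace.exp (∑ X, H X)) ∧
      Anch 8 τ (fun U => 𝓛.p U (Cl E H U - Cl E H' U -
        ∑ i ∈ univ.filter (fun i => {(s i).1} = U), (y * o) • e i))
        (20000 * cR (τ + κ + 2) q.R * δ + 20000 * W.R5.eR (τ + κ + 2) K * θ) := by
  have hσ : 0 ≤ τ + κ + 2 := by positivity
  have hr := fun κ => mem_put_on (hg.src κ) (hon κ)
  have ha := mul_nonneg (zero_le_one.trans (one_le_cR hσ q.R)) (small_nonneg hδ)
  have hb' := mul_nonneg (zero_le_one.trans (W.R5.one_le_eR hσ K)) hθ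
  have hβ1 : 2 * β ≤ 1 := by
    have h1 : 1 ≤ Real.exp ((τ + κ + 2) * (1 + (9 : ℕ))) := Real.one_le_exp (by positivity)
    exact (le_mul_of_one_le_left (by positivity) h1).trans (hsm.trans (by norm_num))
  have hball : ∀ i, (s i).1 ∈ ball (s i).1 K := fun i => G.mem_ball.2 (by rw [tdist_self]; omega)
  have hsq : ∀ c, Sum.elim b e c * Sum.elim b e c = 0 := by
    rintro (κ | i)
    exacts [hb κ, he i]
  have key := abs_init (H := H) (H' := H') hinj hκ hτ hE (suI g s)
    (fun c n => cfI g k (y * o) c n • Sum.elim b e c) ?_ ?_ ?_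
    (fun c => funext fun n => by
      rw [Pi.mul_apply, smul_mul_smul_comm, hsq, smul_zero, Pi.zero_apply]) (fun c => ?_)
    (c := 9) ?_ (β := 2 * β) (by positivity) ?_ hsm (A := fun X n => uS g q X n • 1)
    (Q := fun X => ∑ i ∈ univ.filter (fun i => ball (s i).1 K = X),
      fun n => (y * (O i n - o)) • e i)
    (funext fun n => by rw [uS_empty, zero_smul, Pi.zero_apply])
    (fam_empty (fun i => ⟨_, hball i⟩) _) (fun X => mem_fB (uS_dep q X) (one_mem _)) ?_ ha hb' ?_ ?_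
    hC ?_ ?_
  · refine ⟨key.1, anch_mono (key.2.anch hτ fun _ => 𝓛.p_nonneg _ _) (fun U => le_of_eq ?_)
      (by linarith)⟩
    congr 2
    refine sum_congr rfl fun i _ => ?_
    rw [hEx]
    exact (Ex_const _ _).symm
  · rintro (κ | i)
    exacts [⟨_, (hr κ).1⟩, singleton_nonempty _]
  · rintro (κ | i)
    · exact mem_fB (fun n n' hn => (hg.src κ).dep _ _ (see_congr hn)) (hbm κ _ (hr κ).1).1
    · exact mem_fB (fun n n' _ => rfl) (hem i _ (mem_singleton_self _)).1
  · rintro (κ | i) (κ' | i') hne x hx hx'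
    · have a1 := hsep κ κ' fun e => hne (congrArg _ e)
      have a2 := (hr κ).2.2 x hx
      have a3 := (hr κ').2.2 x hx'
      have a4 := tdist_triangle (g.src κ).y x (g.src κ').y
      rw [tdist_comm] at a2
      omega
    · have a1 := hsk i' κ
      have a2 := (hr κ).2.2 x hx
      rw [mem_singleton.1 hx', tdist_comm] at a2
      omega
    · have a1 := hsk i κ'
      have a2 := (hr κ').2.2 x hx'
      rw [mem_singleton.1 hx, tdist_comm] at a2
      omega
    · have a1 := hss i i' fun e => hne (congrArg _ e)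
      rw [← mem_singleton.1 hx, ← mem_singleton.1 hx', tdist_self] at a1
      omega
  · have h3 : (fun n => cfI g k (y * o) c n • Sum.elim b e c) =
        fun n => Sum.elim b e c * (cfI g k (y * o) c n • 1) :=
      funext fun n => by rw [mul_smul_comm, mul_one]
    rw [hEx, h3, Ex_const_mul, mul_mul_mul_comm, hsq, zero_mul]
  · rintro (κ | i)
    · exact stein_le_of_ball (hr κ).2.2
    · exact (stein_singleton _).le.trans (Nat.zero_le _)
  · rintro (κ | i)
    · exact fB_le (fun n => ((hg.src κ).bd _).trans one_le_two) (hbm κ _ (hr κ).1).2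
    · refine fB_le (fun n => ?_) (hem i _ (mem_singleton_self _)).2
      change |y * o| ≤ 2
      rw [abs_mul]
      exact (mul_le_of_le_one_right (abs_nonneg _) ho).trans hy
  · refine fun X => sum_mem fun i hi => ?_
    rw [← (mem_filter.1 hi).2]
    refine mem_fB (fun n n' hn => ?_) (hem i _ (hball i)).1
    rw [hO i n n' fun e a1 a2 => hn e (mem_edg.2 ⟨a1, a2⟩)]
  · refine ((pt_vv hσ q.R q.V).mul (abs_nonneg q.μ)).mono
      (fun X => (fB_le (abs_uS q X) (𝓛.p_one X)).trans (mul_one _).le) ?_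
    rw [mul_left_comm]
    exact mul_le_mul_of_nonneg_left hδ (zero_le_one.trans (one_le_cR hσ _))
  · refine pt_fam hσ (fun i => ball (s i).1 K) _ (fun i i' hne x hx hx' => ?_)
      (fun i => stein_le_of_ball fun x hx => G.mem_ball.1 hx) hθ fun i => ?_
    · have a1 := hss i i' hne
      have a2 := G.mem_ball.1 hx
      have a3 := G.mem_ball.1 hx'
      have a4 := tdist_triangle (s i).1 x (s i').1
      rw [tdist_comm] at a2
      omega
    · refine (fB_le (a := 2 * θ) (fun n => ?_) (hem i _ (hball i)).2).trans (by nlinarith)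
      rw [abs_mul]
      exact mul_le_mul hy (hOo i n) (abs_nonneg _) zero_le_two
  · intro X
    funext n
    rw [fam_sum, hH, hH']
    simp only [Pi.add_apply, Finset.sum_apply]
    rw [add_assoc (uS g q X n • 1), add_right_comm]
    rfl
  · intro X
    funext n
    rw [hH']
    simp only [Pi.add_apply, Finset.sum_apply]
    rfl

end Vale.Agent.P144Z.IO.O5
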