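import Vale.Agent.P144D.I.O.Loc0
import Vale.Agent.P144D.I.O.Alg

/-!
The local algebras with insertions.
-/

namespace Vale.Agent.P144Z.IO

open Finset Matrix Geo Mn

variable {g : Geo} {ℓ ℓ' : ℕ} {h h' β β' : ℝ} {X Y : Finset g.P}

theorem pn_dgE (hℓ : 1 ≤ ℓ) (hh' : 0 < h') (hβ' : 0 < β') (hhh : h' ≤ h) (hββ : β' ≤ β)
    (hXY : X ⊆ Y) {a : g.K → ℝ} (ha : ∀ κ, |a κ| * √β' ≤ √β) {F : g.E} (hF : F ∈ g.el X) :
    g.pn ℓ h' β' Y (g.dg a F) ≤ g.pn ℓ h β X F :=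
  pn_evMapE hℓ (hh'.trans_le hhh) (hβ'.trans_le hββ) hℓ hh' hβ' _ hF
    (mulL_mem _ (el_mono hXY hF)) fun r hr p hp => by
      rcases RN.cons_cases hp with ⟨z, hz, δ, c, hs, hc, hd, rfl⟩ | ⟨κ, j, hk, rfl⟩
      · show opn (r.Ψ (I1.mulL (du a) (g.ex δ))) ≤ h * c
        rw [du_ex]
        exact (RN.In.fld hr (hXY hz) hs hc hd).trans (mul_le_mul_of_nonneg_right hhh hc)
      · show opn (r.Ψ (I1.mulL (du a) (Pi.single (Sum.inr (κ, j)) 1))) ≤ √β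
        rw [I1.mulL_single, map_smul, A3.opn_smul]
        refine (mul_le_mul_of_nonneg_left (RN.In.src hr (hXY hk) j) (abs_nonneg _)).trans ?_
        show |if j = 0 then a κ else 1| * √β' ≤ √β
        split_ifs
        · exact ha κ
        · rw [abs_one, one_mul]
          exact Real.sqrt_le_sqrt hββ

theorem pn_eiE (hℓ : 1 ≤ ℓ) (hh : 0 < h) (hβ : 0 < β) {κ : g.K} {x : g.P × Fin 4} {ν : ℝ}
    (hν : 0 ≤ ν) (hd : Dom g.A ℓ x.1 (Pi.single x 1) ν) (hκ : (g.src κ).y ∈ X) (hX : x.1 ∈ X) :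
    g.pn ℓ h β X (ei κ x) ≤ √β * (h * ν) := by
  refine pn_leE hℓ hh hβ (R6.pp_mem (R6.single_zero (inr_gens hκ 0))
    (ex_off fun t ht => sg_ne fun e : t = x => ht (e ▸ hX))) fun r hr => ?_
  rw [val_pp, map_mul, A3.ev_psi, A3.ev_psi]
  exact (opn_mul _ _).trans (mul_le_mul (RN.In.src hr hκ 0)
    (RN.In.fld hr hX (RN.supp_single _ _) hν hd) (A3.opn_nonneg _) (Real.sqrt_nonneg _))

variable {k : ℕ} {s : Fin k → g.P × Fin 4} {w w' : Fin k → ℝ}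

/-- The restriction to the old generators. -/
def prjL (s : Fin k → g.P × Fin 4) : ((g.xt s).S → ℝ) →ₗ[ℝ] (g.S → ℝ) :=
  LinearMap.funLeft ℝ ℝ (Sum.map id (Prod.map Sum.inl id))

theorem prjL_embL (δ : g.S → ℝ) : prjL s (g.embL s δ) = δ := funext fun t => by cases t <;> rfl

theorem prjL_new (i : Fin k) (j : Fin 2) :
    prjL s (Pi.single (Sum.inr (Sum.inr i, j)) 1) = 0 := by
  funext t
  refine sg_ne (S := (g.xt s).S) ?_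
  rcases t with x | ⟨κ, j'⟩
  · exact Sum.inl_ne_inr
  · exact fun e => Sum.inl_ne_inr (Prod.mk.inj (Sum.inr.inj e)).1

theorem scI_el (a : Fin k → ℝ) {F : (g.xt s).E} (hF : F ∈ g.elI s X) :
    g.scI s a F ∈ (g.xt s).el X := dg_el (g := g.xt s) _ (elI_el hF)

theorem pI_nonneg (F : (g.xt s).E) : 0 ≤ g.pI s ℓ h β w X F := RN.pn_nonneg (g := g.xt s) _

theorem pn_emb (hℓ : 1 ≤ ℓ) (hh : 0 < h) (hβ : 0 < β) {F : g.E} (hF : F ∈ g.el X) :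
    (g.xt s).pn ℓ h β X (g.emb s F) = g.pn ℓ h β X F := by
  have e0 : Ev.val (g.emb s F) = ExteriorAlgebra.map (g.embL s) (Ev.val F) := val_evMap _ _
  have hF' : ExteriorAlgebra.map (g.embL s) (Ev.val F) ∈ loc ((g.xt s).gens X) :=
    e0 ▸ elI_el (emb_elI hF)
  have e : ExteriorAlgebra.map (prjL s) (ExteriorAlgebra.map (g.embL s) (Ev.val F)) =
      Ev.val F := by
    rw [I2.map_map, show prjL s ∘ₗ g.embL s = LinearMap.id from LinearMap.ext prjL_embL,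
      ExteriorAlgebra.map_id]
    rfl
  refine (congrArg (nrm ((g.xt s).cons ℓ h β X) ((g.xt s).gens X)) e0).trans
    (le_antisymm (nrm_map (RN.adm hℓ hh hβ X) (RN.adm (g := g.xt s) hℓ hh hβ X) _
      (fun r hr p hp => ?_) hF hF') ?_)
  · rcases RN.cons_cases hp with ⟨z, hz, δ, c, hs, hc, hd, rfl⟩ | ⟨κ, j, hk, rfl⟩
    · exact (congrArg (fun v => opn (r.Ψ v)) (embL_ex δ)).trans_le
        (RN.In.fld (g := g.xt s) hr hz hs hc hd)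
    · exact (congrArg (fun v => opn (r.Ψ v)) (embL_inr κ j)).trans_le
        (RN.In.src (g := g.xt s) (k := Sum.inl κ) hr hk j)
  · refine (congrArg (nrm (g.cons ℓ h β X) (g.gens X)) e).symm.trans_le
      (nrm_map (RN.adm (g := g.xt s) hℓ hh hβ X) (RN.adm hℓ hh hβ X) (prjL s)
        (fun r hr p hp => ?_) hF' (e.symm ▸ hF))
    rcases RN.cons_cases (g := g.xt s) hp with
      ⟨z, hz, δ, c, hs, hc, hd, rfl⟩ | ⟨κ | i, j, hk, rfl⟩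
    · exact (congrArg (fun v => opn (r.Ψ v)) ((congrArg (prjL s) (embL_ex (g := g) δ).symm).trans
        (prjL_embL _))).trans_le (RN.In.fld hr hz hs hc hd)
    · exact (congrArg (fun v => opn (r.Ψ v)) ((congrArg (prjL s) (embL_inr κ j).symm).trans
        (prjL_embL _))).trans_le (RN.In.src hr hk j)
    · exact ((congrArg (fun v => opn (r.Ψ v)) (prjL_new i j)).trans (RN.opn_Psi_zero r)).trans_le
        (Real.sqrt_nonneg _)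

theorem pI_emb (hℓ : 1 ≤ ℓ) (hh : 0 < h) (hβ : 0 < β) {F : g.E} (hF : F ∈ g.el X) :
    g.pI s ℓ h β w X (g.emb s F) = g.pn ℓ h β X F := by
  rw [pI, scI_emb, pn_emb hℓ hh hβ hF]

theorem pI_eI (hℓ : 1 ≤ ℓ) (hh : 0 < h) (hβ : 0 < β) (hw : ∀ i, 0 < w i) {i : Fin k} {ν : ℝ}
    (hν : 0 ≤ ν) (hd : Dom g.A ℓ (s i).1 (Pi.single (s i) 1) ν) (hX : (s i).1 ∈ X) :
    g.pI s ℓ h β w X (g.eI s i) ≤ w i * (h * ν) := by
  have h0 : 0 < √β := Real.sqrt_pos.2 hβ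
  rw [pI, scI_eI]
  refine (RN.pn_smul (g := g.xt s) hℓ hh hβ _ _).trans_le ((mul_le_mul_of_nonneg_left
    (pn_eiE (g := g.xt s) (κ := Sum.inr i) hℓ hh hβ hν hd hX hX) (abs_nonneg _)).trans_eq ?_)
  rw [abs_of_pos (div_pos (hw i) h0), ← mul_assoc, div_mul_cancel₀ _ h0.ne']

theorem pI_mono (hℓ : 1 ≤ ℓ) (hh' : 0 < h') (hβ' : 0 < β') (hw' : ∀ i, 0 < w' i) (hhh : h' ≤ h)
    (hββ : β' ≤ β) (hww : ∀ i, w' i ≤ w i) (hXY : X ⊆ Y) {F : (g.xt s).E} (hF : F ∈ g.elI s X) :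
    g.pI s ℓ h' β' w' Y F ≤ g.pI s ℓ h β w X F := by
  have h0 : 0 < √β := Real.sqrt_pos.2 (hβ'.trans_le hββ)
  have h0' : 0 < √β' := Real.sqrt_pos.2 hβ'
  have hw : ∀ i, 0 < w i := fun i => (hw' i).trans_le (hww i)
  have e : (fun i => w' i / √β') = (fun i => w' i / w i * √β / √β') * fun i => w i / √β := by
    funext i
    have := (hw i).ne'
    simp only [Pi.mul_apply]
    field_simp
  rw [pI, e, ← scI_scI]
  refine pn_dgE (g := g.xt s) hℓ hh' hβ' hhh hββ hXY (fun κ => ?_) (scI_el _ hF)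
  rcases κ with κ | i
  · show |(1 : ℝ)| * √β' ≤ √β
    rw [abs_one, one_mul]
    exact Real.sqrt_le_sqrt hββ
  · show |w' i / w i * √β / √β'| * √β' ≤ √β
    rw [abs_of_pos (div_pos (mul_pos (div_pos (hw' i) (hw i)) h0) h0'), div_mul_cancel₀ _ h0'.ne']
    exact mul_le_of_le_one_left h0.le ((div_le_one (hw i)).2 (hww i))

/-- The local algebras with insertions. -/
theorem exists_locI (s : Fin k → g.P × Fin 4) (hℓ : 1 ≤ ℓ) (hh : 0 < h) (hβ : 0 < β)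
    (hw : ∀ i, 0 < w i) :
    ∃ 𝓛 : LocSys g.P (g.xt s).E, 𝓛.sub = g.elI s ∧ 𝓛.p = g.pI s ℓ h β w :=
  ⟨{ sub := g.elI s
     p := g.pI s ℓ h β w
     mono := elI_mono
     p_nonneg := fun _ => pI_nonneg
     p_add := fun X F G => by
      rw [pI, map_add]
      exact RN.pn_add (g := g.xt s) hℓ hh hβ _ _
     p_smul := fun X c F => by
      rw [pI, map_smul]
      exact RN.pn_smul (g := g.xt s) hℓ hh hβ _ _
     p_mul := fun X F G => by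
      rw [pI, scI_mul]
      exact RN.pn_mul (g := g.xt s) hℓ hh hβ _ _
     p_one := fun X => by
      rw [pI, scI_one]
      exact RN.pn_one (g := g.xt s) hℓ hh hβ
     p_mono := fun hXY hF => pI_mono hℓ hh hβ hw le_rfl le_rfl (fun _ => le_rfl) hXY hF
     p_def := fun {X F} hF h0 => by
      have h1 := pn_defE (g := g.xt s) hℓ hh hβ (scI_el _ hF) h0
      have e : (fun i => w i / √β)⁻¹ * (fun i => w i / √β) = 1 :=
        funext fun i => inv_mul_cancel₀ (div_pos (hw i) (Real.sqrt_pos.2 hβ)).ne'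
      rw [← scI_id F, ← e, ← scI_scI, h1, map_zero] }, rfl, rfl⟩

theorem pI_exp (hℓ : 1 ≤ ℓ) (hh : 0 < h) (hβ : 0 < β) (hw : ∀ i, 0 < w i) {F : (g.xt s).E}
    (hF : F ∈ g.elI s univ) {x : ℝ} (hx : g.pI s ℓ h β w univ F ≤ x) :
    g.pI s ℓ h β w univ (NormedSpace.exp F - 1) ≤ Real.exp x - 1 ∧
      g.pI s ℓ h β w univ (NormedSpace.exp F) ≤ Real.exp x := by
  obtain ⟨𝓛, e1, e2⟩ := exists_locI s hℓ hh hβ hw
  rw [← e1] at hF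
  rw [← e2] at hx ⊢
  have h1 := ((sub_exp_log (𝓛.sub univ) (𝓛.p univ) (𝓛.p_nonneg _) (fun F _ G _ => 𝓛.p_add _ F G)
    (fun c F _ => 𝓛.p_smul _ c F) (fun F _ G _ => 𝓛.p_mul _ F G) (𝓛.p_one _)
    (fun _ hF h => 𝓛.p_def hF h)).1 F hF).2
  have h2 := 𝓛.p_add univ (NormedSpace.exp F - 1) 1
  have h3 := 𝓛.p_one univ
  have h4 := Real.exp_le_exp.2 hx
  rw [sub_add_cancel] at h2
  exact ⟨by linarith, by linarith⟩

theorem pI_evG {C : Matrix (Tor g.M × Fin 4) (Tor g.M × Fin 4) ℝ} (hC : Cᵀ = -C)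
    (hℓ : 1 ≤ ℓ) {c : ℝ} (hG : GramLe (Dm g.A) C ℓ c) (hc : 0 ≤ c) (hh' : 0 < h')
    (hh : h' + 2 * c ≤ h) (hβ : 0 < β) {F : (g.xt s).E} (hF : F ∈ g.elI s X) :
    g.pI s ℓ h' β w X (evG ((g.xt s).exM C) F) ≤ g.pI s ℓ h β w X F := by
  refine (congrArg ((g.xt s).pn ℓ h' β X) (evG_dg (g := g.xt s) hC _ F).symm).trans_le ?_
  exact pn_evGE (g := g.xt s) hC hℓ hG hc hh' hh hβ (scI_el _ hF)

theorem isExp_evGI {C : Matrix (Tor g.M × Fin 4) (Tor g.M × Fin 4) ℝ} (hC : Cᵀ = -C)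
    (hℓ : 1 ≤ ℓ) {c : ℝ} (hG : GramLe (Dm g.A) C ℓ c) (hc : 0 ≤ c) (hh' : 0 < h')
    (hh : h' + 2 * c ≤ h) (hβ : 0 < β) {𝓛 𝓛' : LocSys g.P (g.xt s).E} (h1 : 𝓛.sub = g.elI s)
    (h2 : 𝓛.p = g.pI s ℓ h β w) (h1' : 𝓛'.sub = g.elI s) (h2' : 𝓛'.p = g.pI s ℓ h' β w)
    (Z : Size g.P) (hZ : ∀ t t' : Tor g.M × Fin 4, ¬ Z.adj t.1 t'.1 → C t t' = 0) :
    IsExp Z 𝓛 𝓛' 0 (evG ((g.xt s).exM C)) where
  one := R2.evG_one _
  mem hF := by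
    rw [h1] at hF
    rw [h1']
    exact R6.evG_mem _ hF
  le hF := by
    rw [h1] at hF
    rw [zero_mul, Real.exp_zero, one_mul, h2, h2']
    exact pI_evG hC hℓ hG hc hh' hh hβ hF
  mul {X Y F G} hF hG hXY := by
    rw [h1] at hF hG
    refine R2.evG_mul (RN.exM_anti (g := g.xt s) hC) hF hG fun t ht t' ht' => ?_
    rcases t with t | t <;> rcases t' with t' | t'
    · exact hZ t t' fun h => hXY ⟨_, ht.1, _, ht'.1, h⟩
    all_goals rfl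

theorem isExp_E0I (hA : IsW g.A) (hh : 0 < h) (hβ : 0 < β) {𝓛 : LocSys g.P (g.xt s).E}
    (h1 : 𝓛.sub = g.elI s) (h2 : 𝓛.p = g.pI s 8 h β w) {x : ℝ} (hx : |x| ≤ 1) :
    IsExp (R5.Z1 g.M) (R5.fS (g := g.xt s) 𝓛) 𝓛 (R5.kp0 (2 * h)) ((g.xt s).E0 x) := by
  obtain ⟨C, -, hC⟩ := W.Geo.pn_crude
  refine R5.isExp_Ex (hT := R5.edg_mono) (R5.Z1 g.M) (fun e => x • (g.xt s).edge e.1 e.2)
    (b := (2 * h) ^ 2 * 8) (by positivity) (fun X e he => ?_) R5.card_edg R5.disjoint_edg _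
    (R5.E0_eq (g := g.xt s) x)
  obtain ⟨h3, h4⟩ := R5.mem_edg.1 he
  refine ⟨Subalgebra.smul_mem _ (h1 ▸ emb_edge (s := s) e.1 e.2 ▸ emb_elI (edge_el h3 h4)) _, ?_⟩
  rw [𝓛.p_smul]
  refine (mul_le_of_le_one_left (𝓛.p_nonneg _ _) hx).trans ?_
  rw [h2]
  refine (congrArg ((g.xt s).pn 8 h β X) (dg_edge (g := g.xt s) _ e.1 e.2)).trans_le
    (((hC (g.xt s) hA 8 h β (by norm_num) hh hβ e.1).2.2 e.2 X h3 h4).trans ?_)
  push_cast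
  nlinarith [sq_nonneg h]

/-- One integration. -/
theorem clP_I : ∃ L₀ : ℕ, ∀ L ≥ L₀, ∃ C : ℝ, 1 ≤ C ∧ ∀ (g : Geo), IsW g.A → ∀ (k : ℕ)
    (s : Fin k → g.P × Fin 4) (ℓ : ℕ) (h β : ℝ) (w : Fin k → ℝ), 8 ≤ ℓ → (L : ℝ) ^ 2 ≤ h → 0 < β →
    (∀ i, 0 < w i) →
    (∀ U, ∀ F ∈ g.elI s U, g.pI s ℓ (h / 2) β w U
      (evG ((g.xt s).exM (covP (Dm g.A) ℓ (L * ℓ))) F) ≤ g.pI s ℓ h β w U F) ∧
    (∀ (ι : Type) [Fintype ι] (p : ι → Finset g.P) (f : ι → (g.xt s).E), (∀ a, f a ∈ g.elI s (p a)) →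
      (∀ a b, a ≠ b → ∀ x ∈ p a, ∀ y ∈ p b, L * ℓ < tdist x y) → (∀ a, f a * f a = 0) →
      (∀ a, evG ((g.xt s).exM (covP (Dm g.A) ℓ (L * ℓ))) (f a) *
        evG ((g.xt s).exM (covP (Dm g.A) ℓ (L * ℓ))) (f a) = 0) → ∀ U,
      Cl (evG ((g.xt s).exM (covP (Dm g.A) ℓ (L * ℓ))))
        (fun X => ∑ a ∈ univ.filter (fun a => p a = X), f a) U =
        ∑ a ∈ univ.filter (fun a => p a = U), evG ((g.xt s).exM (covP (Dm g.A) ℓ (L * ℓ))) (f a)) ∧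
    ∀ H H' : Finset g.P → (g.xt s).E, H ∅ = 0 → H' ∅ = 0 → (∀ X, H X ∈ g.elI s X) →
      (∀ X, H' X ∈ g.elI s X) → ∀ ε ε' : ℝ, C * ε ≤ 1 →
      Anch ℓ L (fun X => g.pI s ℓ h β w X (H X)) ε →
      Anch ℓ L (fun X => g.pI s ℓ h β w X (H' X)) ε →
      Anch ℓ L (fun X => g.pI s ℓ h β w X (H X - H' X)) ε' →
      NormedSpace.exp (∑ U, Cl (evG ((g.xt s).exM (covP (Dm g.A) ℓ (L * ℓ)))) H U) =
        evG ((g.xt s).exM (covP (Dm g.A) ℓ (L * ℓ))) (NormedSpace.exp (∑ X, H X)) ∧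
      Anch (L * ℓ) (2 * L) (fun U => g.pI s ℓ (h / 2) β w U
        ((Cl (evG ((g.xt s).exM (covP (Dm g.A) ℓ (L * ℓ)))) H U -
          evG ((g.xt s).exM (covP (Dm g.A) ℓ (L * ℓ))) (H U)) -
        (Cl (evG ((g.xt s).exM (covP (Dm g.A) ℓ (L * ℓ)))) H' U -
          evG ((g.xt s).exM (covP (Dm g.A) ℓ (L * ℓ))) (H' U)))) (C * ε * ε') := by
  obtain ⟨Cg, hCg, hgram⟩ := gram_covP
  refine ⟨⌈4 * Cg⌉₊, fun L hL => ?_⟩
  have hL1 : 4 * Cg ≤ L := Nat.ceil_le.1 hL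
  have hτ : (4 : ℝ) ≤ L := by linarith
  have hL4 : 4 ≤ L := by exact_mod_cast hτ
  obtain ⟨D, hD⟩ : ∃ D : ℝ, D = 50 * (L : ℝ) ^ 2 * Real.exp (2 * L + 2) := ⟨_, rfl⟩
  have hD1 : 1 ≤ D := by
    have h1 : (1 : ℝ) ≤ (L : ℝ) ^ 2 := one_le_pow₀ (by linarith)
    have h2 : 1 ≤ Real.exp (2 * L + 2) := Real.one_le_exp (by linarith)
    rw [hD]
    exact one_le_mul_of_one_le_of_one_le (by linarith) h2
  refine ⟨1000 * D ^ 2, by nlinarith, fun g hA k s ℓ h β w h8 hLh hβ hw => ?_⟩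
  have h4 : 4 * ℓ ≤ L * ℓ := Nat.mul_le_mul_right ℓ hL4
  have hℓ : 1 ≤ ℓ := by omega
  have h1 : 1 ≤ L * ℓ := by omega
  have hl0 : (ℓ : ℝ) ≠ 0 := by positivity
  have hh : 0 < h := lt_of_lt_of_le (by positivity) hLh
  have hh2 : 0 < h / 2 := half_pos hh
  have hC := covP_anti (W.isD_Dm hA).anti ℓ (L * ℓ)
  have hG := hgram _ _ (W.isD_Dm hA) ℓ (L * ℓ) h8 (by omega)
  rw [show Cg * ((L * ℓ : ℕ) : ℝ) / ℓ = Cg * L by push_cast; field_simp] at hG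
  have hc : 0 ≤ Cg * L := by positivity
  have hhc : h / 2 + 2 * (Cg * L) ≤ h := by nlinarith
  obtain ⟨𝓛, a1, a2⟩ := exists_locI s hℓ hh hβ hw
  obtain ⟨𝓛', b1, b2⟩ := exists_locI s hℓ hh2 hβ hw
  have hE := isExp_evGI hC hℓ hG hc hh2 hhc hβ a1 a2 b1 b2 (RN.szAt g.M (L * ℓ) h1)
    fun t t' ht => covP_range g.A (by omega) (by omega) (not_le.1 ht)
  refine ⟨fun U F hF => pI_evG hC hℓ hG hc hh2 hhc hβ hF, fun ι _ p f hf hs n1 n2 U => ?_,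
    fun H H' h0 h0' hH hH' ε ε' hε hA hA' hd => ?_⟩
  · refine R5.Cl_disj exp_ev_injective hE p f (by rw [a1]; exact hf) ?_ n1 n2 U
    rintro a b hab ⟨x, hx, y, hy, hxy⟩
    exact (hs a b hab x hx y hy).not_ge hxy
  rw [← a1] at hH hH'
  rw [← a2] at hA hA' hd
  rw [← b2]
  have hq : ((L * ℓ : ℕ) : ℝ) ≤ (L : ℝ) * ℓ := (Nat.cast_mul _ _).le
  have hτ1 : (1 : ℝ) ≤ L := by linarith
  have hε0 : 0 ≤ ε := G.anch_nonneg (fun _ => 𝓛.p_nonneg _ _) hA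
  have l1 := R2.le_of_anch hℓ h4 h1 hτ1 hq (fun _ => 𝓛.p_nonneg _ _) hA
  have l2 := R2.le_of_anch hℓ h4 h1 hτ1 hq (fun _ => 𝓛.p_nonneg _ _) hA'
  have l3 := R2.le_of_anch hℓ h4 h1 hτ1 hq (fun _ => 𝓛.p_nonneg _ _) hd
  rw [← hD] at l1 l2 l3
  have hτ2 : (0 : ℝ) ≤ 2 * L := by linarith
  have hDε : D * ε ≤ 1 / 48 := by nlinarith [mul_nonneg (zero_le_one.trans hD1) hε0]
  have m1 := cl_main exp_ev_injective _ _ _ le_rfl hτ2 hE h0 hH (by linarith) l1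
  have m2 := R2.anch_of_le h1 hτ2 (fun _ => 𝓛'.p_nonneg _ _)
    (cl_rem exp_ev_injective _ _ _ le_rfl hτ2 hE h0 h0' hH hH' hDε l1 l2 l3)
  rw [show 1000 * (D * ε) * (D * ε') = 1000 * D ^ 2 * ε * ε' by ring] at m2
  refine ⟨?_, m2⟩
  have := m1.2.2.2 univ
  rwa [powerset_univ] at this

end Vale.Agent.P144Z.IO
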