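import Vale.Agent.P144D.I.O.Alg
import Vale.Agent.P144D.I.O.Loc
import Vale.Agent.P144D.I.O.InitB

/-!
The initial step with insertions.
-/

namespace Vale.Agent.P144Z.IO

open Finset Matrix Geo Mn R5

theorem init_I (τ h : ℝ) (hτ : 0 ≤ τ) (hh : 0 < h) : ∃ β₀ > 0, ∀ R : ℕ, ∃ C : ℝ, 1 ≤ C ∧ ∀ K : ℕ,
    ∃ C' : ℝ, 1 ≤ C' ∧ ∀ q : Par, q.R = R → q.Ok → ∀ δ θ : ℝ, q.Small δ → 0 ≤ θ →
    C * δ + C' * θ ≤ 1 → ∀ g : Geo, g.OkW → (∀ κ, (g.src κ).on = true) →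
    (∀ κ κ', κ ≠ κ' → 8 < tdist (g.src κ).y (g.src κ').y) → ∀ (k : ℕ) (s : Fin k → g.P × Fin 4)
    (o : ℝ) (O : Fin k → g.Cfg → ℝ), LocO s K O → |o| ≤ 1 → (∀ i n, |O i n - o| ≤ θ) →
    (∀ i i', i ≠ i' → 2 * K < tdist (s i).1 (s i').1) →
    (∀ i κ, 8 < tdist (g.src κ).y (s i).1) → ∀ (β : ℝ) (w : Fin k → ℝ), 0 < β → β ≤ β₀ →
    (∀ i, 0 < w i ∧ w i ≤ β₀) →
      NormedSpace.exp (∑ U, Cl ((g.xt s).E0 (q.x * q.Z)) (g.HinI s q o O K) U) =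
        (g.xt s).E0 (q.x * q.Z) (NormedSpace.exp (∑ X, g.HinI s q o O K X)) ∧
      Anch 8 τ (fun U => g.pI s 8 h β w U ((g.initI s q o O K).K U)) (C * δ + C' * θ) := by
  have hk := kp0_nonneg (2 * h)
  have hσ : 0 ≤ τ + kp0 (2 * h) + 2 := by positivity
  have e1 := W.R5.one_le_eR hσ
  have e2 := one_le_cR hσ
  obtain ⟨b₀, hb₀, hb₁⟩ : ∃ b₀ > (0 : ℝ),
      Real.exp ((τ + kp0 (2 * h) + 2) * (1 + (9 : ℕ))) * (2 * ((1 + 3 * h) * b₀)) ≤ 1 / 96 := by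
    refine ⟨(1 / 96) / (Real.exp ((τ + kp0 (2 * h) + 2) * (1 + (9 : ℕ))) * (2 * (1 + 3 * h))),
      by positivity, ?_⟩
    rw [← mul_assoc, ← mul_assoc, mul_assoc _ 2, mul_div_cancel₀ _ (by positivity)]
  refine ⟨b₀, hb₀, fun R => ⟨20000 * cR (τ + kp0 (2 * h) + 2) R, by linarith [e2 R], fun K =>
    ⟨20000 * W.R5.eR (τ + kp0 (2 * h) + 2) K, by linarith [e1 K], ?_⟩⟩⟩
  rintro q rfl hq δ θ hδ hθ hC g hg hon hsep k s o O hO ho hOo hss hsk β w hβ hβ0 hw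
  obtain ⟨𝓛, h1, h2⟩ := exists_locI s (by norm_num : 1 ≤ 8) hh hβ fun i => (hw i).1
  have hZ : |√q.Z| ≤ 2 := by
    rw [abs_of_nonneg (Real.sqrt_nonneg _)]
    exact Real.sqrt_le_iff.2 ⟨zero_le_two, by linarith [hq.Z_hi]⟩
  have hb₃ : 0 ≤ 3 * h * b₀ := by positivity
  have ha := mul_nonneg (zero_le_one.trans (e2 q.R)) (small_nonneg hδ)
  have hb := mul_nonneg (zero_le_one.trans (e1 K)) hθ
  have key := O5.init_gen (g := g) (𝓛 := 𝓛) (E := (g.xt s).E0 (q.x * q.Z))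
    (H := g.HinI s q o O K) (H' := fun X n => g.emb s (g.HinC q 0 X n)) exp_ev_injective hk hτ
    (isExp_E0I hg.sign hh hβ h1 h2 (abs_w hq)) (E0_eq (g := g.xt s) _) hg hon hsep hss hsk hδ hθ
    (β := (1 + 3 * h) * b₀) (by positivity) hZ ho hO hOo (fun κ => g.emb s (g.bv κ)) (g.eI s)
    (fun κ => by rw [← emb_mul, Geo.bv_sq, map_zero]) eI_sq (fun κ X hX => ⟨?_, ?_⟩)
    (fun i X hX => ⟨?_, ?_⟩) hb₁ (by linarith) (fun X n => ?_) fun X n => rfl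
  · refine ⟨key.1, anch_mono key.2 (fun U => le_of_eq ?_) le_rfl⟩
    rw [h2]
    exact congrArg (fun F => g.pI s 8 h β w U (Cl ((g.xt s).E0 (q.x * q.Z)) (g.HinI s q o O K) U -
      F - g.carI s (fun _ => √q.Z * o) U)) (Cl_emb0 _ _ U).symm
  · rw [h1]
    exact emb_elI (Geo.bv_mem hX).1
  · rw [h2, pI_emb (by norm_num) hh hβ (Geo.bv_mem hX).1]
    have a1 := W.Geo.pn_bv κ hg.sign (by norm_num : 1 ≤ 8) hh hβ hX
    linarith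
  · rw [h1]
    exact eI_mem hX
  · have a1 := pI_eI (by norm_num : 1 ≤ 8) hh hβ (fun i => (hw i).1) (Real.sqrt_nonneg _)
      (RN.dom_single g.A 8 (s i)) hX
    have a2 : √((8 : ℕ) : ℝ) ≤ 3 := Real.sqrt_le_iff.2 ⟨by norm_num, by norm_num⟩
    have a3 := mul_le_mul (hw i).2 (mul_le_mul_of_nonneg_left a2 hh.le) (by positivity) hb₀.le
    rw [h2]
    linarith
  · simp only [Geo.HinC, Geo.Hin, Pi.zero_apply, zero_smul, add_zero, map_add, map_smul, map_sum,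
      emb_one, O5.uS]

end Vale.Agent.P144Z.IO
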