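import Vale.Agent.P144D.I.O.Defs2
import Vale.Agent.P144D.FD.Both

/-!
The crude change of scale with insertions.
-/

namespace Vale.Agent.P144Z.IO

open Finset Matrix Geo Mn

namespace T1

open Vale.Agent.P144Z.RN

open Classical in
/-- Change of scale near separated fluxes, with a loss for each flux. -/
theorem pn_flux0 : ∃ C : ℝ, 1 ≤ C ∧ ∀ (g : Geo), IsW g.A → ∀ (ℓ ℓ' : ℕ), 1 ≤ ℓ → 2 * ℓ ≤ ℓ' →
    256 ≤ ℓ' → 8 * ℓ' ≤ g.M →
    (∀ f, flux g.A f = -1 → ∀ f', f' ≠ f → tdist f' f ≤ 3 * ℓ' + 4 → flux g.A f' = 1) →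
    ∀ (h h' β Λ κ₀ : ℝ), 0 < h → 0 < h' → 0 < β → 1 ≤ Λ → C * h' ^ 2 * ℓ ≤ h ^ 2 * ℓ' →
    C * h' ≤ Λ * h → 0 ≤ κ₀ → h' * κ₀ ≤ h → ∀ (X : Finset g.P) (F : g.E),
    Ev.val F ∈ loc (g.gens X) →
    (∀ z ∈ X, (∀ f, flux g.A f = -1 → ℓ' < tdist z f) → Shr g.A ℓ ℓ' z κ₀) → g.pn ℓ' h' β X F ≤
      (2 * Λ) ^ (univ.filter fun f => flux g.A f = -1 ∧ ∃ z ∈ X, tdist z f ≤ ℓ').card *
        g.pn ℓ h β X F := by
  obtain ⟨b, hb, h1⟩ := W.RN.exists_sing
  refine ⟨4 * b ^ 2, by nlinarith, fun g hA ℓ ℓ' hℓ hl h256 hM hsep h h' β Λ κ₀ hh hh' hβ hΛ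
    hk1 hk2 k0 k1 X F hF hX => nrm_le (adm (by omega) hh' hβ X) hF fun r hr => ?_⟩
  set κ := h / (2 * h') with hκ
  have hκ0 : 0 ≤ κ := by positivity
  have hκ1 : h' * κ = h / 2 := by rw [hκ]; field_simp
  have hκ2 : b ^ 2 * ℓ ≤ κ ^ 2 * ℓ' := by
    rw [hκ, div_pow, div_mul_eq_mul_div, le_div_iff₀ (by positivity)]
    nlinarith
  have hl0 : (0 : ℝ) ≤ ℓ := Nat.cast_nonneg ℓ
  have hex : ∀ f : {f // flux g.A f = -1 ∧ ∃ z ∈ X, tdist z f ≤ ℓ'},
      ∃ u, Sing g.A ℓ ℓ' f.1 u b κ := fun f =>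
    h1 g.M g.A hA f.1 ℓ ℓ' hℓ (by omega) h256 hM f.2.1 (hsep _ f.2.1) κ hκ2
  choose u hu using hex
  have key := opn_affine (adm hℓ hh hβ X) (fun f => g.ex (u f)) (fun f => g.ex (cnr f.1))
    hF r hΛ fun p hp => by
      rcases cons_cases hp with ⟨z, hz, δ, c, s1, hc, hd, rfl⟩ | ⟨k, i, hy, rfl⟩
      · have hz0 : ∀ f, ℓ' < tdist z f.1 → g.ex δ ⬝ᵥ g.ex (u f) = 0 := fun f hf => by
          rw [ex_dot]; exact dot_eq_zero s1 (hu f).supp (by omega)
        dsimp only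
        by_cases hn : ∃ f, flux g.A f = -1 ∧ tdist z f ≤ ℓ'
        · obtain ⟨f, hf, hzf⟩ := hn
          have hz1 : ∀ f', f' ≠ ⟨f, hf, z, hz, hzf⟩ → g.ex δ ⬝ᵥ g.ex (u f') = 0 := fun f' hne => by
            refine hz0 f' ?_
            have h3 : 3 * ℓ' + 4 < tdist f'.1 f := not_le.1 fun h5 => by
              have h6 := hsep f hf f'.1 (fun e => hne (Subtype.ext e)) h5
              rw [f'.2.1] at h6
              norm_num at h6
            have h4 := tdist_triangle f'.1 z f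
            rw [tdist_comm f'.1 z] at h4
            omega
          rw [sum_eq_single ⟨f, hf, z, hz, hzf⟩ (fun j _ hj => by rw [hz1 j hj, zero_smul])
            (fun h => (h (mem_univ _)).elim), sum_eq_single ⟨f, hf, z, hz, hzf⟩
            (fun j _ hj => by rw [hz1 j hj, abs_zero, zero_mul, zero_div])
            (fun h => (h (mem_univ _)).elim), ex_dot]
          obtain ⟨b1, b2⟩ := Sing.bound hℓ (by omega) hh' hr (by linarith) hκ0
            (hu ⟨f, hf, z, hz, hzf⟩) hz hzf s1 hc hd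
          have b3 : |δ ⬝ᵥ u ⟨f, hf, z, hz, hzf⟩| * opn (r.Ψ (g.ex (cnr f))) / Λ ≤ h / 2 * c := by
            rw [div_le_iff₀ (by linarith)]
            refine b2.trans ?_
            have : h' * b ^ 2 ≤ h / 2 * Λ := by nlinarith
            nlinarith
          rw [hκ1] at b1
          linarith
        · have hz1 : ∀ f', g.ex δ ⬝ᵥ g.ex (u f') = 0 := fun f' =>
            hz0 f' (not_le.1 fun h3 => hn ⟨f'.1, f'.2.1, h3⟩)
          simp only [hz1, zero_smul, sum_const_zero, sub_zero, abs_zero, zero_mul, zero_div,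
            add_zero]
          exact (In.shr hℓ (by omega) hr hz k0 (hX z hz fun f hf => not_le.1 fun h4 =>
            hn ⟨f, hf, h4⟩) s1 hc hd).trans (mul_le_mul_of_nonneg_right k1 hc)
      · simp only [src_dot_ex, zero_smul, sum_const_zero, sub_zero, abs_zero, zero_mul, zero_div,
          add_zero]
        exact In.src hr hy i
  rwa [Fintype.card_subtype] at key

/-- Change of scale near isolated fluxes and at points with a bounded change of scale. -/
theorem pn_flux : ∃ C : ℝ, 1 ≤ C ∧ ∀ g : Geo, IsW g.A → ∀ (ℓ ℓ' : ℕ) (h h' β c : ℝ), 8 ≤ ℓ →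
    1 ≤ c → C * c ^ 2 * ℓ ≤ ℓ' → 16 * ℓ' ≤ g.M → 0 < h → 0 < h' → h' ≤ 4 * h → 0 < β →
    (∀ f, flux g.A f = -1 → ∀ f', f' ≠ f → tdist f' f ≤ 4 * ℓ' → flux g.A f' = 1) →
    ∀ (U : Finset g.P) (F : g.E), Ev.val F ∈ loc (g.gens U) →
      (∀ z ∈ U, (∀ f, tdist f z ≤ ℓ' → |flux g.A f| = 1) ∨
        Shr g.A ℓ ℓ' z (c * √((ℓ : ℝ) / ℓ'))) →
      g.pn ℓ' h' β U F ≤ C * Real.exp (C * stein U / ℓ') * g.pn ℓ h β U F := by
  classical
  obtain ⟨C₁, hC₁, h1⟩ := pn_flux0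
  obtain ⟨C₃, hC₃, h3⟩ := W.RN.shr_flat
  have x0 := Real.exp_pos (2 * (4 * C₁))
  refine ⟨Real.exp (2 * (4 * C₁)) + 32 * C₁ + 16 * C₃, by linarith,
    fun g hA ℓ ℓ' h h' β c h8 c1 hl hM hh hh' h4 hβ hs U F hF hX => ?_⟩
  have l0 : (8 : ℝ) ≤ ℓ := by exact_mod_cast h8
  have c2 : (ℓ : ℝ) ≤ c ^ 2 * ℓ := le_mul_of_one_le_left (by linarith) (one_le_pow₀ c1)
  rw [mul_assoc] at hl
  have l3 : 32 * C₁ * ℓ ≤ ℓ' := le_trans (by nlinarith) hl
  have l4 : 16 * C₃ * ℓ ≤ ℓ' := le_trans (by nlinarith) hl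
  have l5 : 16 * (c ^ 2 * ℓ) ≤ ℓ' := le_trans (by nlinarith) hl
  have l1 : 32 * ℓ ≤ ℓ' := by
    have : (32 : ℝ) * ℓ ≤ ℓ' := le_trans (by nlinarith) l3
    exact_mod_cast this
  have l2 : (0 : ℝ) < ℓ' := by exact_mod_cast (by omega : 0 < ℓ')
  refine (h1 g hA ℓ ℓ' (by omega) (by omega) (by omega) (by omega)
    (fun f a f' b c => hs f a f' b (by omega)) h h' β (4 * C₁) (1 / 4) hh hh' hβ (by linarith)
    ?_ (by nlinarith) (by norm_num) (by linarith) U F hF fun z hz h5 => (hX z hz).elim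
      (fun h6 => h3 g.M g.A hA z ℓ ℓ' (by omega) (by omega) (by omega) (fun f hf =>
        ((abs_eq zero_le_one).1 (h6 f hf)).resolve_right fun h7 => by
          have := h5 f h7
          rw [tdist_comm] at this
          omega) _ (by linarith))
      fun h6 => W.R4a.shr_mono h6 (by positivity) ?_).trans
    (mul_le_mul_of_nonneg_right ?_ (RN.pn_nonneg F))
  · have e1 : h' ^ 2 ≤ 16 * h ^ 2 := by nlinarith
    have e2 := mul_le_mul_of_nonneg_left l3 (sq_nonneg h)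
    have e3 := mul_le_mul_of_nonneg_left e1 (by positivity : 0 ≤ C₁ * ℓ)
    have e4 : 0 ≤ C₁ * ℓ * h ^ 2 := by positivity
    nlinarith
  · refine (sq_le_sq₀ (by positivity) (by norm_num)).1 ?_
    rw [mul_pow, Real.sq_sqrt (by positivity), ← mul_div_assoc, div_le_iff₀ l2]
    linarith
  · have e1 := card_sep U (univ.filter fun f => flux g.A f = -1 ∧ ∃ z ∈ U, tdist z f ≤ ℓ')
      (r := ℓ') (by omega)
      (fun f hf f' hf' hne => not_le.1 fun h5 => by
        have h6 := hs f' (mem_filter.1 hf').2.1 f hne h5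
        rw [(mem_filter.1 hf).2.1] at h6
        norm_num at h6)
      fun f hf => (mem_filter.1 hf).2.2
    rw [mul_div_assoc] at e1
    refine (R4a.pow_le_exp (by positivity) (by convert e1)).trans ?_
    rw [mul_div_assoc]
    exact mul_le_mul (by linarith) (Real.exp_le_exp.2 (mul_le_mul_of_nonneg_right (by linarith)
      (by positivity))) (Real.exp_pos _).le (by positivity)

theorem mulL_loc {S : Type} [Fintype S] [DecidableEq S] (u : S → ℝ) {T : Set S} {F : Gr S}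
    (hF : F ∈ loc T) : ExteriorAlgebra.map (I1.mulL u) F ∈ loc T :=
  map_loc hF fun s hs s' hs' => by
    rw [I1.mulL_single, Pi.smul_apply, Pi.single_eq_of_ne (fun e : s' = s => hs' (e ▸ hs)),
      smul_zero]

theorem mulL_mulL {S : Type} [Fintype S] [DecidableEq S] {u v t : S → ℝ} {T : Set S} {F : Gr S}
    (hF : F ∈ loc T) (h : ∀ s ∈ T, u s * v s = t s) :
    ExteriorAlgebra.map (I1.mulL u) (ExteriorAlgebra.map (I1.mulL v) F) =
      ExteriorAlgebra.map (I1.mulL t) F := by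
  rw [RN.map_map]
  refine map_congr hF fun s hs => ?_
  rw [LinearMap.comp_apply, I1.mulL_single, map_smul, I1.mulL_single, I1.mulL_single, smul_smul,
    mul_comm, h s hs]

theorem mulL_ex (g : Geo) (v : g.K × Fin 2 → ℝ) (δ : Tor g.M × Fin 4 → ℝ) :
    I1.mulL (Sum.elim 1 v) (g.ex δ) = g.ex δ := by
  funext t
  rw [I1.mulL, Matrix.toLin'_apply, mulVec_diagonal]
  cases t <;> simp [Geo.ex]

/-- Change of the weights of the sources. -/
theorem nrm_wt (g : Geo) {ℓ : ℕ} {h β β' Λ : ℝ} (hℓ : 1 ≤ ℓ) (hh : 0 < h) (hβ : 0 < β)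
    (hβ' : 0 < β') (hΛ : 1 ≤ Λ) (X : Finset g.P) (v : g.K × Fin 2 → ℝ) (D : Finset (g.K × Fin 2))
    (h1 : ∀ p ∈ D, |v p| * √β' ≤ Λ * √β)
    (h2 : ∀ p, (g.src p.1).y ∈ X → p ∉ D → |v p| * √β' ≤ √β) {n : ℕ} (hn : D.card = n)
    {F : Gr g.S} (hF : F ∈ loc (g.gens X)) :
    nrm (g.cons ℓ h β' X) (g.gens X) (ExteriorAlgebra.map (I1.mulL (Sum.elim 1 v)) F) ≤
      (2 * Λ) ^ n * nrm (g.cons ℓ h β X) (g.gens X) F :=
  nrm_le (adm hℓ hh hβ' X) (mulL_loc _ hF) fun r hr => by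
    have hs : ∀ p : g.K × Fin 2, (g.src p.1).y ∈ X →
        opn ((A3.comap r (I1.mulL (Sum.elim 1 v))).Ψ (Pi.single (Sum.inr p) 1)) ≤ |v p| * √β' :=
      fun p hp => by
        rw [A3.opn_comap, I1.mulL_single, map_smul, A3.opn_smul]
        exact mul_le_mul_of_nonneg_left (In.src hr hp p.2) (abs_nonneg _)
    have key := opn_affine (adm hℓ hh hβ X) (ι := D)
      (fun i => Pi.single (Sum.inr i.1) 1) (fun i => Pi.single (Sum.inr i.1) 1)
      hF (A3.comap r (I1.mulL (Sum.elim 1 v))) hΛ fun p hp => by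
        rcases cons_cases hp with ⟨z, hz, δ, c, s1, hc, hd, rfl⟩ | ⟨k, i, hy, rfl⟩
        · simp only [ex_dot_src, zero_smul, sum_const_zero, sub_zero, abs_zero, zero_mul,
            zero_div, add_zero]
          rw [A3.opn_comap, mulL_ex]
          exact In.fld hr hz s1 hc hd
        · have e : ∀ j : D, j.1 ≠ (k, i) →
              (Pi.single (Sum.inr (k, i)) 1 : g.S → ℝ) ⬝ᵥ Pi.single (Sum.inr j.1) 1 = 0 :=
            fun j hj => by
              rw [single_one_dotProduct]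
              exact Pi.single_eq_of_ne (fun e => hj (Sum.inr_injective e).symm) _
          dsimp only
          by_cases hD : (k, i) ∈ D
          · have e1 : (Pi.single (Sum.inr (k, i)) 1 : g.S → ℝ) ⬝ᵥ Pi.single (Sum.inr (k, i)) 1
                = 1 := by rw [single_one_dotProduct, Pi.single_eq_same]
            rw [sum_eq_single ⟨(k, i), hD⟩
              (fun j _ hj => by rw [e j fun h => hj (Subtype.ext h), zero_smul])
              (fun h => (h (mem_univ _)).elim), sum_eq_single ⟨(k, i), hD⟩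
              (fun j _ hj => by
                rw [e j fun h => hj (Subtype.ext h), abs_zero, zero_mul, zero_div])
              (fun h => (h (mem_univ _)).elim), e1, one_smul, sub_self, opn_Psi_zero, zero_add,
              abs_one, one_mul, div_le_iff₀ (by linarith)]
            exact (hs (k, i) hy).trans ((h1 _ hD).trans_eq (mul_comm _ _))
          · have e1 : ∀ j : D, (Pi.single (Sum.inr (k, i)) 1 : g.S → ℝ) ⬝ᵥ
                Pi.single (Sum.inr j.1) 1 = 0 := fun j => e j fun h => hD (h ▸ j.2)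
            simp only [e1, zero_smul, sum_const_zero, sub_zero, abs_zero, zero_mul, zero_div,
              add_zero]
            exact (hs (k, i) hy).trans (h2 _ hy hD)
    rwa [A3.opn_comap_ev, Fintype.card_coe, hn] at key

theorem card_le {M : ℕ} [NeZero M] {ι : Type} [Fintype ι] (y : ι → Tor M) {r : ℕ} (hr : 1 ≤ r)
    (hS : ∀ k k', k ≠ k' → 4 * r < tdist (y k) (y k')) (U : Finset (Tor M)) :
    ((univ.filter fun k => y k ∈ U).card : ℝ) ≤ 1 + 2 * stein U / r := by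
  rw [← card_image_of_injective (f := y) _ fun k k' h => by
    by_contra hne
    have h1 := hS k k' hne
    rw [h, tdist_self] at h1
    omega]
  refine card_sep U _ hr (fun f hf f' hf' hne => ?_) fun f hf => ?_
  · obtain ⟨k, -, rfl⟩ := mem_image.1 hf
    obtain ⟨k', -, rfl⟩ := mem_image.1 hf'
    exact hS k k' fun h => hne (by rw [h])
  · obtain ⟨k, hk, rfl⟩ := mem_image.1 hf
    exact ⟨_, (mem_filter.1 hk).2, by rw [tdist_self]; exact Nat.zero_le _⟩

theorem card_add {P ι κ : Type} [DecidableEq P] [Fintype ι] [Fintype κ] (y : ι → P) (z : κ → P)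
    (U : Finset P) : (univ.filter fun k => Sum.elim y z k ∈ U).card =
      (univ.filter fun i => y i ∈ U).card + (univ.filter fun i => z i ∈ U).card := by
  simp only [card_filter, Fintype.sum_sum_type]
  rfl

variable {g : Geo} {k : ℕ} {s : Fin k → g.P × Fin 4}

/-- The weights of the generators in `scI`. -/
noncomputable def ws (s : Fin k → g.P × Fin 4) (a : Fin k → ℝ) (b : ℝ) : (g.xt s).K × Fin 2 → ℝ :=
  fun p => Sum.elim (fun _ => 1) (fun i => if p.2 = 0 then a i else b) p.1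

theorem val_scI (a : Fin k → ℝ) (F : (g.xt s).E) :
    Ev.val (g.scI s a F) = ExteriorAlgebra.map (I1.mulL (Sum.elim 1 (ws s a 1))) (Ev.val F) := by
  unfold Geo.scI Geo.dg
  rw [val_evMap]
  congr 3
  funext t
  rcases t with t | ⟨κ | i, d⟩
  · rfl
  · exact ite_self _
  · rfl

theorem scI_loc (a : Fin k → ℝ) {U : Finset g.P} {F : (g.xt s).E} (hF : F ∈ g.elI s U) :
    Ev.val (g.scI s a F) ∈ loc ((g.xt s).gens U) := by
  rw [val_scI]
  exact mulL_loc _ (A1.loc_mono Set.sdiff_subset hF)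

theorem map_scI {a a' c : Fin k → ℝ} (b : ℝ) (h : ∀ i, c i * a i = a' i) {U : Finset g.P}
    {F : (g.xt s).E} (hF : F ∈ g.elI s U) :
    Ev.val (g.scI s a' F) =
      ExteriorAlgebra.map (I1.mulL (Sum.elim 1 (ws s c b))) (Ev.val (g.scI s a F)) := by
  rw [val_scI, val_scI]
  refine (mulL_mulL hF fun t ht => ?_).symm
  rcases t with t | ⟨κ | i, d⟩
  · exact mul_one _
  · exact mul_one _
  · have hd : d = 0 := by
      by_contra hd
      obtain rfl : d = 1 := by omega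
      exact ht.2 ⟨i, rfl⟩
    subst hd
    exact h i

/-- Change of the weight of the sources. -/
theorem pI_beta {ℓ : ℕ} {h β β' Λ : ℝ} (hℓ : 1 ≤ ℓ) (hh : 0 < h) (hβ : 0 < β) (hβ' : 0 < β')
    (hΛ : 1 ≤ Λ) (hb : √β' ≤ Λ * √β) (w : Fin k → ℝ) {U : Finset g.P} {F : (g.xt s).E}
    (hF : F ∈ g.elI s U) :
    g.pI s ℓ h β' w U F ≤
      (2 * Λ) ^ ((univ.filter fun κ => (g.src κ).y ∈ U).card * 2) * g.pI s ℓ h β w U F := by
  have b0 := Real.sqrt_pos.2 hβ
  have b1 := Real.sqrt_pos.2 hβ'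
  have key := nrm_wt (g.xt s) hℓ hh hβ hβ' hΛ U (ws s (fun _ => √β / √β') 0)
    (((univ.filter fun κ => (g.src κ).y ∈ U).map Function.Embedding.inl) ×ˢ univ)
    (fun p hp => by
      obtain ⟨κ, -, e⟩ := mem_map.1 (mem_product.1 hp).1
      obtain ⟨p, d⟩ := p
      obtain rfl : Sum.inl κ = p := e
      rw [show ws s (fun _ => √β / √β') 0 (Sum.inl κ, d) = 1 from rfl, abs_one, one_mul]
      exact hb)
    (fun p hp hD => by
      rcases p with ⟨κ | i, d⟩
      · exact (hD (mem_product.2 ⟨mem_map.2 ⟨κ, mem_filter.2 ⟨mem_univ _, hp⟩, rfl⟩,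
          mem_univ _⟩)).elim
      · rw [show ws s (fun _ => √β / √β') 0 (Sum.inr i, d) = if d = 0 then √β / √β' else 0
          from rfl]
        split_ifs
        · rw [abs_of_pos (by positivity), div_mul_cancel₀ _ b1.ne']
        · rw [abs_zero, zero_mul]; exact b0.le)
    (n := (univ.filter fun κ => (g.src κ).y ∈ U).card * 2)
    ((card_product _ _).trans (by rw [card_map, card_univ, Fintype.card_fin]))
    (scI_loc (fun i => w i / √β) hF)
  exact (congrArg (nrm _ _) (map_scI 0 (fun i => by field_simp) hF)).trans_le key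

/-- Change of the weights of the insertions. -/
theorem pI_wt {ℓ : ℕ} {h β Λ : ℝ} (hℓ : 1 ≤ ℓ) (hh : 0 < h) (hβ : 0 < β) (hΛ : 1 ≤ Λ)
    {w w' : Fin k → ℝ} (hw : ∀ i, 0 < w i ∧ 0 < w' i ∧ w' i ≤ Λ * w i) {U : Finset g.P}
    {F : (g.xt s).E} (hF : F ∈ g.elI s U) :
    g.pI s ℓ h β w' U F ≤
      (2 * Λ) ^ (univ.filter fun i => (s i).1 ∈ U).card * g.pI s ℓ h β w U F := by
  have b0 := Real.sqrt_pos.2 hβ
  have key := nrm_wt (g.xt s) hℓ hh hβ hβ hΛ U (ws s (fun i => w' i / w i) 1)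
    (((univ.filter fun i => (s i).1 ∈ U).map Function.Embedding.inr) ×ˢ {0})
    (fun p hp => by
      obtain ⟨i, -, e⟩ := mem_map.1 (mem_product.1 hp).1
      have e2 := mem_singleton.1 (mem_product.1 hp).2
      obtain ⟨p, d⟩ := p
      obtain rfl : Sum.inr i = p := e
      obtain rfl : d = 0 := e2
      obtain ⟨w0, w1, w2⟩ := hw i
      rw [show ws s (fun i => w' i / w i) 1 (Sum.inr i, 0) = w' i / w i from rfl,
        abs_of_pos (by positivity)]
      exact mul_le_mul_of_nonneg_right ((div_le_iff₀ w0).2 w2) b0.le)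
    (fun p hp hD => by
      rcases p with ⟨κ | i, d⟩
      · rw [show ws s (fun i => w' i / w i) 1 (Sum.inl κ, d) = 1 from rfl, abs_one, one_mul]
      · have hd : d ≠ 0 := fun hd => hD (mem_product.2
          ⟨mem_map.2 ⟨i, mem_filter.2 ⟨mem_univ _, hp⟩, rfl⟩, mem_singleton.2 hd⟩)
        rw [show ws s (fun i => w' i / w i) 1 (Sum.inr i, d) = if d = 0 then w' i / w i else 1
          from rfl, if_neg hd, abs_one, one_mul])
    (n := (univ.filter fun i => (s i).1 ∈ U).card)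
    ((card_product _ _).trans (by rw [card_map, card_singleton, mul_one]))
    (scI_loc (fun i => w i / √β) hF)
  exact (congrArg (nrm _ _)
    (map_scI 1 (fun i => by have := (hw i).1; field_simp) hF)).trans_le key

theorem num {c' L x : ℝ} {m n : ℕ} (hc' : 1 ≤ c') (hL : 342 * c' ≤ L) (x0 : 0 ≤ x)
    (a4 : ((m + n : ℕ) : ℝ) ≤ 1 + 2 * (x / L)) :
    (2 * √L) ^ (m * 2) * (2 * (c' * √L)) ^ n ≤ 4 * c' * L * Real.exp (x / 2) := by
  have hL0 : 1 ≤ L := by linarith
  have q1 : 1 ≤ √L := Real.one_le_sqrt.2 hL0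
  have q2 : √L * √L = L := Real.mul_self_sqrt (by linarith)
  have e3 : x / L * L = x := div_mul_cancel₀ _ (by linarith)
  have e4 : 0 ≤ x / L := by positivity
  have b0 : (1 : ℝ) ≤ 4 * c' * L := by nlinarith
  have b1 : Real.log (4 * c' * L) ≤ L / 4 := by
    have d1 := Real.log_le_sub_one_of_pos (by positivity : (0 : ℝ) < 64 * c')
    have d2 := Real.log_le_sub_one_of_pos (by positivity : (0 : ℝ) < L / 16)
    rw [show (4 : ℝ) * c' * L = 64 * c' * (L / 16) by ring,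
      Real.log_mul (by positivity) (by positivity)]
    linarith
  have d1 : (2 * √L) ^ (m * 2) ≤ (4 * c' * L) ^ m := by
    rw [mul_comm m 2, pow_mul]
    exact pow_le_pow_left₀ (by positivity) (by nlinarith) m
  have d2 : (2 * (c' * √L)) ^ n ≤ (4 * c' * L) ^ n := by
    refine pow_le_pow_left₀ (by positivity) ?_ n
    have : √L ≤ L := by nlinarith
    nlinarith
  refine (mul_le_mul d1 d2 (by positivity) (by positivity)).trans ?_
  rw [← pow_add, ← Real.exp_log (by positivity : (0 : ℝ) < 4 * c' * L), ← Real.exp_nat_mul,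
    ← Real.exp_add, Real.exp_le_exp]
  have d4 := mul_le_mul_of_nonneg_right a4 (Real.log_nonneg b0)
  have d5 := mul_le_mul_of_nonneg_left b1 e4
  have d6 : x / L * (L / 4) = x / 4 := by linarith
  linarith

end T1

theorem T1I : ∃ ε₁ > (0 : ℝ), ∃ C : ℝ, 1 ≤ C ∧ ∀ c' : ℝ, 1 ≤ c' → ∃ L₀ : ℕ, ∀ L ≥ L₀, ∀ g : Geo,
    IsW g.A → ∀ (k : ℕ) (s : Fin k → g.P × Fin 4) (ℓ : ℕ) (c : ℝ), 8 ≤ ℓ → 16 * (L * ℓ) ≤ g.M →
    1 ≤ c → c ^ 2 ≤ ε₁ * L → g.SepW (8 * (L * ℓ)) →
    (∀ z, (∃ f, tdist f z ≤ L * ℓ ∧ |flux g.A f| ≠ 1) →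
      RN.Shr g.A ℓ (L * ℓ) z (c * √((ℓ : ℝ) / (L * ℓ : ℕ)))) →
    (∀ i i', i ≠ i' → 7 * (L * ℓ) < tdist (s i).1 (s i').1) →
    (∀ i κ, 7 * (L * ℓ) < tdist (g.src κ).y (s i).1) →
    ∀ (h h' β β' : ℝ) (w w' : Fin k → ℝ), 0 < h → 0 < h' → h' ≤ 4 * h → 0 < β → 0 < β' →
    β' ≤ L * β → (∀ i, 0 < w i ∧ 0 < w' i ∧ w' i ≤ c' * √L * w i) → ∀ U, ∀ F ∈ g.elI s U,
      g.pI s (L * ℓ) h' β' w' U F ≤
        C * c' * L * Real.exp ((stein U : ℝ) / ℓ) * g.pI s ℓ h β w U F := by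
  obtain ⟨C, hC, H⟩ := T1.pn_flux
  refine ⟨1 / C, by positivity, 4 * C, by linarith, fun c' hc' => ⟨⌈342 * c' + 2 * C⌉₊,
    fun L hL g hA k s ℓ c hl hM hc hcL hS hsh hss hsf h h' β β' w w' hh hh' h4 hβ hβ' hb hw U F
      hF => ?_⟩⟩
  have hL1 : 342 * c' + 2 * C ≤ L := (Nat.le_ceil _).trans (by exact_mod_cast hL)
  have hL0 : (1 : ℝ) ≤ L := by linarith
  have hLn : 1 ≤ L := by exact_mod_cast hL0
  have hl0 : (0 : ℝ) < ℓ := by positivity
  have hLl : ℓ ≤ L * ℓ := Nat.le_mul_of_pos_left ℓ hLn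
  have hcast : ((L * ℓ : ℕ) : ℝ) = L * ℓ := Nat.cast_mul _ _
  have q1 : 1 ≤ √(L : ℝ) := Real.one_le_sqrt.2 hL0
  have a1 : g.pI s (L * ℓ) h' β' w' U F ≤
      C * Real.exp (C * stein U / (L * ℓ : ℕ)) * g.pI s ℓ h β' w' U F :=
    H (g.xt s) hA ℓ (L * ℓ) h h' β' c hl hc (by
      rw [hcast]
      refine mul_le_mul_of_nonneg_right ?_ hl0.le
      rw [one_div, ← div_eq_inv_mul, le_div_iff₀ (by linarith)] at hcL
      linarith) hM hh hh' h4 hβ' (fun f a f' b c => hS.ff f a f' b (le_trans c (by omega))) U _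
      (T1.scI_loc _ hF) fun z _ => by
        by_cases h1 : ∀ f, tdist f z ≤ L * ℓ → |flux g.A f| = 1
        · exact Or.inl h1
        · push Not at h1
          exact Or.inr (hsh z h1)
  have a2 := T1.pI_beta (ℓ := ℓ) (by omega) hh hβ hβ' q1 (by
    rw [← Real.sqrt_mul (by linarith)]
    exact Real.sqrt_le_sqrt hb) w' hF
  have a3 := T1.pI_wt (ℓ := ℓ) (by omega) hh hβ (Λ := c' * √L) (by nlinarith) hw hF
  have a4 := T1.card_le (Sum.elim (fun κ => (g.src κ).y) fun i => (s i).1) (r := L * ℓ) (by omega) (fun κ κ' hne => by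
    rcases κ with κ | i <;> rcases κ' with κ' | i'
    · have := hS.ss κ κ' fun e => hne (by rw [e])
      exact lt_of_le_of_lt (by omega) this
    · exact lt_of_le_of_lt (by omega) (hsf i' κ)
    · have := hsf i κ'
      rw [tdist_comm] at this
      exact lt_of_le_of_lt (by omega) this
    · exact lt_of_le_of_lt (by omega) (hss i i' fun e => hne (by rw [e]))) U
  rw [T1.card_add] at a4
  set x : ℝ := (stein U : ℝ) / ℓ with hx
  have x0 : 0 ≤ x := by positivity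
  have e1 : 2 * (stein U : ℝ) / (L * ℓ : ℕ) = 2 * (x / L) := by rw [hcast, hx]; field_simp
  have e2 : C * (stein U : ℝ) / (L * ℓ : ℕ) = C * (x / L) := by rw [hcast, hx]; field_simp
  rw [e1] at a4
  have b2 := T1.num hc' (by linarith) x0 a4
  have b3 : Real.exp (C * stein U / (L * ℓ : ℕ)) ≤ Real.exp (x / 2) := by
    rw [e2, Real.exp_le_exp]
    have d5 := mul_le_mul_of_nonneg_left (by linarith : C ≤ L / 2) (by positivity : 0 ≤ x / L)
    have d6 : x / L * (L / 2) = x / 2 := by field_simp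
    linarith
  have p0 : 0 ≤ g.pI s ℓ h β w U F := RN.pn_nonneg _
  have b4 : g.pI s ℓ h β' w' U F ≤ 4 * c' * L * Real.exp (x / 2) * g.pI s ℓ h β w U F := by
    refine a2.trans ((mul_le_mul_of_nonneg_left a3 (by positivity)).trans ?_)
    rw [← mul_assoc]
    exact mul_le_mul_of_nonneg_right b2 p0
  refine a1.trans ((mul_le_mul (mul_le_mul_of_nonneg_left b3 (by linarith)) b4 (RN.pn_nonneg _)
    (by positivity)).trans (le_of_eq ?_))
  rw [show Real.exp x = Real.exp (x / 2) * Real.exp (x / 2) by rw [← Real.exp_add, add_halves]]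
  ring

end Vale.Agent.P144Z.IO
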