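import Vale.Agent.P144D.I.O.Alg2
import Vale.Agent.P144D.I.O.Loc
import Vale.Agent.P144D.I.O.T1
import Vale.Agent.P144D.I.O.ConI
import Vale.Agent.P144D.R8.Gen

/-!
One step of the flow of the insertions.
-/

namespace Vale.Agent.P144Z.IO

open Finset Matrix Geo Mn Filter

namespace O7

variable {g : Geo} {k : ℕ} {s : Fin k → g.P × Fin 4} {ℓ : ℕ} {h β : ℝ} {w : Fin k → ℝ}

/-- Admissible parameters of the norm. -/
structure AdI (ℓ : ℕ) (h β : ℝ) (w : Fin k → ℝ) : Prop where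
  l : 1 ≤ ℓ
  h : 0 < h
  b : 0 < β
  w : ∀ i, 0 < w i

theorem AdI.add (a : AdI ℓ h β w) (X : Finset g.P) (F G : (g.xt s).E) :
    g.pI s ℓ h β w X (F + G) ≤ g.pI s ℓ h β w X F + g.pI s ℓ h β w X G := by
  obtain ⟨𝓛, -, h2⟩ := exists_locI s a.l a.h a.b a.w
  rw [← h2]
  exact 𝓛.p_add X F G

theorem AdI.smul (a : AdI ℓ h β w) (X : Finset g.P) (c : ℝ) (F : (g.xt s).E) :
    g.pI s ℓ h β w X (c • F) = |c| * g.pI s ℓ h β w X F := by
  obtain ⟨𝓛, -, h2⟩ := exists_locI s a.l a.h a.b a.w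
  rw [← h2]
  exact 𝓛.p_smul X c F

theorem AdI.zero (a : AdI ℓ h β w) (X : Finset g.P) : g.pI s ℓ h β w X 0 = 0 := by
  rw [← zero_smul ℝ (0 : (g.xt s).E), a.smul, abs_zero, zero_mul]

theorem AdI.sub (a : AdI ℓ h β w) (X : Finset g.P) (F G : (g.xt s).E) :
    g.pI s ℓ h β w X (F - G) ≤ g.pI s ℓ h β w X F + g.pI s ℓ h β w X G := by
  have h1 := a.add X F ((-1 : ℝ) • G)
  rwa [a.smul, abs_neg, abs_one, one_mul, neg_one_smul, ← sub_eq_add_neg] at h1

theorem AdI.sum (a : AdI ℓ h β w) (X : Finset g.P) {ι : Type*} (t : Finset ι)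
    (F : ι → (g.xt s).E) :
    g.pI s ℓ h β w X (∑ i ∈ t, F i) ≤ ∑ i ∈ t, g.pI s ℓ h β w X (F i) :=
  le_sum_of_subadditive (g.pI s ℓ h β w X) (a.zero X).le (a.add X) t F

theorem AdI.half (a : AdI ℓ h β w) : AdI ℓ (h / 2) β w := ⟨a.l, half_pos a.h, a.b, a.w⟩

/-- The size of the carried insertions. -/
theorem anch_car (a : AdI ℓ h β w) {τ δ : ℝ} (hδ : 0 ≤ δ) {z : Fin k → ℝ} (hz : ∀ i, |z i| ≤ 2)
    (he : ∀ i, g.pI s ℓ h β w {(s i).1} (g.eI s i) ≤ δ)
    (hs : ∀ i i', i ≠ i' → 2 * ℓ < tdist (s i).1 (s i').1) :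
    Anch ℓ τ (fun X => g.pI s ℓ h β w X (g.carI s z X)) (2 * δ) := by
  intro x
  have h1 : ∀ X : Finset g.P, g.pI s ℓ h β w X (g.carI s z X) *
      Real.exp (τ * (stein X : ℝ) / ℓ) ≤ ∑ i ∈ univ.filter (fun i => {(s i).1} = X), 2 * δ := by
    intro X
    refine (mul_le_mul_of_nonneg_right (a.sum X _ _) (Real.exp_pos _).le).trans ?_
    rw [sum_mul]
    refine sum_le_sum fun i hi => ?_
    rw [← (mem_filter.1 hi).2, stein_singleton, a.smul, Nat.cast_zero, mul_zero, zero_div,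
      Real.exp_zero, mul_one]
    exact mul_le_mul (hz i) (he i) (pI_nonneg _) zero_le_two
  refine (sum_le_sum fun X _ => h1 X).trans ((R8.sum_fiber_le _
    (univ.filter fun i => tdist (s i).1 x ≤ ℓ) _ _ (fun _ => by positivity) fun i hi => ?_).trans ?_)
  · obtain ⟨y, hy, h2⟩ := (mem_filter.1 hi).2
    rw [mem_singleton.1 hy] at h2
    exact mem_filter.2 ⟨mem_univ _, h2⟩
  · have h2 : (univ.filter fun i => tdist (s i).1 x ≤ ℓ).card ≤ 1 := by
      refine card_le_one.2 fun i hi i' hi' => by_contra fun hne => ?_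
      have b1 := hs i i' hne
      have b2 := tdist_triangle (s i).1 x (s i').1
      have b3 := (mem_filter.1 hi).2
      have b4 := (mem_filter.1 hi').2
      rw [tdist_comm x] at b2
      omega
    rw [sum_const, nsmul_eq_mul]
    exact mul_le_of_le_one_left (by positivity) (by exact_mod_cast h2)

variable {Cm : Matrix (Tor g.M × Fin 4) (Tor g.M × Fin 4) ℝ}

theorem evG_car (hC : Cmᵀ = -Cm) (z : Fin k → ℝ) (U : Finset g.P) :
    evG ((g.xt s).exM Cm) (g.carI s z U) = g.carI s z U := by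
  rw [carI, map_sum]
  exact sum_congr rfl fun i _ => by rw [map_smul, evG_eI hC]

/-- Isolated sources and insertions are integrated exactly. -/
theorem Cl_src (hC : Cmᵀ = -Cm) {r : ℕ}
    (hm : ∀ (ι : Type) [Fintype ι] (p : ι → Finset g.P) (f : ι → (g.xt s).E),
      (∀ a, f a ∈ g.elI s (p a)) → (∀ a b, a ≠ b → ∀ x ∈ p a, ∀ y ∈ p b, r < tdist x y) →
      (∀ a, f a * f a = 0) →
      (∀ a, evG ((g.xt s).exM Cm) (f a) * evG ((g.xt s).exM Cm) (f a) = 0) → ∀ U,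
      Cl (evG ((g.xt s).exM Cm)) (fun X => ∑ a ∈ univ.filter (fun a => p a = X), f a) U =
        ∑ a ∈ univ.filter (fun a => p a = U), evG ((g.xt s).exM Cm) (f a))
    (hss : ∀ κ κ', κ ≠ κ' → r + 2 < tdist (g.src κ).y (g.src κ').y)
    (hsm : ∀ i κ, r + 1 < tdist (g.src κ).y (s i).1)
    (hmm : ∀ i i', i ≠ i' → r < tdist (s i).1 (s i').1) (y : g.K → ℝ) (z : Fin k → ℝ)
    (U : Finset g.P) :
    Cl (evG ((g.xt s).exM Cm)) (fun X => g.emb s ((g.srcSt y).H X) + g.carI s z X) U =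
      evG ((g.xt s).exM Cm) (g.emb s ((g.srcSt y).H U) + g.carI s z U) := by
  let p : g.K ⊕ Fin k → Finset g.P := Sum.elim (fun κ => star (g.src κ).y) fun i => {(s i).1}
  let f : g.K ⊕ Fin k → (g.xt s).E :=
    Sum.elim (fun κ => g.emb s (y κ • g.bE κ)) fun i => z i • g.eI s i
  have e : ∀ X, g.emb s ((g.srcSt y).H X) + g.carI s z X =
      ∑ a ∈ univ.filter (fun a => p a = X), f a := by
    intro X
    have e1 : (g.srcSt y).H X = ∑ κ ∈ univ.filter (fun κ => star (g.src κ).y = X), y κ • g.bE κ := by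
      simp [Geo.St.H, Geo.St.car, Geo.srcSt]
    rw [e1, map_sum, carI, sum_filter, sum_filter, sum_filter, Fintype.sum_sum_type]
    rfl
  have hb : ∀ κ, g.bv κ * g.bv κ = 0 := fun κ => R2.pp_sq _ _
  rw [funext e, e, map_sum]
  refine hm _ p f ?_ ?_ ?_ ?_ U
  · rintro (κ | i)
    · exact emb_elI (Subalgebra.smul_mem _ (R2.bE_mem κ) _)
    · exact Subalgebra.smul_mem _ (eI_mem (mem_singleton_self _)) _
  · rintro (κ | i) (κ' | i') hne x hx x' hx'
    · have a1 := G.tdist_star (show x ∈ star (g.src κ).y from hx)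
      have a2 := G.tdist_star (show x' ∈ star (g.src κ').y from hx')
      have a3 := tdist_triangle (g.src κ).y x (g.src κ').y
      have a4 := tdist_triangle x x' (g.src κ').y
      have a5 := hss κ κ' fun e => hne (congrArg _ e)
      rw [tdist_comm] at a2
      omega
    · have a1 := G.tdist_star (show x ∈ star (g.src κ).y from hx)
      have a3 := tdist_triangle (g.src κ).y x (s i').1
      have a5 := hsm i' κ
      rw [show x' = (s i').1 from mem_singleton.1 hx']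
      omega
    · have a1 := G.tdist_star (show x' ∈ star (g.src κ').y from hx')
      have a3 := tdist_triangle (g.src κ').y x' (s i).1
      have a5 := hsm i κ'
      rw [show x = (s i).1 from mem_singleton.1 hx, tdist_comm]
      omega
    · rw [show x = (s i).1 from mem_singleton.1 hx, show x' = (s i').1 from mem_singleton.1 hx']
      exact hmm i i' fun e => hne (congrArg _ e)
  · rintro (κ | i)
    · show g.emb s _ * g.emb s _ = 0
      rw [← emb_mul, smul_mul_smul_comm, Geo.bE, mul_mul_mul_comm, hb, zero_mul, smul_zero, map_zero]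
    · show _ • g.eI s i * _ • g.eI s i = 0
      rw [smul_mul_smul_comm, eI_sq, smul_zero]
  · rintro (κ | i)
    · obtain ⟨F, hF⟩ := R2.evG_bE hC κ
      show evG _ (g.emb s _) * evG _ (g.emb s _) = 0
      rw [evG_emb hC, ← emb_mul, map_smul, hF, smul_mul_smul_comm, mul_mul_mul_comm, hb, zero_mul,
        smul_zero, map_zero]
    · show evG _ (_ • g.eI s i) * evG _ (_ • g.eI s i) = 0
      rw [map_smul, evG_eI hC, smul_mul_smul_comm, eI_sq, smul_zero]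

theorem rem_eq (hC : Cmᵀ = -Cm) (H : Finset g.P → g.E) {H₀ : Finset g.P → g.E} {t : g.StI s}
    {U : Finset g.P}
    (e1 : Cl (evG ((g.xt s).exM Cm)) (fun X => g.emb s (H₀ X) + g.carI s t.z X) U =
      evG ((g.xt s).exM Cm) (g.emb s (H₀ U) + g.carI s t.z U))
    (e2 : Cl (evG (g.exM Cm)) H₀ U = evG (g.exM Cm) (H₀ U)) :
    Cl (evG ((g.xt s).exM Cm)) (g.HI s H t) U - g.emb s (Cl (evG (g.exM Cm)) H U) - g.carI s t.z U =
      evG ((g.xt s).exM Cm) (t.K U) +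
        (((Cl (evG ((g.xt s).exM Cm)) (g.HI s H t) U - evG ((g.xt s).exM Cm) (g.HI s H t U)) -
          (Cl (evG ((g.xt s).exM Cm)) (fun X => g.emb s (H₀ X) + g.carI s t.z X) U -
            evG ((g.xt s).exM Cm) (g.emb s (H₀ U) + g.carI s t.z U))) -
        ((Cl (evG ((g.xt s).exM Cm)) (fun X => g.emb s (H X)) U -
          evG ((g.xt s).exM Cm) (g.emb s (H U))) -
          (Cl (evG ((g.xt s).exM Cm)) (fun X => g.emb s (H₀ X)) U -
            evG ((g.xt s).exM Cm) (g.emb s (H₀ U))))) := by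
  rw [e1, Cl_emb hC, Cl_emb hC, e2, HI, StI.Y, map_add, map_add, evG_car hC, evG_emb hC (H₀ U)]
  abel

/-- The anchored sum at the new scale. -/
theorem sum_core {L : ℕ} {P f n : Finset g.P → ℝ} {A B a ν : ℝ} (hL : 2 ≤ L) (hl : 1 ≤ ℓ)
    (hA : 0 ≤ A) (hB : 0 ≤ B) (hf0 : ∀ U, 0 ≤ f U) (hn0 : ∀ U, 0 ≤ n U) (hf : Anch ℓ L f a)
    (hn : Anch (L * ℓ) (2 * L) n ν)
    (hs : ∀ i i', i ≠ i' → 2 * (L * ℓ + ℓ) < tdist (s i).1 (s i').1)
    (h0 : ∀ U, stein U ≤ ℓ → (∀ i, (s i).1 ∉ U) → P U ≤ 0)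
    (h1 : ∀ U, stein U ≤ ℓ → ∀ i, (s i).1 ∈ U → P U ≤ A * (f U + n U))
    (h2 : ∀ U, ¬ stein U ≤ ℓ → P U ≤ B * Real.exp ((stein U : ℝ) / ℓ) * (f U + n U)) :
    Anch (L * ℓ) L P
      (Real.exp 1 * A * (a + ν) + B * (Real.exp (2 - L) * (50 * L ^ 2 * a) + ν)) := by
  classical
  intro z
  have hl0 : (0 : ℝ) < ℓ := by exact_mod_cast hl
  have hL0 : (2 : ℝ) ≤ L := by exact_mod_cast hL
  have e1 : ∀ X : Finset g.P, (L : ℝ) * (stein X : ℝ) / ((L * ℓ : ℕ) : ℝ) = (stein X : ℝ) / ℓ :=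
    fun X => by rw [Nat.cast_mul, mul_div_mul_left _ _ (by positivity)]
  have e2 : ∀ X : Finset g.P,
      2 * (L : ℝ) * (stein X : ℝ) / ((L * ℓ : ℕ) : ℝ) = (stein X : ℝ) / ℓ + (stein X : ℝ) / ℓ :=
    fun X => by rw [mul_assoc, mul_div_assoc, e1, two_mul]
  have a1 : ∑ U ∈ R8.near (L * ℓ) z, f U * Real.exp (L * (stein U : ℝ) / ℓ) ≤ 50 * L ^ 2 * a := by
    refine (R8.sum_near hl (Nat.le_mul_of_pos_left ℓ (by omega)) hf0 hf z).trans (le_of_eq ?_)
    rw [Nat.cast_mul, mul_div_cancel_right₀ _ hl0.ne']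
  have a2 : ∑ U ∈ (R8.near (L * ℓ) z).filter (fun U => stein U ≤ ℓ ∧ ∃ i, (s i).1 ∈ U),
      (f U + n U) ≤ a + ν := by
    rcases ((R8.near (L * ℓ) z).filter fun U => stein U ≤ ℓ ∧ ∃ i, (s i).1 ∈ U).eq_empty_or_nonempty
      with he | ⟨U₀, hU₀⟩
    · rw [he, sum_empty]
      exact add_nonneg (G.anch_nonneg hf0 hf) (G.anch_nonneg hn0 hn)
    · have b1 : ∀ U ∈ (R8.near (L * ℓ) z).filter (fun U => stein U ≤ ℓ ∧ ∃ i, (s i).1 ∈ U),
          ∀ i, (s i).1 ∈ U → tdist (s i).1 z ≤ L * ℓ + ℓ := by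
        intro U hU i hi
        obtain ⟨x, hx, hxz⟩ := R8.mem_near.1 (mem_filter.1 hU).1
        have d1 := tdist_le_stein hi hx
        have d2 := tdist_triangle (s i).1 x z
        have d3 := (mem_filter.1 hU).2.1
        omega
      obtain ⟨i₀, hi₀⟩ := (mem_filter.1 hU₀).2.2
      have b2 : ∀ U ∈ (R8.near (L * ℓ) z).filter (fun U => stein U ≤ ℓ ∧ ∃ i, (s i).1 ∈ U),
          (s i₀).1 ∈ U := by
        intro U hU
        obtain ⟨i, hi⟩ := (mem_filter.1 hU).2.2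
        by_cases hne : i = i₀
        · exact hne ▸ hi
        · have d1 := hs i i₀ hne
          have d2 := b1 U hU i hi
          have d3 := b1 U₀ hU₀ i₀ hi₀
          have d4 := tdist_triangle (s i).1 z (s i₀).1
          rw [tdist_comm z] at d4
          omega
      rw [sum_add_distrib]
      exact add_le_add (R8.sum_mem_le (by positivity) hf0 hf _ _ b2)
        (R8.sum_mem_le (by positivity) hn0 hn _ _ b2)
  refine le_trans ?_ (add_le_add (mul_le_mul_of_nonneg_left a2 (by positivity))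
    (mul_le_mul_of_nonneg_left (add_le_add (mul_le_mul_of_nonneg_left a1 (Real.exp_pos _).le)
      (hn z)) hB))
  show ∑ U ∈ R8.near (L * ℓ) z, _ ≤ _ + B * (_ + ∑ U ∈ R8.near (L * ℓ) z, _)
  rw [sum_filter, mul_sum, mul_sum, ← sum_add_distrib, mul_sum, ← sum_add_distrib]
  refine sum_le_sum fun U _ => ?_
  rw [e1, e2]
  have b1 := hf0 U
  have b2 := hn0 U
  by_cases hU : stein U ≤ ℓ
  · refine le_add_of_le_of_nonneg ?_ (by positivity)
    by_cases hi : ∃ i, (s i).1 ∈ U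
    · rw [if_pos ⟨hU, hi⟩, mul_comm, mul_assoc]
      obtain ⟨i, hi⟩ := hi
      refine (mul_le_mul_of_nonneg_left (h1 U hU i hi) (Real.exp_pos _).le).trans
        (mul_le_mul_of_nonneg_right (Real.exp_le_exp.2 ?_) (by positivity))
      rw [div_le_one hl0]
      exact_mod_cast hU
    · rw [if_neg fun h => hi h.2, mul_zero]
      exact mul_nonpos_of_nonpos_of_nonneg (h0 U hU (not_exists.1 hi)) (Real.exp_pos _).le
  · rw [if_neg fun h => hU h.1, mul_zero, zero_add]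
    refine (mul_le_mul_of_nonneg_right (h2 U hU) (Real.exp_pos _).le).trans ?_
    have b3 : (1 : ℝ) ≤ (stein U : ℝ) / ℓ := by
      rw [le_div_iff₀ hl0, one_mul]
      exact_mod_cast (not_le.1 hU).le
    have b4 : Real.exp ((stein U : ℝ) / ℓ) * Real.exp ((stein U : ℝ) / ℓ) ≤
        Real.exp (2 - L) * Real.exp (L * (stein U : ℝ) / ℓ) := by
      rw [← Real.exp_add, ← Real.exp_add, Real.exp_le_exp, mul_div_assoc]
      nlinarith
    have b5 := mul_le_mul_of_nonneg_left b4 (mul_nonneg hB b1)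
    rw [Real.exp_add]
    linarith

theorem anch_le {τ ε ε' : ℝ} {f : Finset g.P → ℝ} (h1 : Anch ℓ τ f ε) (h2 : ε ≤ ε') :
    Anch ℓ τ f ε' := fun z => (h1 z).trans h2

/-- The integrated insertions are the linear term up to a small remainder. -/
theorem anch_NL : ∃ L₀ : ℕ, ∀ L ≥ L₀, ∃ C : ℝ, 1 ≤ C ∧ ∀ g : Geo, IsW g.A → ∀ (k : ℕ)
    (s : Fin k → g.P × Fin 4) (ℓ : ℕ) (h δ : ℝ) (w : Fin k → ℝ), 8 ≤ ℓ → 16 * (L * ℓ) ≤ g.M →
    g.SepW (8 * (L * ℓ)) → (∀ i i', i ≠ i' → 7 * (L * ℓ) < tdist (s i).1 (s i').1) →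
    (∀ i κ, 7 * (L * ℓ) < tdist (g.src κ).y (s i).1) → (L : ℝ) ^ 2 ≤ h → 0 < δ → C * δ ≤ 1 →
    (∀ i, 0 < w i) → (∀ i, g.pI s ℓ h (δ * ℓ / h ^ 2) w {(s i).1} (g.eI s i) ≤ δ) →
    ∀ r : g.St, g.Wf r → (∀ κ, |r.z κ| ≤ 2) → ∀ t : g.StI s, g.WfI s t → (∀ i, |t.z i| ≤ 2) →
    ∀ D b a : ℝ, D ≤ δ → b ≤ δ → a ≤ δ →
    Anch ℓ L (g.df ℓ h (δ * ℓ / h ^ 2) r (g.srcSt r.z)) D → Anch ℓ L (g.bf ℓ h r) b →
    Anch ℓ L (fun X => g.pI s ℓ h (δ * ℓ / h ^ 2) w X (t.K X)) a →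
      g.ExpI s ℓ (L * ℓ) r.H t ∧ ∃ n : Finset g.P → ℝ, (∀ U, 0 ≤ n U) ∧
        Anch (L * ℓ) (2 * L) n (C * δ * (a + D + b)) ∧ ∀ U, g.pI s ℓ (h / 2) (δ * ℓ / h ^ 2) w U
          (g.remI s ℓ (L * ℓ) r.H t U) ≤ g.pI s ℓ h (δ * ℓ / h ^ 2) w U (t.K U) + n U := by
  obtain ⟨L₁, hP⟩ := clP_I
  obtain ⟨Cd, hCd, hd⟩ := W.Geo.R8.df_srcSt
  refine ⟨max L₁ 2, fun L hL => ?_⟩
  obtain ⟨Cc, hCc, hP⟩ := hP L (le_of_max_le_left hL)
  have hL2 : 2 ≤ L := le_of_max_le_right hL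
  have hL2' : (2 : ℝ) ≤ L := by exact_mod_cast hL2
  have hB0 : 0 ≤ Cd * Real.exp L := by positivity
  refine ⟨2 * (Cc * (5 + 2 * (Cd * Real.exp L))), by nlinarith, fun g hA k s ℓ h δ w hl hM hS hmm hsm
    hh hδ hCδ hw he r hr hrz t ht htz D b a hD hb ha aD ab aK => ?_⟩
  have hh0 : 0 < h := lt_of_lt_of_le (by positivity) hh
  have hLl : 2 * ℓ ≤ L * ℓ := Nat.mul_le_mul_right ℓ hL2
  have a0 : W.Geo.R8.Ad g ℓ h (δ * ℓ / h ^ 2) := ⟨hA, by omega, hh0, by positivity⟩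
  have aI : AdI ℓ h (δ * ℓ / h ^ 2) w := ⟨a0.l, hh0, a0.b, hw⟩
  have w0 := wf_srcSt (g := g) r.z
  have ae := hd L g hA ℓ hl (by omega) (W.Geo.R8.sepW_mono hS (by omega)) h δ hh0 hδ _ w0.1 r.z 0
    2 0 zero_le_two (fun κ => by rw [Pi.zero_apply, sub_zero]; exact hrz κ) (fun z => by
      simp only [Geo.df, sub_self, R8.dp_zero, a0.zero, add_zero, zero_mul, sum_const_zero, le_refl])
  obtain ⟨a1, a2, a3⟩ := W.Geo.R8.anch_H a0 hr w0.1 w0.2 aD ab ae
  have ac := anch_car aI (τ := L) hδ.le htz he fun i i' hne => by have := hmm i i' hne; omega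
  have hC := W.Geo.R8.cov_anti hA ℓ (L * ℓ)
  obtain ⟨c1, c2, c3⟩ := hP g hA k s ℓ h _ w hl hh a0.b hw
  have m1 : ∀ X, r.H X ∈ g.el X := fun X => sub_le_el (hr.H_mem X)
  have m0 : ∀ X, (g.srcSt r.z).H X ∈ g.el X := fun X => sub_le_el (w0.1.H_mem X)
  have b1 : Anch ℓ L (fun X => g.pI s ℓ h (δ * ℓ / h ^ 2) w X (g.emb s (r.H X))) _ :=
    R8.anch_mono a1 (fun X => (pI_emb a0.l hh0 a0.b (m1 X)).le) le_rfl
  have b2 : Anch ℓ L (fun X => g.pI s ℓ h (δ * ℓ / h ^ 2) w X (g.emb s ((g.srcSt r.z).H X))) _ :=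
    R8.anch_mono a2 (fun X => (pI_emb a0.l hh0 a0.b (m0 X)).le) le_rfl
  have b3 : Anch ℓ L (fun X => g.pI s ℓ h (δ * ℓ / h ^ 2) w X
      (g.emb s (r.H X) - g.emb s ((g.srcSt r.z).H X))) _ :=
    R8.anch_mono a3 (fun X => by
      rw [← map_sub]; exact (pI_emb a0.l hh0 a0.b (sub_mem (m1 X) (m0 X))).le) le_rfl
  have ha0 := G.anch_nonneg (fun X => pI_nonneg _) aK
  have hε : Cc * ((5 + 2 * (Cd * Real.exp L)) * δ) ≤ 1 := by
    have : 0 ≤ Cc * ((5 + 2 * (Cd * Real.exp L)) * δ) := by positivity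
    linarith
  obtain ⟨d1, d2⟩ := c3 (g.HI s r.H t) (fun X => g.emb s ((g.srcSt r.z).H X) + g.carI s t.z X)
    (by rw [HI, StI.Y, hr.H_empty, map_zero, ht.K0, carI_empty, add_zero, add_zero])
    (by simp only [w0.1.H_empty, map_zero, carI_empty, add_zero]) (HI_mem m1 ht)
    (fun X => add_mem (emb_elI (m0 X)) (carI_mem _ X)) _ (a + D + b) hε
    (R8.anch_mono (R8.anch_add b1 (R8.anch_add aK ac))
      (fun X => (aI.add X _ _).trans (add_le_add le_rfl (aI.add X _ _))) (by linarith))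
    (R8.anch_mono (R8.anch_add b2 ac) (fun X => aI.add X _ _) (by linarith))
    (R8.anch_mono (R8.anch_add b3 aK) (fun X => by
      refine le_trans (le_of_eq ?_) (aI.add X _ _)
      rw [HI, StI.Y]
      congr 1
      abel) (by linarith))
  obtain ⟨-, d3⟩ := c3 (fun X => g.emb s (r.H X)) (fun X => g.emb s ((g.srcSt r.z).H X))
    (by simp only [hr.H_empty, map_zero]) (by simp only [w0.1.H_empty, map_zero])
    (fun X => emb_elI (m1 X)) (fun X => emb_elI (m0 X)) _ (a + D + b) hε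
    (anch_le b1 (by linarith)) (anch_le b2 (by linarith)) (anch_le b3 (by linarith))
  refine ⟨d1, _, ?_, anch_le (R8.anch_add d2 d3) (le_of_eq (by ring)), fun U => ?_⟩
  · exact fun U => add_nonneg (pI_nonneg _) (pI_nonneg _)
  · refine le_trans (le_of_eq ?_) ((aI.half.add U _ _).trans
      (add_le_add (c1 U _ (ht.mem U)) (aI.half.sub U _ _)))
    have e1 := Cl_src hC c2 (fun κ κ' hne => by have := hS.ss κ κ' hne; omega)
      (fun i κ => by have := hsm i κ; omega) (fun i i' hne => by have := hmm i i' hne; omega)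
      r.z t.z U
    have e2 := Cl_srcSt (ℓ' := L * ℓ) hC (fun s s' hs => covP_range g.A (by omega) (by omega) hs)
      (fun κ κ' hne => by have := hS.ss κ κ' hne; omega) r.z U
    exact congrArg _ (rem_eq hC r.H e1 e2)

end O7

open O7 in
theorem step_I : ∃ ε₁ > (0 : ℝ), ∀ c' : ℝ, 1 ≤ c' → ∃ η₁ > (0 : ℝ), ∃ L₀ : ℕ, ∀ L ≥ L₀,
    ∃ C : ℝ, 1 ≤ C ∧ ∀ g : Geo, IsW g.A → 16 * sc L g.J ≤ g.M → g.SepW (8 * sc L g.J) →
    ∀ c : ℝ, 1 ≤ c → c ^ 2 ≤ ε₁ * L → g.SchA L c → ∀ (k : ℕ) (s : Fin k → g.P × Fin 4)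
    (u : Fin k → ℕ → g.P × Fin 4 → ℝ) (ν : Fin k → ℕ → ℝ), g.MkPre s u ν L c' η₁ →
    ∀ j < g.J, g.StepI s u ν L j C (if j = 0 then C else 1 / 4) := by
  obtain ⟨ε₁, hε₁, C₃, hC₃, hT⟩ := T1I
  obtain ⟨C₆, hC₆, hK⟩ := con_I
  obtain ⟨L₁, hN⟩ := anch_NL
  refine ⟨ε₁, hε₁, fun c' hc' => ?_⟩
  obtain ⟨L₂, hT⟩ := hT c' hc'
  obtain ⟨L₃, hL₃⟩ := eventually_atTop.1 ((R8.ev_exp (100 * (C₃ * c'))).and
    (tendsto_natCast_atTop_atTop.eventually_ge_atTop (C₆ * c' ^ 4)))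
  obtain ⟨A, hA⟩ : ∃ A, A = Real.exp 1 * (C₆ * c' ^ 2) := ⟨_, rfl⟩
  have hA1 : 1 ≤ A := hA ▸ one_le_mul_of_one_le_of_one_le (Real.one_le_exp zero_le_one)
    (one_le_mul_of_one_le_of_one_le hC₆ (one_le_pow₀ hc'))
  have hAc : 1 ≤ A * c' := one_le_mul_of_one_le_of_one_le hA1 hc'
  refine ⟨1 / (16 * A), by positivity, max (max L₁ L₂) (max L₃ 2), fun L hL => ?_⟩
  obtain ⟨Cn, hCn, hN⟩ := hN L (le_of_max_le_left (le_of_max_le_left hL))
  have hT := hT L (le_of_max_le_right (le_of_max_le_left hL))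
  obtain ⟨hE1, hE2⟩ := hL₃ L (le_of_max_le_left (le_of_max_le_right hL))
  have hL2 : 2 ≤ L := le_of_max_le_right (le_of_max_le_right hL)
  have hL2' : (2 : ℝ) ≤ L := by exact_mod_cast hL2
  have hB0 : 0 ≤ C₃ * c' * L := by positivity
  have h60 : 0 ≤ C₆ * c' := by positivity
  obtain ⟨X, hX⟩ : ∃ X, X = (A * c' + C₃ * c' * L) * Cn := ⟨_, rfl⟩
  have hX1 : Cn ≤ X := hX ▸ le_mul_of_one_le_left (by linarith) (by linarith)
  obtain ⟨C, hC⟩ : ∃ C, C = 8 * X + 2 * (C₆ * c') + A * c' + 1 := ⟨_, rfl⟩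
  refine ⟨C, by linarith, fun g hW hM hS c hc hcε hSch k s u ν hP j hj => ?_⟩
  obtain ⟨η, hη, hηc, hMk, hρ⟩ : ∃ η, 0 < η ∧ η ≤ c' ∧ (∀ i, MkAt g.A (sc L j) (sc L (j + 1)) (s i)
      (u i j) (ν i j) (ν i (j + 1)) c' η) ∧ A * η + 3 / 16 ≤ if j = 0 then C else 1 / 4 := by
    by_cases h0 : j = 0
    · subst h0
      exact ⟨c', by linarith, le_rfl, fun i => (hP.ch i).zero, by rw [if_pos rfl]; linarith⟩
    · refine ⟨_, by positivity, ?_, fun i => (hP.ch i).pos j (by omega) hj, ?_⟩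
      · exact (div_le_one_of_le₀ (by linarith) (by linarith)).trans hc'
      · rw [if_neg h0]
        exact le_of_eq (by field_simp; norm_num)
  generalize (if j = 0 then C else 1 / 4) = ρ at hρ ⊢
  intro h h' δ hh hhh hh2 hδ hCδ r hr hrz t ht htz D b a hD hb ha aD ab aK
  have hJ : L * sc L j ≤ sc L g.J := by
    rw [← FM.sc_succ]
    exact FM.sc_mono (by omega) hj
  have hl := FM.eight_le_sc (L := L) (by omega) j
  have hSj := hSch j hj
  rw [FM.sc_succ] at hMk ⊢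
  generalize sc L j = ℓ at *
  have hLl : 2 * ℓ ≤ L * ℓ := Nat.mul_le_mul_right ℓ hL2
  have hl0 : (0 : ℝ) < ℓ := by positivity
  have hmm : ∀ i i', i ≠ i' → 7 * (L * ℓ) < tdist (s i).1 (s i').1 := fun i i' hne => by
    have := hP.sep i i' hne
    omega
  have hsm : ∀ i κ, 7 * (L * ℓ) < tdist (g.src κ).y (s i).1 := fun i κ => by
    have := hP.far i κ
    omega
  have hh0 : 0 < h := lt_of_lt_of_le (by positivity) hh
  have hh' : 0 < h' := by linarith
  have hβ : 0 < δ * ℓ / h ^ 2 := by positivity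
  have hβ' : 0 < δ * (L * ℓ : ℕ) / h' ^ 2 := by positivity
  have hw : ∀ i, 0 < δ / (h * ν i j) := fun i => div_pos hδ (mul_pos hh0 (hMk i).pos)
  have hw' : ∀ i, 0 < δ / (h' * ν i (j + 1)) := fun i => div_pos hδ (mul_pos hh' (hMk i).pos')
  have hXδ : X * δ ≤ 1 / 8 := by
    have := mul_le_mul_of_nonneg_right (by linarith : 8 * X ≤ C) hδ.le
    linarith
  have hSW := W.Geo.R8.sepW_mono hS (r' := 8 * (L * ℓ)) (by omega)
  obtain ⟨c1, n, hn0, hn, hrem⟩ := hN g hW k s ℓ h δ (fun i => δ / (h * ν i j)) hl (by omega) hSW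
    hmm hsm hh hδ ((mul_le_mul_of_nonneg_right hX1 hδ.le).trans (by linarith)) hw
    (fun i => (pI_eI (by omega) hh0 hβ hw (hMk i).pos.le (hMk i).dom
      (mem_singleton_self _)).trans_eq (div_mul_cancel₀ _ (mul_pos hh0 (hMk i).pos).ne'))
    r hr hrz t ht htz D b a hD hb ha aD ab aK
  have hm := (remI_mem hW ℓ (L * ℓ) (fun X => sub_le_el (hr.H_mem X)) hr.H_empty ht).2
  have hun : ∀ U, stein U ≤ ℓ → ∀ i, (s i).1 ∈ U → ∀ i', (s i').1 ∈ U → i' = i :=
    fun U hU i hi i' hi' => by_contra fun hne => by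
      have b1 := hmm i' i hne
      have b2 := tdist_le_stein hi' hi
      omega
  have hcon := fun U (hU : stein U ≤ ℓ) i (hi : (s i).1 ∈ U) =>
    hK g k s L ℓ c' η _ _ h h' _ _ δ (fun i => δ / (h * ν i j)) (fun i => δ / (h' * ν i (j + 1))) i
      (u i j) (by omega) hc' hη hηc hE2 (hMk i) hh0 hhh hh2 hβ hβ' hδ rfl rfl U hU hi (hun U hU i hi)
      (fun κ hκ => by
        have b1 := hsm i κ
        have b2 := tdist_le_stein hκ hi
        omega) _ (hm U).1 (hm U).2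
  have ha0 := G.anch_nonneg (fun X => pI_nonneg _) aK
  have hD0 := G.anch_nonneg (R8.df_nonneg _ _) aD
  have hb0 := G.anch_nonneg (R8.bf_nonneg r) ab
  have hs0 : 0 ≤ a + D + b := by linarith
  have hν : (A * c' + C₃ * c' * L) * (Cn * δ * (a + D + b)) ≤ 1 / 8 * (a + D + b) := by
    refine le_trans (le_of_eq ?_) (mul_le_mul_of_nonneg_right hXδ hs0)
    rw [hX]
    ring
  have hν0 : 0 ≤ Cn * δ * (a + D + b) := by positivity
  refine ⟨c1, anch_le (sum_core (s := s) (A := C₆ * c' ^ 2 * η) (B := C₃ * c' * L) hL2 (by omega)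
    (by positivity) hB0 (fun _ => pI_nonneg _) hn0 aK hn (fun i i' hne => by
      have := hmm i i' hne
      omega) (fun U hU hi => ?_) (fun U hU i hi => ?_) fun U hU => ?_) ?_, fun i => ?_⟩
  · have aI : AdI (L * ℓ) h' _ _ := ⟨by omega, hh', hβ', hw'⟩
    simp only [stepI]
    rw [zero_of_no_mark (hm U).1 (hm U).2 hi, sum_eq_zero fun i h1 => absurd (mem_filter.1 h1).2.2
      (hi i), sub_zero, aI.zero]
  · simp only [stepI]
    rw [sum_eq_single_of_mem i (mem_filter.2 ⟨mem_univ _, hU, hi⟩) fun i' h1 hne =>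
      absurd (hun U hU i hi i' (mem_filter.1 h1).2.2) hne]
    exact (hcon U hU i hi).2.trans (mul_le_mul_of_nonneg_left (hrem U) (by positivity))
  · simp only [stepI]
    rw [sum_eq_zero fun i h1 => absurd (mem_filter.1 h1).2.1 hU, sub_zero]
    refine (hT g hW k s ℓ c hl (by omega) hc hcε hSW hSj hmm hsm (h / 2) h' _ _ _ _ (half_pos hh0) hh'
      (by linarith) hβ hβ' ?_ (fun i => ⟨hw i, hw' i, ?_⟩) U _ (hm U).1).trans
      (mul_le_mul_of_nonneg_left (hrem U) (by positivity))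
    · rw [Nat.cast_mul, ← mul_div_assoc, mul_left_comm]
      exact div_le_div_of_nonneg_left (by positivity) (by positivity)
        (pow_le_pow_left₀ hh0.le hhh 2)
    · have b1 := (hMk i).ge
      have b2 := (hMk i).pos
      have b3 := (hMk i).pos'
      rw [Nat.cast_mul, mul_div_cancel_right₀ _ hl0.ne'] at b1
      rw [← mul_div_assoc, div_le_div_iff₀ (by positivity) (by positivity)]
      have b4 := mul_le_mul hhh b1 b2.le hh'.le
      have b5 := mul_le_mul_of_nonneg_left b4 hδ.le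
      linarith
  · have b1 := mul_le_mul_of_nonneg_right hE1 ha0
    have b2 := mul_le_mul_of_nonneg_right hρ ha0
    have b3 := mul_le_mul_of_nonneg_right (mul_le_mul_of_nonneg_left hηc (by linarith : 0 ≤ A)) hν0
    have b4 := mul_le_mul_of_nonneg_right (by linarith : 1 ≤ C) (add_nonneg hD0 hb0)
    rw [← mul_assoc, ← hA]
    linarith
  · simp only [stepI, add_sub_cancel_left]
    refine (mul_le_mul_of_nonneg_left (abs_sum_le_sum_abs _ _) hδ.le).trans ?_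
    rw [mul_sum]
    refine (sum_le_sum fun U hU => (hcon U (mem_filter.1 hU).2.1 i (mem_filter.1 hU).2.2).1.trans
      (mul_le_mul_of_nonneg_left (hrem U) h60)).trans ?_
    rw [← mul_sum, sum_add_distrib]
    refine (mul_le_mul_of_nonneg_left (add_le_add
      (R8.sum_mem_le (by positivity) (fun _ => pI_nonneg _) aK (s i).1 _ fun U hU =>
        (mem_filter.1 hU).2.2)
      (R8.sum_mem_le (by positivity) hn0 hn (s i).1 _ fun U hU => (mem_filter.1 hU).2.2)) h60).trans ?_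
    have b1 : Cn * δ * (a + D + b) ≤ 1 / 8 * (a + D + b) :=
      (le_mul_of_one_le_left hν0 (by linarith)).trans hν
    have b2 := mul_le_mul_of_nonneg_left (by linarith : a + Cn * δ * (a + D + b) ≤ 2 * (a + D + b)) h60
    have b3 := mul_le_mul_of_nonneg_right (by linarith : 2 * (C₆ * c') ≤ C) hs0
    linarith

end Vale.Agent.P144Z.IO
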