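import Vale.Agent.P144D.I.O.Flow1
import Vale.Agent.P144D.I.O.Init
import Vale.Agent.P144D.I.O.Step

/-!
The bounds on the flow with insertions.
-/

namespace Vale.Agent.P144Z.IO

open Finset Matrix Geo W.FD FM

variable {g : Geo} {k : ℕ} {s : Fin k → g.P × Fin 4}

/-- The sum of the insertions over all supports. -/
theorem pI_sum {ℓ Λ : ℕ} {h β τ a : ℝ} {w : Fin k → ℝ} (hℓ : 1 ≤ ℓ) (hh : 0 < h) (hβ : 0 < β)
    (hw : ∀ i, 0 < w i) (hM : g.M ≤ Λ * ℓ) (hτ : 0 ≤ τ) {t : g.StI s} (ht : g.WfI s t)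
    (H : Anch ℓ τ (fun X => g.pI s ℓ h β w X (t.K X)) a) :
    g.pI s ℓ h β w univ (∑ X, t.K X) ≤ (32 * Λ + 1) ^ 2 * a := by
  classical
  obtain ⟨𝓛, e1, e2⟩ := exists_locI s hℓ hh hβ hw
  have s1 := R8L.sum_all (L := Λ) hℓ (hM.trans (by omega)) hτ (fun X => pI_nonneg _) H
  rw [← sum_filter_of_ne (p := fun X : Finset g.P => X.Nonempty)
    fun X _ hX => nonempty_iff_ne_empty.2 fun h0 => hX (by rw [h0, ht.K0])]
  rw [← e2] at s1 ⊢
  exact (B3.p_sum_le 𝓛 _ _ _).trans ((sum_le_sum fun X _ => 𝓛.p_mono (subset_univ _)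
    (e1 ▸ ht.mem X)).trans s1)

/-- A state of size zero vanishes. -/
theorem K_eq_zero {ℓ : ℕ} {h β τ : ℝ} {w : Fin k → ℝ} (hℓ : 1 ≤ ℓ) (hh : 0 < h) (hβ : 0 < β)
    (hw : ∀ i, 0 < w i) {t : g.StI s} (ht : g.WfI s t)
    (H : Anch ℓ τ (fun X => g.pI s ℓ h β w X (t.K X)) 0) (X : Finset g.P) : t.K X = 0 := by
  obtain ⟨𝓛, e1, e2⟩ := exists_locI s hℓ hh hβ hw
  rcases X.eq_empty_or_nonempty with rfl | hne
  · exact ht.K0
  · have h1 := anch_eq_zero H (fun X => pI_nonneg _) hne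
    rw [← e2] at h1
    exact 𝓛.p_def (e1 ▸ ht.mem X) h1

theorem sqrt_sub_one_le {x : ℝ} (hx : 0 ≤ x) : |√x - 1| ≤ |x - 1| := by
  have h1 : x - 1 = (√x - 1) * (√x + 1) := by
    have := Real.mul_self_sqrt hx
    linarith
  rw [h1, abs_mul]
  refine le_mul_of_one_le_right (abs_nonneg _) ?_
  rw [abs_of_nonneg (by positivity)]
  linarith [Real.sqrt_nonneg x]

theorem sm_zero' (M : ℕ) [NeZero M] (R : ℕ) {γ δ : ℝ} (hγ : 0 ≤ γ) (hδ : 0 ≤ δ) :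
    Cor.Sm (0 : Cor M) R γ δ :=
  ⟨0, 0, (add_zero _).symm, ⟨0, fun _ _ => by simp, fun _ h => absurd rfl h, fun _ => by simpa⟩,
    ⟨0, fun _ _ => by simp, fun _ h => absurd rfl h, fun _ => by simpa⟩⟩

/-- The bounds on the insertions from the initial step and the steps. -/
theorem flowI_of {L K Λ : ℕ} {q : Par} {h : ℕ → ℝ} {C δ η a A o w b H c η₁ : ℝ}
    {u : Fin k → ℕ → g.P × Fin 4 → ℝ} {ν : Fin k → ℕ → ℝ} {O : Fin k → g.Cfg → ℝ}
    (hL1 : 1 ≤ L) (hg : g.OkW) (hr : Rad L h) (hJ : 1 ≤ g.J) (hM : g.M ≤ Λ * sc L g.J)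
    (hC : 1 ≤ C) (hδ : 0 < δ) (d2 : C * δ ≤ 1) (d4 : δ ≤ 1 / 2)
    (hst : ∀ j < g.J, g.StepI s u ν L j C (if j = 0 then C else 1 / 4))
    (B1 : Bg g L q h δ a) (B0 : Bg g L par0 h δ 0)
    (hch : ∀ i, MkCh g.A L g.J (s i) (u i) (ν i) c η₁) (hO : LocO s K O) (ho : |o| ≤ 1)
    (hη : 0 ≤ η) (e1 : η ≤ 1 / 4) (ha : 0 ≤ a) (hZ0 : 0 ≤ q.Z) (hZ : |q.Z - 1| ≤ η)
    (hA : 2 * (C * η) + 8 * (C * a) ≤ A) (hE : 8 * (C * (A + 2 * a)) ≤ δ)
    (i1 : NormedSpace.exp (∑ U, Cl ((g.xt s).E0 (q.x * q.Z)) (g.HinI s q o O K) U) =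
      (g.xt s).E0 (q.x * q.Z) (NormedSpace.exp (∑ X, g.HinI s q o O K X)))
    (i2 : SzI g s ν L h δ 0 (g.initI s q o O K) η)
    (i3 : NormedSpace.exp (∑ U, Cl ((g.xt s).E0 (par0.x * par0.Z)) (g.HinI s par0 1 1 K) U) =
      (g.xt s).E0 (par0.x * par0.Z) (NormedSpace.exp (∑ X, g.HinI s par0 1 1 K X)))
    (i4 : SzI g s ν L h δ 0 (g.initI s par0 1 1 K) 0) (hH : 0 < H) (hHh : H ≤ h g.J)
    (hw0 : 0 < w) (hw2 : w * h g.J ^ 2 ≤ δ) (hb : (32 * Λ + 1) ^ 2 * A ≤ b) :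
    g.FlowI s L q o O K u ν w b H := by
  have hL0 : (0 : ℝ) < L := by exact_mod_cast hL1
  have hh1 : 1 ≤ h g.J := (one_le_pow₀ (by exact_mod_cast hL1)).trans (hr.lo _)
  have hh0 : 0 < h g.J := by linarith
  have hw3 : w * h g.J ≤ δ := le_trans (mul_le_mul_of_nonneg_left (by nlinarith) hw0.le) hw2
  have h8 := eight_le_sc hL1 g.J
  have hs0 : (0 : ℝ) < sc L g.J := by positivity
  have hO1 : LocO s K (1 : Fin k → g.Cfg → ℝ) := fun _ _ _ _ => rfl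
  have hz0 : ∀ i, |(g.flowI s L q o O K u 0).z i - o| ≤ η := fun i => by
    change |√q.Z * o - o| ≤ η
    rw [← sub_one_mul, abs_mul]
    exact (mul_le_mul ((sqrt_sub_one_le hZ0).trans hZ) ho (abs_nonneg _) hη).trans (mul_one η).le
  have hz00 : ∀ i, (g.flowI s L par0 1 1 K u 0).z i = 1 := fun i => by
    change √par0.Z * 1 = 1
    simp [par0]
  have wf := wf_flowI hg L q o hO u
  have wf0 := wf_flowI hg L par0 1 hO1 u
  obtain ⟨f1, f2, f3⟩ := ind_I (a₀ := η) (A := A) hg hr hC hδ d2 hst B1 wf ha hη hA hE i2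
    (fun i => by
      have k1 := abs_add_le ((g.flowI s L q o O K u 0).z i - o) o
      rw [sub_add_cancel] at k1
      linarith [hz0 i])
  obtain ⟨f4, f5, f6⟩ := ind_I (a₀ := 0) (A := 0) hg hr hC hδ d2 hst B0 wf0 le_rfl le_rfl
    (by simp) (by simpa using hδ.le) i4 (fun i => by rw [hz00]; norm_num)
  rw [zero_div] at f5
  have hν := fun i => mk_last (hch i) hJ
  have hβ := beta_pos hL1 hδ hh0 g.J
  have hw5 : ∀ i, 0 < δ / (h g.J * ν i g.J) := fun i => div_pos hδ (mul_pos hh0 (hν i).1)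
  have hw6 : ∀ i, 0 < w / ν i g.J := fun i => div_pos hw0 (hν i).1
  refine ⟨⟨i1, f1⟩, ⟨i3, f4⟩, ?_, ?_, fun i => ?_, fun i => ?_⟩
  · have k1 : (g.flowI s L par0 1 1 K u g.J).z = fun _ => 1 := by
      funext i
      have k2 := f6 i
      rw [hz00, mul_zero, add_zero, mul_zero, mul_zero] at k2
      exact sub_eq_zero.1 (abs_nonpos_iff.1 (le_of_mul_le_mul_left (k2.trans (mul_zero δ).ge) hδ))
    simp only [StI.Y, K_eq_zero (by omega) hh0 hβ hw5 (wf0 _) f5, zero_add, sum_carI, k1, one_smul]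
  · refine (pI_mono (by omega) hH (by positivity) hw6 hHh ?_ (fun i => ?_) subset_rfl
      (sum_mem fun X _ => elI_mono (subset_univ _) ((wf _).mem X))).trans
      ((pI_sum (by omega) hh0 hβ hw5 hM hL0.le (wf _) f2).trans ?_)
    · rw [le_div_iff₀ (by positivity), mul_right_comm]
      exact mul_le_mul_of_nonneg_right hw2 hs0.le
    · rw [← div_div]
      refine div_le_div_of_nonneg_right ?_ (hν i).1.le
      rwa [le_div_iff₀ hh0]
    · rw [← mul_div_assoc]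
      gcongr
  · have k2 : |(g.flowI s L q o O K u g.J).z i - (g.flowI s L q o O K u 0).z i| ≤ 1 / 4 :=
      le_of_mul_le_mul_left ((f3 i).trans (by linarith)) hδ
    have k3 := abs_sub_le ((g.flowI s L q o O K u g.J).z i) ((g.flowI s L q o O K u 0).z i) o
    linarith [hz0 i]
  · refine (pI_eI (by omega) hH (by positivity) hw6 (hν i).1.le (hν i).2 (mem_univ _)).trans ?_
    have k1 := (hν i).1.ne'
    rw [show w / ν i g.J * (H * ν i g.J) = w * H by field_simp]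
    exact (mul_le_mul_of_nonneg_left hHh hw0.le).trans (hw3.trans d4)

theorem exists_delta {δ₁ C β₀ : ℝ} (h1 : 0 < δ₁) (hC : 1 ≤ C) (h2 : 0 < β₀) :
    ∃ δ : ℝ, 0 < δ ∧ δ ≤ δ₁ ∧ C * δ ≤ 1 ∧ 8 * δ ≤ β₀ ∧ δ ≤ 1 / 2 := by
  refine ⟨min (min δ₁ (1 / C)) (min (β₀ / 8) (1 / 2)), by positivity,
    (min_le_left _ _).trans (min_le_left _ _), ?_, ?_, (min_le_right _ _).trans (min_le_right _ _)⟩
  · rw [mul_comm, ← le_div_iff₀ (by positivity)]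
    exact (min_le_left _ _).trans (min_le_right _ _)
  · rw [mul_comm, ← le_div_iff₀ (by positivity)]
    exact (min_le_right _ _).trans (min_le_left _ _)

theorem le_sc_of_lt {L K J : ℕ} (hL : 2 ≤ L) (h : K + 1 ≤ J) : K ≤ sc L J := by
  have k1 : K < 2 ^ K := Nat.lt_two_pow_self
  have k2 : 2 ^ K ≤ L ^ J :=
    (Nat.pow_le_pow_left hL K).trans (Nat.pow_le_pow_right (by omega) (by omega))
  unfold sc
  omega

theorem szI_zero {L : ℕ} {h : ℕ → ℝ} (hr : Rad L h) {δ a a' : ℝ} {ν : Fin k → ℕ → ℝ}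
    {t : g.StI s} (H : Anch 8 L (fun U => g.pI s 8 ((L : ℝ) ^ 2)
      (δ * (8 : ℕ) / ((L : ℝ) ^ 2) ^ 2) (fun i => δ / ((L : ℝ) ^ 2 * ν i 0)) U (t.K U)) a)
    (ha : a ≤ a') : SzI g s ν L h δ 0 t a' := by
  unfold SzI
  simp only [sc_zero, hr.h0]
  exact anch_le H ha

/-- The bounds on the flow with insertions. -/
theorem flowSI : FlowSI := by
  obtain ⟨ε₁, hε₁, hS⟩ := step_I
  refine ⟨ε₁, hε₁, fun c' hc' => ?_⟩
  obtain ⟨η₁, hη₁, L₀, hS⟩ := hS c' hc'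
  refine ⟨η₁, hη₁, max L₀ 16, fun L hL C₁ hC₁ => ?_⟩
  have hL16 : 16 ≤ L := le_of_max_le_right hL
  have hL1 : 1 ≤ L := by omega
  have hL0 : (0 : ℝ) < L := by exact_mod_cast hL1
  have h2 : (1 : ℝ) ≤ (L : ℝ) ^ 2 := one_le_pow₀ (by exact_mod_cast hL1)
  obtain ⟨C, hC, hS⟩ := hS L (le_of_max_le_left hL)
  obtain ⟨β₀, hβ₀, hI⟩ := init_I L ((L : ℝ) ^ 2) hL0.le (by positivity)
  obtain ⟨C₂, hC₂, η₂, hη₂, hD⟩ := flowS hL16 hC₁
  obtain ⟨δ₁, hδ₁, A, hA, η₃, hη₃, hE, hE0⟩ := early_all hL16 hC₁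
  obtain ⟨δ, hδ, d1, d2, d3, d4⟩ := exists_delta hδ₁ hC hβ₀
  obtain ⟨E, hEd, hE1⟩ : ∃ E, E = C * (2 * C + 8 * (C * A) + 2 * A) ∧ A ≤ E := by
    have h3 : 0 ≤ 2 * C + 8 * (C * A) := by positivity
    exact ⟨_, rfl, le_trans (by linarith) (le_mul_of_one_le_left (by positivity) hC)⟩
  have hE2 : 0 < E := by linarith
  refine ⟨C₂, hC₂, min (min η₂ η₃) (min (1 / 20) (δ / (8 * E))), by positivity,
    fun η hη hη0 R => ?_⟩
  have e1 : η ≤ 1 / 20 := hη0.trans ((min_le_right _ _).trans (min_le_left _ _))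
  have e2 : 8 * (E * η) ≤ δ := by
    rw [← mul_assoc, mul_comm, ← le_div_iff₀ (by positivity)]
    exact hη0.trans ((min_le_right _ _).trans (min_le_right _ _))
  have e5 : A * η ≤ E * η := mul_le_mul_of_nonneg_right hE1 hη.le
  have e6 : 0 ≤ A * η := by positivity
  obtain ⟨δ₂, hδ₂, hD⟩ := hD η hη (hη0.trans ((min_le_left _ _).trans (min_le_left _ _))) R
  obtain ⟨δ₃, hδ₃, hE⟩ := hE η hη (hη0.trans ((min_le_left _ _).trans (min_le_right _ _))) R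
  obtain ⟨C₀, hC₀, hI0⟩ := hI 0
  obtain ⟨CR, hCR, hI⟩ := hI R
  refine ⟨min (min δ₂ δ₃) (η / (2 * CR)), by positivity, fun q hR hq Z hz1 hz2 K => ?_⟩
  have hq2 : Crit L q η δ₂ := ⟨hq.ok,
    hq.small.trans ((min_le_left _ _).trans (min_le_left _ _)), hq.bulk, hq.x, hq.Z⟩
  have hq3 : Crit L q η δ₃ := ⟨hq.ok,
    hq.small.trans ((min_le_left _ _).trans (min_le_right _ _)), hq.bulk, hq.x, hq.Z⟩
  have hq4 : q.Small (η / (2 * CR)) := hq.small.trans (min_le_right _ _)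
  obtain ⟨C₀', hC₀', hI0⟩ := hI0 K
  obtain ⟨CK, hCK, hI⟩ := hI K
  refine ⟨η / (2 * CK), by positivity, fun Λ H hH => ?_⟩
  have e3 : CR * (η / (2 * CR)) + CK * (η / (2 * CK)) = η := by field_simp; norm_num
  obtain ⟨w₂, hw₂, b₂, hb₂, J₂, hD⟩ := hD q hR hq2 Z hz1 hz2 Λ H hH
  obtain ⟨p, hp⟩ := pow_unbounded_of_one_lt H (one_lt_two (α := ℝ))
  have hr := rad_min hL1 p
  obtain ⟨w, hw0, hw1, hw2⟩ : ∃ w > 0, w ≤ w₂ ∧ w * ((L : ℝ) ^ 2 * 2 ^ p) ^ 2 ≤ δ :=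
    ⟨min w₂ (δ / ((L : ℝ) ^ 2 * 2 ^ p) ^ 2), by positivity, min_le_left _ _, by
      rw [← le_div_iff₀ (by positivity)]; exact min_le_right _ _⟩
  refine ⟨w, hw0, b₂ + (32 * Λ + 1) ^ 2 * (2 * (C * η) + 8 * (C * (A * η))), by positivity,
    max (max J₂ p) (K + 1), fun g hJ hg hM => ⟨flowD_mono hL1 hg.ok (Cor.ok_zero _) hH hw0 hw1
      (le_add_of_nonneg_right (by positivity))
      (hD g (le_of_max_le_left (le_of_max_le_left hJ)) hg hM 0 (Cor.ok_zero _) (fun _ _ _ => rfl)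
        (sm_zero' _ _ hη.le hδ₂.le)), fun c hc1 hc2 hsch k s u ν o O hpre hO ho hθ => ?_⟩⟩
  have hJp : p ≤ g.J := le_of_max_le_right (le_of_max_le_left hJ)
  have hJK : K + 1 ≤ g.J := le_of_max_le_right hJ
  have h8 := eight_le_sc hL1 g.J
  have hK : K ≤ sc L g.J := le_sc_of_lt (by omega) hJK
  have hc0 := crit_par0 L 0 0 le_rfl le_rfl
  have hsep : ∀ i i', i ≠ i' → 2 * K < tdist (s i).1 (s i').1 := fun i i' hi => by
    have := hpre.sep i i' hi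
    omega
  have hfar : ∀ i κ, 8 < tdist (g.src κ).y (s i).1 := fun i κ => by
    have := hpre.far i κ
    omega
  have hβ0 : 0 < δ * (8 : ℕ) / ((L : ℝ) ^ 2) ^ 2 := by positivity
  have hβ1 : δ * (8 : ℕ) / ((L : ℝ) ^ 2) ^ 2 ≤ β₀ :=
    (div_le_self (by positivity) (one_le_pow₀ h2)).trans (by push_cast; linarith)
  have hw4 : ∀ i, 0 < δ / ((L : ℝ) ^ 2 * ν i 0) ∧ δ / ((L : ℝ) ^ 2 * ν i 0) ≤ β₀ := fun i => by
    have k1 : (1 : ℝ) ≤ √8 := Real.one_le_sqrt.2 (by norm_num)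
    rw [(hpre.ch i).nu0]
    exact ⟨by positivity, (div_le_self hδ.le (one_le_mul_of_one_le_of_one_le h2 k1)).trans
      (by linarith)⟩
  obtain ⟨i1, i2⟩ := hI q hR hq.ok _ _ hq4 (by positivity) (by rw [e3]; linarith) g hg.ok hg.on
    (src_far hL1 hg) k s o O hO ho hθ hsep hfar _ _ hβ0 hβ1 hw4
  obtain ⟨i3, i4⟩ := hI0 par0 rfl hc0.ok 0 0 hc0.small le_rfl (by simp) g hg.ok hg.on
    (src_far hL1 hg) k s 1 1 (fun _ _ _ _ => rfl) (by simp) (by simp) hsep hfar _ _ hβ0 hβ1 hw4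
  refine flowI_of hL1 hg.ok hr (by omega) hM hC hδ d2 d4
    (hS g hg.ok.sign hg.M_le hg.sep c hc1 hc2 hsch k s u ν hpre)
    (bg_of hL1 hg.ok hr (hE q hR hq3 g 0 _ hg hr (Cor.ok_zero _) (fun _ _ _ => rfl)
      (sm_zero' _ _ hη.le hδ₃.le)) hδ d1 e6 (by linarith) (z0_le e1 hq.x hq.Z))
    (bg_of hL1 hg.ok hr (hE0 R g _ hg hr) hδ d1 le_rfl (by linarith)
      (z0_le (η := 0) (by norm_num) hc0.x hc0.Z))
    hpre.ch hO ho hη.le (by linarith) e6 (by linarith [hq.ok.Z_lo]) hq.Z le_rfl ?_ i1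
    (szI_zero hr i2 e3.le) i3 (szI_zero hr i4 (by simp)) hH ?_ hw0 ?_
    (le_add_of_nonneg_left hb₂.le)
  · refine le_trans (le_of_eq ?_) e2
    rw [hEd]
    ring
  · simp only [min_eq_right hJp]
    exact hp.le.trans (le_mul_of_one_le_left (by positivity) h2)
  · simpa only [min_eq_right hJp] using hw2

end Vale.Agent.P144Z.IO
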