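import Vale.Agent.P144D.I.O.Defs2
import Vale.Agent.P144D.FD.Main

/-!
The flow with insertions: the background flow and the induction over the scales.
-/

namespace Vale.Agent.P144Z.IO

open Finset Matrix Geo W.FD FM

variable {g : Geo} {L : ℕ} {q : Par} {h : ℕ → ℝ} {δ δ' a : ℝ}

/-- The bounds on the flow are monotone in the weight of the sources. -/
theorem flowD_mono (hL : 1 ≤ L) (hg : g.OkW) {u : Cor g.M} (hu : u.Ok) {Z w w' b b' H : ℝ}
    (hH : 0 < H) (hw' : 0 < w') (hw : w' ≤ w) (hb : b ≤ b') (F : g.FlowD L q u Z w a b H) :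
    g.FlowD L q u Z w' a b' H := by
  classical
  have hs : ∀ j, (0 : ℝ) < sc L j := fun j => by have := eight_le_sc hL j; positivity
  have h1 : 1 ≤ sc L g.J := by have := eight_le_sc hL g.J; omega
  have h2 : ∀ j, w' * sc L j ≤ w * sc L j := fun j => mul_le_mul_of_nonneg_right hw (hs j).le
  refine ⟨F.conv, F.conv0, fun j hj => anch_mono (F.early j hj) (fun U => ?_) le_rfl, F.early0,
    F.flow0, ?_, fun κ => ?_⟩
  · split_ifs
    · exact le_rfl
    · exact RN.pn_mono le_rfl one_pos (mul_pos hw' (hs j)) le_rfl (h2 j) subset_rfl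
        (W.Geo.csC_mem hg hu L q j U).1
  · exact (RN.pn_mono h1 hH (mul_pos hw' (hs _)) le_rfl (h2 _) subset_rfl
      (sub_mem (sum_H_mem (W.Geo.wf_flowC hg hu L q g.J)) (sum_bE_mem fun _ => Z * (-2 * tc)))).trans
      (F.last.trans (by gcongr))
  · exact (RN.pn_mono h1 hH (mul_pos hw' (hs _)) le_rfl (h2 _) subset_rfl
      (Subalgebra.smul_mem _ (Geo.sub_mono (subset_univ _) (Geo.bE_mem κ)) _)).trans (F.size κ)

theorem df_mono {ℓ : ℕ} {H β β' : ℝ} (hℓ : 1 ≤ ℓ) (hH : 0 < H) (hβ' : 0 < β') (hβ : β' ≤ β)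
    {r r' : g.St} (hr : g.Wf r) (hr' : g.Wf r') (X : Finset g.P) :
    g.df ℓ H β' r r' X ≤ g.df ℓ H β r r' X :=
  add_le_add
    (RN.pn_mono hℓ hH hβ' le_rfl hβ subset_rfl (Geo.dp_mem (sub_mem (hr.Kmem X) (hr'.Kmem X)) X))
    (RN.pn_mono hℓ hH hβ' le_rfl hβ subset_rfl
      (Geo.dp_mem (sub_mem (hr.car_mem X) (hr'.car_mem X)) X))

/-- The bounds on the background flow. -/
structure Bg (g : Geo) (L : ℕ) (q : Par) (h : ℕ → ℝ) (δ a : ℝ) : Prop where
  df : ∀ j ≤ g.J, Anch (sc L j) L (g.df (sc L j) (h j) (δ * sc L j / h j ^ 2) (g.flowC L q 0 j)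
    (g.srcSt (g.flowC L q 0 j).z)) (a / 2 ^ j)
  bf : ∀ j ≤ g.J, Anch (sc L j) L (g.bf (sc L j) (h j) (g.flowC L q 0 j)) (a / 2 ^ j)
  z : ∀ j ≤ g.J, ∀ κ, |(g.flowC L q 0 j).z κ| ≤ 2

/-- A telescoping sum. -/
theorem tele {x : ℕ → ℝ} {J : ℕ} {E : ℝ} (hδ : 0 ≤ δ) (hE : 0 ≤ E)
    (H : ∀ j < J, δ * |x (j + 1) - x j| ≤ E / 2 ^ j) : ∀ j ≤ J, δ * |x j - x 0| ≤ 2 * E := by
  have key : ∀ j ≤ J, δ * |x j - x 0| ≤ 2 * E - 2 * (E / 2 ^ j) := by
    intro j hj
    induction j with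
    | zero => simp
    | succ j ih =>
      have h1 := ih (by omega)
      have h2 := H j (by omega)
      have h3 := mul_le_mul_of_nonneg_left (abs_sub_le (x (j + 1)) (x j) (x 0)) hδ
      have h4 : E / 2 ^ j = 2 * (E / 2 ^ (j + 1)) := by rw [pow_succ]; field_simp
      linarith
  intro j hj
  have : 0 ≤ E / 2 ^ j := by positivity
  linarith [key j hj]

theorem bg_of (hL : 1 ≤ L) (hg : g.OkW) (hr : Rad L h) (H : W.FD.EFull g L q 0 h δ a) (hδ' : 0 < δ')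
    (h1 : δ' ≤ δ) (ha : 0 ≤ a) (h2 : 2 * a ≤ δ) (hz : ∀ κ, |g.z0 q κ| ≤ 1) : Bg g L q h δ' a := by
  have hδ : 0 < δ := hδ'.trans_le h1
  refine ⟨fun j hj => anch_mono (H.df j hj) (fun X => ?_) le_rfl, fun j hj =>
    anch_le (H.bf j hj) (div_pow_le (by positivity) j), fun j hj κ => ?_⟩
  · have h8 := eight_le_sc hL j
    have := hr.pos hL j
    exact df_mono (by omega) this (beta_pos hL hδ' this j) (by gcongr)
      (W.Geo.wf_flowC hg (Cor.ok_zero _) L q j) (Geo.wf_srcSt _).1 X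
  · have h3 := tele (x := fun j => (g.flowC L q 0 j).z κ) hδ.le ha (fun j hj => H.z j hj κ) j hj
    have h4 : |(g.flowC L q 0 j).z κ - g.z0 q κ| ≤ 1 :=
      le_of_mul_le_mul_left (h3.trans (h2.trans (mul_one δ).ge)) hδ
    have h5 := abs_add_le ((g.flowC L q 0 j).z κ - g.z0 q κ) (g.z0 q κ)
    rw [sub_add_cancel] at h5
    linarith [hz κ]

variable {k : ℕ} {s : Fin k → g.P × Fin 4} {u : Fin k → ℕ → g.P × Fin 4 → ℝ}
  {ν : Fin k → ℕ → ℝ} {o : ℝ} {O : Fin k → g.Cfg → ℝ} {K : ℕ}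

/-- The size of the insertions at the scale `j`. -/
def SzI (g : Geo) {k : ℕ} (s : Fin k → g.P × Fin 4) (ν : Fin k → ℕ → ℝ) (L : ℕ) (h : ℕ → ℝ)
    (δ : ℝ) (j : ℕ) (t : g.StI s) (a : ℝ) : Prop :=
  Anch (sc L j) L (fun X => g.pI s (sc L j) (h j) (δ * sc L j / h j ^ 2)
    (fun i => δ / (h j * ν i j)) X (t.K X)) a

/-- The induction over the scales. -/
theorem ind_I {C a₀ A : ℝ} (hg : g.OkW) (hr : Rad L h) (hC : 1 ≤ C) (hδ : 0 < δ) (hCδ : C * δ ≤ 1)
    (hS : ∀ j < g.J, g.StepI s u ν L j C (if j = 0 then C else 1 / 4)) (B : Bg g L q h δ a)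
    (wf : ∀ j, g.WfI s (g.flowI s L q o O K u j)) (ha : 0 ≤ a) (ha₀ : 0 ≤ a₀)
    (hA : 2 * (C * a₀) + 8 * (C * a) ≤ A) (hE : 8 * (C * (A + 2 * a)) ≤ δ)
    (h0 : SzI g s ν L h δ 0 (g.flowI s L q o O K u 0) a₀)
    (hz : ∀ i, |(g.flowI s L q o O K u 0).z i| ≤ 3 / 2) :
    (∀ j < g.J, g.ExpI s (sc L j) (sc L (j + 1)) (g.flowC L q 0 j).H (g.flowI s L q o O K u j)) ∧
      SzI g s ν L h δ g.J (g.flowI s L q o O K u g.J) (A / 2 ^ g.J) ∧
      ∀ i, δ * |(g.flowI s L q o O K u g.J).z i - (g.flowI s L q o O K u 0).z i| ≤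
        2 * (C * (A + 2 * a)) := by
  have hCa : a ≤ C * a := le_mul_of_one_le_left ha hC
  have hCa₀ : a₀ ≤ C * a₀ := le_mul_of_one_le_left ha₀ hC
  have hA0 : 0 ≤ A := by linarith
  have hE0 : A + 2 * a ≤ C * (A + 2 * a) := le_mul_of_one_le_left (by linarith) hC
  have step0 : ∀ j < g.J, ∀ x, x ≤ δ → SzI g s ν L h δ j (g.flowI s L q o O K u j) x →
      (∀ i, |(g.flowI s L q o O K u j).z i| ≤ 2) → _ := fun j hj x hx hd hzz =>
    hS j hj (h j) (h (j + 1)) δ (hr.lo j) (hr.h1 j) (hr.h2 j) hδ hCδ _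
      (W.Geo.wf_flowC hg (Cor.ok_zero _) L q j) (B.z j hj.le) _ (wf j) hzz _ _ x
      ((div_pow_le ha j).trans (by linarith)) ((div_pow_le ha j).trans (by linarith)) hx
      (B.df j hj.le) (B.bf j hj.le) hd
  have hD : ∀ j : ℕ, A / 2 ^ j ≤ δ := fun j => (div_pow_le hA0 j).trans (by linarith)
  have hz2 : ∀ j i, δ * |(g.flowI s L q o O K u j).z i - (g.flowI s L q o O K u 0).z i| ≤
      2 * (C * (A + 2 * a)) → |(g.flowI s L q o O K u j).z i| ≤ 2 := fun j i H => by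
    have h4 : |(g.flowI s L q o O K u j).z i - (g.flowI s L q o O K u 0).z i| ≤ 1 / 2 :=
      le_of_mul_le_mul_left (H.trans (by linarith)) hδ
    have h5 := abs_add_le ((g.flowI s L q o O K u j).z i - (g.flowI s L q o O K u 0).z i)
      ((g.flowI s L q o O K u 0).z i)
    rw [sub_add_cancel] at h5
    linarith [hz i]
  have hEq : ∀ j : ℕ, C * (A / 2 ^ j + a / 2 ^ j + a / 2 ^ j) = C * (A + 2 * a) / 2 ^ j :=
    fun j => by ring
  have key : ∀ j ≤ g.J, SzI g s ν L h δ j (g.flowI s L q o O K u j) (A / 2 ^ j) ∧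
      ∀ j' < j, ∀ i, δ * |(g.flowI s L q o O K u (j' + 1)).z i - (g.flowI s L q o O K u j').z i| ≤
        C * (A + 2 * a) / 2 ^ j' := by
    intro j hj
    induction j with
    | zero => exact ⟨anch_le h0 (by rw [pow_zero, div_one]; linarith), fun _ h => absurd h (by omega)⟩
    | succ j ih =>
      obtain ⟨h1, h2⟩ := ih (by omega)
      have h9 : ∀ i, |(g.flowI s L q o O K u j).z i| ≤ 2 := fun i => hz2 j i
        (tele (x := fun j => (g.flowI s L q o O K u j).z i) hδ.le (by positivity)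
          (fun j' hj' => h2 j' hj' i) j le_rfl)
      obtain ⟨-, s2, s3⟩ := step0 j (by omega) _ (hD j) h1 h9
      refine ⟨?_, fun j' hj' i => ?_⟩
      · rcases Nat.eq_zero_or_pos j with rfl | hj0
        · refine anch_le (step0 0 (by omega) _ (by linarith) h0 h9).2.1 ?_
          simp only [if_true, pow_zero, div_one, zero_add, pow_one]
          linarith
        · refine anch_le s2 ?_
          rw [if_neg hj0.ne']
          have h3 : 1 / 4 * (A / 2 ^ j) + C * (a / 2 ^ j + a / 2 ^ j) =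
              (A / 2 + 4 * (C * a)) / 2 ^ (j + 1) := by rw [pow_succ]; field_simp; ring
          rw [h3]
          gcongr
          linarith
      · rcases Nat.lt_succ_iff_lt_or_eq.1 hj' with h3 | rfl
        · exact h2 j' h3 i
        · exact (s3 i).trans (hEq _).le
  have ht := fun j (hj : j ≤ g.J) i => tele (x := fun j => (g.flowI s L q o O K u j).z i) hδ.le
    (by positivity : 0 ≤ C * (A + 2 * a)) (fun j' hj' => (key g.J le_rfl).2 j' hj' i) j hj
  exact ⟨fun j hj => (step0 j hj _ (hD j) (key j hj.le).1 fun i => hz2 j i (ht j hj.le i)).1,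
    (key g.J le_rfl).1, ht g.J le_rfl⟩

/-- The normalisation at the last scale. -/
theorem mk_last {M : ℕ} [NeZero M] {A : Gauge M} {J : ℕ} {p : Tor M × Fin 4}
    {v : ℕ → Tor M × Fin 4 → ℝ} {μ : ℕ → ℝ} {c η : ℝ} (H : MkCh A L J p v μ c η) (hJ : 1 ≤ J) :
    0 < μ J ∧ Dom A (sc L J) p.1 (Pi.single p 1) (μ J) := by
  obtain ⟨j, rfl⟩ : ∃ j, J = j + 1 := ⟨J - 1, by omega⟩
  rcases Nat.eq_zero_or_pos j with rfl | hj
  · exact ⟨H.zero.pos', H.zero.dom'⟩
  · exact ⟨(H.pos j hj (by omega)).pos', (H.pos j hj (by omega)).dom'⟩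

end Vale.Agent.P144Z.IO
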