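import Vale.Agent.P144D.I.O.Defs2

/-!
The coefficient of the product of all source variables and all insertions.
-/

namespace Vale.Agent.P144Z.IO

open Finset Matrix Geo Mn A1

namespace G4

variable {G : Geo}

/-- Iterated derivatives in the generators of the sources; the head acts first. -/
noncomputable def dl (G : Geo) : List (G.K × Fin 2) → Gr G.S →ₗ[ℝ] Gr G.S
  | [] => LinearMap.id
  | p :: l => dl G l ∘ₗ del (R1.sv G p.1 p.2)

theorem dl_eq (l : List (G.K × Fin 2)) (F : Gr G.S) :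
    dl G l F = CAR.dls (l.map fun i => pair (R1.sv G i.1 i.2)) F := by
  induction l generalizing F with
  | nil => rfl
  | cons p l ih => exact ih _

theorem dl_append (l l' : List (G.K × Fin 2)) (F : Gr G.S) :
    dl G (l ++ l') F = dl G l' (dl G l F) := by
  induction l generalizing F with
  | nil => rfl
  | cons p l ih => exact ih _

theorem dl_comm (T : Gr G.S → Gr G.S) (c : G.K × Fin 2 → ℝ) (l : List (G.K × Fin 2))
    (h : ∀ p ∈ l, ∀ F, del (R1.sv G p.1 p.2) (T F) = c p • T (del (R1.sv G p.1 p.2) F))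
    (F : Gr G.S) : dl G l (T F) = (l.map c).prod • T (dl G l F) := by
  induction l generalizing F with
  | nil => exact (one_smul ℝ _).symm
  | cons p l ih =>
    rw [dl, LinearMap.comp_apply, LinearMap.comp_apply, h p List.mem_cons_self, map_smul,
      ih fun p' hp' => h p' (List.mem_cons_of_mem _ hp'), smul_smul, List.map_cons, List.prod_cons]

theorem dl_comm' (T : Gr G.S → Gr G.S) (l : List (G.K × Fin 2))
    (h : ∀ p ∈ l, ∀ F, del (R1.sv G p.1 p.2) (T F) = T (del (R1.sv G p.1 p.2) F))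
    (F : Gr G.S) : dl G l (T F) = T (dl G l F) := by
  rw [dl_comm T (fun _ => 1) l (fun p hp F => by rw [h p hp, one_smul])]
  simp

theorem dl_mulL (u : G.S → ℝ) (l : List (G.K × Fin 2)) (F : Gr G.S) :
    dl G l (ExteriorAlgebra.map (I1.mulL u) F) =
      (l.map fun p => u (Sum.inr p)).prod • ExteriorAlgebra.map (I1.mulL u) (dl G l F) :=
  dl_comm (ExteriorAlgebra.map (I1.mulL u)) _ l (fun p _ F => by
    rw [del_map _ (u (Sum.inr p) • R1.sv G p.1 p.2) (R1.sv G p.1 p.2) (mem_loc_univ F) fun t _ => by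
      rw [I1.mulL_single, smul_dotProduct, single_one_dotProduct, Pi.smul_apply]
      by_cases h : t = Sum.inr p
      · rw [h]
      · rw [R1.sv, Pi.single_eq_of_ne h, smul_zero, smul_zero], del_smul_left, map_smul]) F

theorem dl_le (l : List (G.K × Fin 2)) {ℓ : ℕ} {h β : ℝ} (hℓ : 1 ≤ ℓ) (hh : 0 < h) (hβ : 0 < β)
    (F : G.E) : √β ^ l.length * |aug (dl G l (Ev.val F))| ≤ G.pn ℓ h β univ F := by
  have key := A3.abs_dls_le (RN.adm hℓ hh hβ univ) (R1.loc_univ (Ev.val F))
    (fun i : G.K × Fin 2 => R1.sv G i.1 i.2) (fun _ => √β) (fun _ => Real.sqrt_pos.2 hβ)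
    (fun p hp => by
      rcases RN.cons_cases hp with ⟨z, hz, δ, c, s1, hc, hd, rfl⟩ | ⟨k, i, hy, rfl⟩
      · simp only [RN.ex_dot_src, abs_zero, mul_zero, sum_const_zero]
        positivity
      · dsimp only
        rw [sum_eq_single (k, i) (fun j _ hj => by
          rw [R1.sv_dot, if_neg (Ne.symm hj), abs_zero, mul_zero]) (fun h => (h (mem_univ _)).elim),
          R1.sv_dot, if_pos rfl, abs_one, mul_one]) l
  rwa [← dl_eq, List.map_const', List.prod_replicate] at key

variable {ι : Type} (m : ι → G.K) (δ : ι → Tor G.M × Fin 4 → ℝ) (b : ι → ℝ)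

theorem del_ins (κ : G.K) (l : List ι) (h : ∀ i ∈ l, m i ≠ κ) :
    del (R1.sv G κ 0)
      (Ev.val (l.map fun i => 1 + b i • pp (R1.sv G (m i) 0) (G.ex (δ i))).prod) = 0 := by
  induction l with
  | nil => simp [del_one]
  | cons i l ih =>
    rw [List.map_cons, List.prod_cons, map_mul, del_mul,
      ih fun i' hi' => h i' (List.mem_cons_of_mem _ hi'), mul_zero, add_zero, map_add, map_one,
      map_smul, val_pp, map_add, map_smul, del_one, del_psi_mul, del_psi, RN.ex_dot_src,
      R1.sv_dot, if_neg fun e => h i List.mem_cons_self (congrArg Prod.fst e)]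
    simp

theorem dl_ins (hm : Function.Injective m) (l : List ι) (hl : l.Nodup) (X : Gr G.S)
    (hX : ∀ i, del (R1.sv G (m i) 0) X = 0) :
    dl G (l.map fun i => (m i, 0))
      (Ev.val (l.map fun i => 1 + b i • pp (R1.sv G (m i) 0) (G.ex (δ i))).prod * X) =
      (l.map b).prod • ((l.reverse.map fun i => psi (G.ex (δ i))).prod * X) := by
  induction l generalizing X with
  | nil => simp [dl]
  | cons i l ih =>
    obtain ⟨h1, h2⟩ := List.nodup_cons.1 hl
    have h3 := del_ins m δ b (m i) l fun i' hi' e => h1 (hm e ▸ hi')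
    have h4 : ∀ j, del (R1.sv G (m j) 0) (psi (G.ex (δ i)) * X) = 0 := fun j => by
      rw [del_psi_mul, RN.ex_dot_src, hX, zero_smul, mul_zero, sub_zero]
    have h5 : del (R1.sv G (m i) 0)
        (Ev.val (1 + b i • pp (R1.sv G (m i) 0) (G.ex (δ i))) * X) =
        b i • (psi (G.ex (δ i)) * X) := by
      rw [map_add, map_one, map_smul, val_pp, add_mul, one_mul, smul_mul_assoc, map_add, map_smul,
        hX, zero_add, mul_assoc, del_psi_mul, h4, R1.sv_dot, if_pos rfl, one_smul, mul_zero,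
        sub_zero]
    rw [List.map_cons, List.map_cons, List.prod_cons, mul_comm (1 + _), map_mul Ev.val, mul_assoc,
      dl,
      LinearMap.comp_apply, del_mul, h3, zero_mul, zero_add, mem_even_iff.1 (Ev.val_mem _), h5,
      mul_smul_comm, map_smul, ih h2 _ h4, List.map_cons, List.prod_cons, smul_smul,
      List.reverse_cons, List.map_append, List.prod_append, List.map_singleton,
      List.prod_singleton, mul_assoc]

/-- The insertions are read off by the derivatives. -/
theorem dl_CI {k : ℕ} (m : Fin k → G.K) (hm : Function.Injective m)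
    (s : Fin k → Tor G.M × Fin 4) (b : Fin k → ℝ) (n : G.Cfg) (E : G.E)
    (hE : ∀ i, del (R1.sv G (m i) 0) (Ev.val E) = 0) :
    dl G ((List.finRange k).reverse.map fun i => (m i, 0))
      (Ev.val (E * G.noF (evG (G.exM (gM G.M))
        ((∏ e : Tor G.M × Fin 2, if n e then G.edge e.1 e.2 else 1) *
          ∏ i, (1 + b i • pp (R1.sv G (m i) 0) (G.ex (Pi.single (s i) 1))))))) =
      ((∏ i, b i) * (cwI s n * wt G.A 1 n)) • Ev.val E := by
  let f : ((geo0 G.M).S → ℝ) →ₗ[ℝ] (G.S → ℝ) := I2.exL G ∘ₗ LinearMap.funLeft ℝ ℝ Sum.inl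
  have hf : ∀ δ, f δ = G.ex (δ ∘ Sum.inl) := fun _ => rfl
  have h1 : ∀ s : Tor G.M × Fin 4, f (Pi.single (Sum.inl s) 1) = Pi.single (Sum.inl s) 1 :=
    fun s => by
      rw [hf, ← I2.ex_single]
      congr 1
      funext t
      exact I2.single_inl s t
  have h2 : (∏ e : Tor G.M × Fin 2, if n e then G.edge e.1 e.2 else 1) = wt G.A 1 n •
      evMap f (∏ e : Tor G.M × Fin 2, if n e then (geo0 G.M).edge e.1 e.2 else 1) := by
    rw [I2.evMap_prod, wt, ← Finset.prod_smul]
    refine Finset.prod_congr rfl fun e _ => ?_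
    split_ifs
    · rw [Geo.edge, one_mul]
      congr 1
      refine Eq.symm ((congrArg (evMap f) (I2.edge0 G.M e.1 e.2)).trans
        ((I2.evMap_pp f _ _).trans ?_))
      exact congrArg₂ pp (h1 _) (h1 _)
    · rw [I2.evMap_one, one_smul]
  have h3 : I2.pS G ∘ₗ f = 0 := LinearMap.ext fun δ => I2.pS_ex G _
  have h4 : ∀ (i : Fin k) (Y : Gr (geo0 G.M).S),
      del (R1.sv G (m i) 0) (ExteriorAlgebra.map f Y) = 0 := fun i Y => by
    rw [del_map f 0 _ (mem_loc_univ Y) fun t _ => by rw [hf, RN.ex_dot_src]; rfl, del_zero_left,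
      map_zero]
  have h5 : (List.finRange k).map (fun i => psi (G.ex (Pi.single (s i) 1))) =
      (List.ofFn fun i => psi ((geo0 G.M).ex (Pi.single (s i) 1))).map
        (ExteriorAlgebra.map f) := by
    rw [List.map_ofFn, List.ofFn_eq_map]
    refine List.map_congr_left fun i _ => ?_
    rw [Function.comp_apply, map_psi]
    rfl
  have hp : ∀ {β : Type} [CommMonoid β] (F : Fin k → β),
      ∏ i, F i = ((List.finRange k).reverse.map F).prod := fun F => by
    rw [List.map_reverse, List.prod_reverse, ← List.ofFn_eq_map, List.prod_ofFn]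
  rw [map_mul, dl_comm' (fun Y => Ev.val E * Y), I2.val_noF,
    dl_comm' (ExteriorAlgebra.map (I2.pS G)), val_evG, dl_comm' (gauss (G.exM (gM G.M))),
    mul_comm (Finset.prod _ _), hp, map_mul, h2, map_smul, mul_smul_comm, map_smul, val_evMap,
    dl_ins m _ b hm _ (List.nodup_reverse.2 (List.nodup_finRange k)) _ fun i => h4 i _, ← hp,
    List.reverse_reverse, h5, ← map_list_prod, ← map_mul,
    mul_comm_of_even (Ev.val_mem _), map_smul, map_smul, map_smul, map_smul,
    gauss_map (I2.exM_anti (geo0 G.M) (I2.gM_anti G.M)) (I2.exM_anti G (I2.gM_anti G.M)) f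
      (mem_loc_univ _), I2.map_map, h3, I2.map_zero_eq, smul_smul, smul_smul, mul_smul_comm,
    mul_one, cwI]
  · congr 1
    ring
  · intro s _ s' _
    rw [hf, hf, I2.ex_exM]
    refine (I2.dot_exM (geo0 G.M) (gM G.M) _ _).symm.trans ?_
    rw [single_one_dotProduct, mulVec_single_one, col_apply]
  · exact fun p _ F => (gauss_del _ _ _).symm
  · refine fun p _ F => del_map _ _ _ (mem_loc_univ F) fun t _ => ?_
    rw [dotProduct_single_one, I2.pS_inr, R1.sv, Pi.single_apply, Pi.single_apply]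
    exact if_congr eq_comm rfl rfl
  · intro p hp F
    obtain ⟨i, -, rfl⟩ := List.mem_map.1 hp
    rw [del_mul, hE, zero_mul, zero_add, mem_even_iff.1 (Ev.val_mem _)]

theorem dl_src (hm : Function.Injective m) (l : List ι) (hl : l.Nodup) :
    dl G (l.flatMap fun κ => [(m κ, (0 : Fin 2)), (m κ, 1)])
      (Ev.val (l.map fun κ => 1 + b κ • G.bv (m κ)).prod) = (l.map b).prod • 1 := by
  have h := R1.dbs_prod (g := G) (Function.extend m b 0) (l.map m) (hl.map hm)
  rw [R1.dbs_eq, ← dl_eq, List.map_map, List.map_map, List.flatMap_map] at h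
  simpa only [Function.comp_def, hm.extend_apply] using h

theorem sv_self (κ : G.K) (d : Fin 2) : R1.sv G κ d (Sum.inr (κ, d)) = 1 := Pi.single_eq_same _ _

theorem sv_ne {κ : G.K} {d : Fin 2} {t : G.S} (h : t ≠ Sum.inr (κ, d)) : R1.sv G κ d t = 0 :=
  Pi.single_eq_of_ne h _

theorem exists_top {ι : Type} [Fintype ι] (m₀ : ι → G.K) (h₀ : Function.Injective m₀) {k : ℕ}
    (m : Fin k → G.K) (hm : Function.Injective m) (hne : ∀ κ i, m₀ κ ≠ m i)
    (s : Fin k → Tor G.M × Fin 4) : ∃ top : G.E →ₗ[ℝ] ℝ,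
      (∀ (a : ι → ℝ) (n : G.Cfg) (b : Fin k → ℝ),
        top ((∏ κ, (1 + a κ • G.bv (m₀ κ))) * G.noF (evG (G.exM (gM G.M))
          ((∏ e : Tor G.M × Fin 2, if n e then G.edge e.1 e.2 else 1) *
            ∏ i, (1 + b i • pp (R1.sv G (m i) 0) (G.ex (Pi.single (s i) 1)))))) =
          (∏ κ, a κ) * (∏ i, b i) * (cwI s n * wt G.A 1 n)) ∧
      (∀ (a : G.K → ℝ) F, top (G.dg a F) = (∏ κ, a (m₀ κ)) * (∏ i, a (m i)) * top F) ∧
      ∀ (ℓ : ℕ) (h β : ℝ), 1 ≤ ℓ → 0 < h → 0 < β → ∀ F,
        β ^ Fintype.card ι * √β ^ k * |top F| ≤ G.pn ℓ h β univ F := by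
  refine ⟨aug.toLinearMap ∘ₗ dl G (((List.finRange k).reverse.map fun i => (m i, 0)) ++
    (univ : Finset ι).toList.flatMap fun κ => [(m₀ κ, (0 : Fin 2)), (m₀ κ, 1)]) ∘ₗ
    (Ev.val (S := G.S)).toLinearMap, fun a n b => ?_, fun a F => ?_, fun ℓ h β hℓ hh hβ F => ?_⟩
  · show aug (dl G _ (Ev.val _)) = _
    rw [dl_append, dl_CI m hm, map_smul, ← prod_map_toList _ fun κ => 1 + a κ • G.bv (m₀ κ),
      dl_src m₀ a h₀ _ (nodup_toList _), prod_map_toList, map_smul, map_smul, map_one, smul_eq_mul,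
      smul_eq_mul, mul_one, mul_comm, ← mul_assoc]
    intro i
    refine del_eq_zero (T := {t | t ≠ Sum.inr (m i, 0)})
      (Subalgebra.prod_mem (evLoc _) fun κ _ => ?_) fun t ht => sv_ne ht
    have h4 : ∀ j, psi (R1.sv G (m₀ κ) j) ∈ loc {t : G.S | t ≠ Sum.inr (m i, 0)} := fun j =>
      gen_mem (T := {t : G.S | t ≠ Sum.inr (m i, 0)}) fun e =>
        hne κ i (congrArg Prod.fst (Sum.inr_injective e))
    refine Subalgebra.add_mem _ (Subalgebra.one_mem _) (Subalgebra.smul_mem _ ?_ _)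
    change Ev.val _ ∈ loc _
    rw [R1.val_bv]
    exact Subalgebra.mul_mem _ (h4 0) (h4 1)
  · show aug (dl G _ (Ev.val (evMap _ F))) = _ * aug (dl G _ (Ev.val F))
    rw [val_evMap, dl_mulL, map_smul, aug_map, smul_eq_mul, List.map_append, List.prod_append,
      mul_comm (List.prod _)]
    congr 2
    · rw [← prod_map_toList]
      induction (univ : Finset ι).toList with
      | nil => rfl
      | cons κ l ih =>
        rw [List.map_cons, List.flatMap_cons, List.map_append, List.prod_append, ih]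
        simp
    · rw [List.map_map, List.map_reverse, List.prod_reverse, ← List.ofFn_eq_map, List.prod_ofFn]
      rfl
  · show _ * |aug (dl G _ (Ev.val F))| ≤ _
    have key := dl_le (((List.finRange k).reverse.map fun i => (m i, 0)) ++
      (univ : Finset ι).toList.flatMap fun κ => [(m₀ κ, (0 : Fin 2)), (m₀ κ, 1)]) hℓ hh hβ F
    have e : ((univ : Finset ι).toList.flatMap fun κ => [(m₀ κ, (0 : Fin 2)), (m₀ κ, 1)]).length =
        2 * Fintype.card ι := by
      simp [List.length_flatMap, mul_comm]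
    rwa [List.length_append, e, pow_add, pow_mul, Real.sq_sqrt hβ.le, mul_comm (√β ^ _),
      List.length_map, List.length_reverse, List.length_finRange] at key

variable {g : Geo} {k : ℕ} {s : Fin k → g.P × Fin 4}

theorem embL_sv (κ : g.K) (d : Fin 2) :
    g.embL s (R1.sv g κ d) = R1.sv (g.xt s) (Sum.inl κ) d := by
  funext t
  rcases t with x | ⟨κ' | i, d'⟩
  · exact (sv_ne (κ := κ) (d := d) Sum.inl_ne_inr).trans (sv_ne (G := g.xt s) Sum.inl_ne_inr).symm
  · change R1.sv g κ d (Sum.inr (κ', d')) = _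
    by_cases h : (κ', d') = (κ, d)
    · obtain ⟨rfl, rfl⟩ := Prod.mk.inj h
      exact (sv_self (G := g) _ _).trans (sv_self (G := g.xt s) _ _).symm
    · refine (sv_ne (G := g) fun e => h (Sum.inr_injective e)).trans
        (sv_ne (G := g.xt s) fun e => h ?_).symm
      obtain ⟨h1, h2⟩ := Prod.mk.inj (Sum.inr_injective e)
      rw [Sum.inl_injective h1, h2]
  · exact (sv_ne (G := g.xt s) fun e =>
      Sum.inr_ne_inl (Prod.mk.inj (Sum.inr_injective e)).1).symm

theorem emb_bv (κ : g.K) : g.emb s (g.bv κ) = (g.xt s).bv (Sum.inl κ) :=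
  (I2.evMap_pp _ _ _).trans (congrArg₂ pp (embL_sv κ 0) (embL_sv κ 1))

theorem emb_src (a : g.K → ℝ) : g.emb s (NormedSpace.exp (∑ κ, a κ • g.bv κ)) =
    ∏ κ, (1 + a κ • (g.xt s).bv (Sum.inl κ)) := by
  rw [I2.exp_sum_sq _ _ fun κ => I2.smul_sq (bv_sq κ) _, Geo.emb, I2.evMap_prod]
  refine prod_congr rfl fun κ _ => ?_
  rw [map_add, map_smul, I2.evMap_one]
  exact congrArg (fun F => 1 + a κ • F) (emb_bv κ)

end G4

theorem exists_topJ (g : Geo) {k : ℕ} (s : Fin k → g.P × Fin 4) :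
    ∃ top : (g.xt s).E →ₗ[ℝ] ℝ,
      (∀ (a : g.K → ℝ) (n : g.Cfg) (b : Fin k → ℝ),
        top (g.emb s (NormedSpace.exp (∑ κ, a κ • g.bv κ)) * g.CI s n b) =
          (∏ κ, a κ) * (∏ i, b i) * (cwI s n * wt g.A 1 n)) ∧
      (∀ (a : g.K → ℝ) (b : Fin k → ℝ) F,
        top ((g.xt s).dg (Sum.elim a b) F) = (∏ κ, a κ) * (∏ i, b i) * top F) ∧
      ∀ (ℓ : ℕ) (h β : ℝ), 1 ≤ ℓ → 0 < h → 0 < β → ∀ F,
        β ^ Fintype.card g.K * √β ^ k * |top F| ≤ (g.xt s).pn ℓ h β univ F := by
  obtain ⟨top, h1, h2, h3⟩ := G4.exists_top (G := g.xt s) (ι := g.K) Sum.inl Sum.inl_injective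
    Sum.inr Sum.inr_injective (fun _ _ => Sum.inl_ne_inr) s
  refine ⟨top, fun a n b => ?_, fun a b F => h2 (Sum.elim a b) F, h3⟩
  rw [G4.emb_src]
  exact h1 a n b

end Vale.Agent.P144Z.IO
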