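import Vale.Agent.P144Z.R5.Sys

/-!
The initial step with insertions: the abstract estimate.
-/

namespace Vale.Agent.P144Z.IO.O5

open Finset R5

variable {M : ℕ} [NeZero M]
variable {𝒜 𝒜' : Type} [NormedCommRing 𝒜] [NormedAlgebra ℝ 𝒜] [FiniteDimensional ℝ 𝒜]
  [NormedCommRing 𝒜'] [NormedAlgebra ℝ 𝒜'] [FiniteDimensional ℝ 𝒜']
variable {L : LocSys (Tor M) 𝒜} {L' : LocSys (Tor M) 𝒜'} {κ τ : ℝ} {E : 𝒜 →ₗ[ℝ] 𝒜'}

omit [FiniteDimensional ℝ 𝒜] in
/-- A family of terms with disjoint supports. -/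
theorem pt_fam {σ β : ℝ} (hσ : 0 ≤ σ) {ι : Type} [Fintype ι] (p : ι → Finset (Tor M)) (f : ι → 𝒜)
    (hs : ∀ a b, a ≠ b → ∀ x ∈ p a, x ∉ p b) {c : ℕ} (hc : ∀ a, stein (p a) ≤ c) (hβ : 0 ≤ β)
    (hf : ∀ a, L.p (p a) (f a) ≤ β) :
    Pt σ (fun X => L.p X (∑ a ∈ univ.filter (fun a => p a = X), f a))
      (Real.exp (σ * (1 + c)) * β) := by
  refine (pt_terms (c := c) (N := β) hσ univ p (fun _ => β) (fun _ _ => hβ)
    (fun a _ => by exact_mod_cast hc a) fun y => ?_).mono (fun X => ?_) le_rfl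
  · rw [sum_const, nsmul_eq_mul]
    refine mul_le_of_le_one_left hβ ?_
    exact_mod_cast card_le_one.2 fun a ha b hb =>
      by_contra fun hne => hs a b hne y (mem_filter.1 ha).2 (mem_filter.1 hb).2
  · refine (B3.p_sum_le _ _ _ _).trans (sum_le_sum fun a ha => ?_)
    rw [← (mem_filter.1 ha).2]
    exact hf a

omit [NeZero M] in
theorem fam_empty {B : Type} [AddCommMonoid B] {ι : Type} [Fintype ι] {p : ι → Finset (Tor M)}
    (hp : ∀ a, (p a).Nonempty) (f : ι → B) :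
    ∑ a ∈ univ.filter (fun a => p a = ∅), f a = 0 :=
  sum_eq_zero fun a ha => absurd (mem_filter.1 ha).2 (hp a).ne_empty

omit [NeZero M] in
theorem fam_sum {B : Type} [AddCommMonoid B] {ι ι' : Type} [Fintype ι] [Fintype ι']
    (p : ι ⊕ ι' → Finset (Tor M)) (f : ι ⊕ ι' → B) (X : Finset (Tor M)) :
    ∑ a ∈ univ.filter (fun a => p a = X), f a =
      ∑ a ∈ univ.filter (fun a => p (Sum.inl a) = X), f (Sum.inl a) +
        ∑ a ∈ univ.filter (fun a => p (Sum.inr a) = X), f (Sum.inr a) := by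
  simp only [sum_filter, Fintype.sum_sum_type]

/-- The part of the localized logarithm that depends on the second family of terms. -/
theorem abs_init (hinj : Function.Injective (NormedSpace.exp : 𝒜' → 𝒜')) (hκ : 0 ≤ κ)
    (hτ : 0 ≤ τ) (hE : IsExp (Z1 M) L L' κ E) {ι ι' : Type} [Fintype ι] [Fintype ι']
    (p : ι ⊕ ι' → Finset (Tor M)) (f : ι ⊕ ι' → 𝒜) (hp : ∀ a, (p a).Nonempty)
    (hf : ∀ a, f a ∈ L.sub (p a)) (hs : ∀ a b, a ≠ b → ∀ x ∈ p a, x ∉ p b)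
    (h1 : ∀ a, f a * f a = 0) (h2 : ∀ a, E (f a) * E (f a) = 0) {c : ℕ}
    (hc : ∀ a, stein (p a) ≤ c) {β : ℝ} (hβ : 0 ≤ β) (hle : ∀ a, L.p (p a) (f a) ≤ β)
    (hsm : Real.exp ((τ + κ + 2) * (1 + c)) * β ≤ 1 / 96) {A Q : Finset (Tor M) → 𝒜}
    (A0 : A ∅ = 0) (Q0 : Q ∅ = 0) (hAm : ∀ X, A X ∈ L.sub X) (hQm : ∀ X, Q X ∈ L.sub X) {a b : ℝ}
    (ha : 0 ≤ a) (hb : 0 ≤ b) (hA : Pt (τ + κ + 2) (fun X => L.p X (A X)) a)
    (hQ : Pt (τ + κ + 2) (fun X => L.p X (Q X)) b) (hab : a + b ≤ 1 / 96)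
    {H H' : Finset (Tor M) → 𝒜}
    (hH : ∀ X, H X = (A X + Q X) + ∑ a ∈ univ.filter (fun a => p a = X), f a)
    (hH' : ∀ X, H' X = A X + ∑ a ∈ univ.filter (fun a => p (Sum.inl a) = X), f (Sum.inl a)) :
    NormedSpace.exp (∑ U, Cl E H U) = E (NormedSpace.exp (∑ X, H X)) ∧
      Pt τ (fun U => L'.p U (Cl E H U - Cl E H' U -
        ∑ i ∈ univ.filter (fun i => p (Sum.inr i) = U), E (f (Sum.inr i)))) (44 * (a + b)) := by
  have := FiniteDimensional.complete ℝ 𝒜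
  have := FiniteDimensional.complete ℝ 𝒜'
  have hσ : 0 ≤ τ + κ + 2 := by positivity
  have hs' : ∀ a b : ι, a ≠ b → ∀ x ∈ p (Sum.inl a), x ∉ p (Sum.inl b) := fun a b h =>
    hs _ _ fun e => h (Sum.inl_injective e)
  have s1 := (pt_fam (L := L) hσ p f hs hc hβ hle).mono (fun _ => le_rfl) hsm
  have s2 := (pt_fam (L := L) hσ (fun a => p (Sum.inl a)) (fun a => f (Sum.inl a)) hs'
    (fun _ => hc _) hβ fun _ => hle _).mono (fun _ => le_rfl) hsm
  have m1 : ∀ X, ∑ a ∈ univ.filter (fun a => p a = X), f a ∈ L.sub X := fun X =>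
    sum_mem fun a ha => (mem_filter.1 ha).2 ▸ hf a
  have m2 : ∀ X, ∑ a ∈ univ.filter (fun a => p (Sum.inl a) = X), f (Sum.inl a) ∈ L.sub X :=
    fun X => sum_mem fun a ha => (mem_filter.1 ha).2 ▸ hf _
  have hAQ : Pt (τ + κ + 2) (fun X => L.p X (A X + Q X)) (a + b) :=
    (hA.add hQ).mono (fun X => L.p_add X _ _) le_rfl
  have H0 : H ∅ = 0 := by rw [hH, A0, Q0, fam_empty hp, add_zero, add_zero]
  have H0' : H' ∅ = 0 := by rw [hH', A0, fam_empty fun a => hp (Sum.inl a), add_zero]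
  have Hm : ∀ X, H X ∈ L.sub X := fun X => hH X ▸ add_mem (add_mem (hAm X) (hQm X)) (m1 X)
  have Hm' : ∀ X, H' X ∈ L.sub X := fun X => hH' X ▸ add_mem (hAm X) (m2 X)
  have t1 : Pt (τ + κ + 2) (fun X => L.p X (H X)) (1 / 48) :=
    (hAQ.add s1).mono (fun X => by rw [hH]; exact L.p_add X _ _) (by linarith)
  have t2 : Pt (τ + κ + 2) (fun X => L.p X (H' X)) (1 / 48) :=
    (hA.add s2).mono (fun X => by rw [hH']; exact L.p_add X _ _) (by linarith)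
  refine ⟨(pt_cl hinj hκ hτ hE H0 Hm (by norm_num) t1).2.2, ?_⟩
  have d1 := pt_cl_diff hinj hκ hτ hE H0 (fam_empty hp f) Hm m1 t1
    (s1.mono (fun _ => le_rfl) (by norm_num))
    (hAQ.mono (fun X => by rw [hH, add_sub_cancel_right]) le_rfl) (add_nonneg ha hb)
  have d2 := pt_cl_diff hinj hκ hτ hE H0' (fam_empty (fun a => hp (Sum.inl a)) _) Hm' m2 t2
    (s2.mono (fun _ => le_rfl) (by norm_num))
    (hA.mono (fun X => by rw [hH', add_sub_cancel_right]) le_rfl) ha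
  refine (d1.add d2).mono (fun U => ?_) (by linarith)
  have c1 := Cl_disj hinj hE p f hf
    (by rintro a b hne ⟨x, hx, y, hy, rfl⟩; exact hs a b hne x hx hy) h1 h2 U
  have c2 := Cl_disj hinj hE (fun a => p (Sum.inl a)) (fun a => f (Sum.inl a)) (fun _ => hf _)
    (by rintro a b hne ⟨x, hx, y, hy, rfl⟩; exact hs' a b hne x hx hy) (fun _ => h1 _)
    (fun _ => h2 _) U
  refine le_trans (le_of_eq (congrArg _ ?_)) (B4.p_sub L' U _ _)
  rw [c1, c2, fam_sum p fun a => E (f a)]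
  ring

end Vale.Agent.P144Z.IO.O5
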