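import Vale.Agent.P144D.I.O.Defs2

/-!
Norms on the whole local even algebra.
-/

namespace Vale.Agent.P144Z.IO

open Finset Matrix Geo Mn

variable {g : Geo} {ℓ ℓ' : ℕ} {h h' β β' : ℝ} {X Y : Finset g.P}

theorem le_pnE (hℓ : 1 ≤ ℓ) (hh : 0 < h) (hβ : 0 < β) {F : g.E} (hF : F ∈ g.el X) {r : Rep g.S}
    (hr : r.In (g.cons ℓ h β X)) : opn (r.ev (Ev.val F)) ≤ g.pn ℓ h β X F :=
  le_nrm (RN.adm hℓ hh hβ X) hF r hr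

theorem pn_leE (hℓ : 1 ≤ ℓ) (hh : 0 < h) (hβ : 0 < β) {F : g.E} (hF : F ∈ g.el X) {c : ℝ}
    (hc : ∀ r : Rep g.S, r.In (g.cons ℓ h β X) → opn (r.ev (Ev.val F)) ≤ c) :
    g.pn ℓ h β X F ≤ c := nrm_le (RN.adm hℓ hh hβ X) hF hc

theorem pn_defE (hℓ : 1 ≤ ℓ) (hh : 0 < h) (hβ : 0 < β) {F : g.E} (hF : F ∈ g.el X)
    (h0 : g.pn ℓ h β X F = 0) : F = 0 :=
  Ev.val_injective ((nrm_def (RN.adm hℓ hh hβ X) hF h0).trans (map_zero _).symm)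

theorem pn_monoE (hℓ : 1 ≤ ℓ) (hh' : 0 < h') (hβ' : 0 < β') (hhh : h' ≤ h) (hββ : β' ≤ β)
    (hXY : X ⊆ Y) {F : g.E} (hF : F ∈ g.el X) : g.pn ℓ h' β' Y F ≤ g.pn ℓ h β X F :=
  pn_leE hℓ hh' hβ' (el_mono hXY hF) fun r hr =>
    le_pnE hℓ (hh'.trans_le hhh) (hβ'.trans_le hββ) hF fun p hp => by
      rcases RN.cons_cases hp with ⟨z, hz, δ, c, hs, hc, hd, rfl⟩ | ⟨k, i, hk, rfl⟩
      · exact (RN.In.fld hr (hXY hz) hs hc hd).trans (mul_le_mul_of_nonneg_right hhh hc)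
      · exact (RN.In.src hr (hXY hk) i).trans (Real.sqrt_le_sqrt hββ)

theorem pn_evMapE (hℓ : 1 ≤ ℓ) (hh : 0 < h) (hβ : 0 < β) (hℓ' : 1 ≤ ℓ') (hh' : 0 < h')
    (hβ' : 0 < β') (f : (g.S → ℝ) →ₗ[ℝ] (g.S → ℝ)) {F : g.E} (hF : F ∈ g.el X)
    (hF' : evMap f F ∈ g.el Y)
    (hc : ∀ r : Rep g.S, r.In (g.cons ℓ' h' β' Y) → ∀ p ∈ g.cons ℓ h β X,
      opn (r.Ψ (f p.1)) ≤ p.2) : g.pn ℓ' h' β' Y (evMap f F) ≤ g.pn ℓ h β X F := by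
  have h1 := R6.mem_evLoc.1 hF'
  unfold Geo.pn
  rw [val_evMap] at h1 ⊢
  exact nrm_map (RN.adm hℓ hh hβ X) (RN.adm hℓ' hh' hβ' Y) f hc hF h1

theorem pn_evGE {C : Matrix (Tor g.M × Fin 4) (Tor g.M × Fin 4) ℝ} (hC : Cᵀ = -C)
    (hℓ : 1 ≤ ℓ) {c : ℝ} (hG : GramLe (Dm g.A) C ℓ c) (hc : 0 ≤ c) (hh' : 0 < h')
    (hh : h' + 2 * c ≤ h) (hβ : 0 < β) {F : g.E} (hF : F ∈ g.el X) :
    g.pn ℓ h' β X (evG (g.exM C) F) ≤ g.pn ℓ h β X F := by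
  obtain ⟨Q, hQ, h1, h2⟩ := hG
  unfold Geo.pn
  rw [val_evG]
  refine nrm_gauss (RN.adm hℓ (by linarith) hβ X) (RN.adm hℓ hh' hβ X) (RN.exM_anti hC)
    (RN.exM_psd hQ) (fun δ δ' => by rw [RN.exM_dot, RN.exM_dot, RN.exM_dot]; exact h1 _ _)
    (fun p hp => ?_) hF
  rcases RN.cons_cases hp with ⟨z, hz, δ, c', hs, hc', hd, rfl⟩ | ⟨k, i, hk, rfl⟩
  · refine ⟨h' * c', Or.inl ⟨z, hz, δ, c', hs, hc', hd, rfl⟩, ?_⟩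
    have h3 := h2 δ c' fun u => (hd u).trans (mul_le_mul_of_nonneg_left (by
      refine (RN.hsq_mono g.A (Nat.cast_nonneg ℓ) le_rfl (subset_univ _) u).trans_eq ?_
      simp only [hsq, RN.l2sq_univ]) (sq_nonneg _))
    have h4 : √(g.ex δ ⬝ᵥ g.exM Q *ᵥ g.ex δ) ≤ c * c' := by
      rw [RN.exM_dot]
      exact Real.sqrt_le_iff.2 ⟨mul_nonneg hc hc', h3⟩
    show h' * c' + 2 * √(g.ex δ ⬝ᵥ g.exM Q *ᵥ g.ex δ) ≤ h * c'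
    nlinarith
  · refine ⟨√β, Or.inr ⟨k, i, hk, rfl⟩, ?_⟩
    show √β + 2 * √((Pi.single (Sum.inr (k, i)) 1 : g.S → ℝ) ⬝ᵥ g.exM Q *ᵥ
      Pi.single (Sum.inr (k, i)) 1) ≤ √β
    rw [single_one_dotProduct, mulVec_single_one]
    simp [Geo.exM]

theorem pn_noFE (hℓ : 1 ≤ ℓ) (hh : 0 < h) (hβ : 0 < β) (hℓ' : 1 ≤ ℓ') (hh' : 0 < h') {F : g.E}
    (hF : F ∈ g.el X) : g.pn ℓ' h' β X (g.noF F) ≤ g.pn ℓ h β X F :=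
  pn_evMapE hℓ hh hβ hℓ' hh' hβ _ hF (noF_el hF) fun r hr p hp => by
    rcases RN.cons_cases hp with ⟨z, hz, δ, c, hs, hc, hd, rfl⟩ | ⟨k, i, hk, rfl⟩
    · show opn (r.Ψ (RN.prB g (g.ex δ))) ≤ h * c
      rw [RN.prB_ex, RN.opn_Psi_zero]; positivity
    · show opn (r.Ψ (RN.prB g (Pi.single (Sum.inr (k, i)) 1))) ≤ √β
      rw [RN.prB_src]; exact RN.In.src hr hk i

theorem mem_el_univ (F : g.E) : F ∈ g.el univ := by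
  have e : g.gens univ = Set.univ := Set.eq_univ_of_forall fun s => mem_univ (g.pos s)
  rw [R6.mem_evLoc, e]
  exact A1.mem_loc_univ _

theorem lastE_gap : ∃ C : ℝ, 1 ≤ C ∧ ∀ g : Geo, IsW g.A → ∀ ℓ : ℕ, 8 ≤ ℓ → ∀ Γ : ℝ, 1 ≤ Γ →
    (∀ φ, φ ⬝ᵥ φ ≤ (Γ * ℓ) ^ 2 * ((Dm g.A *ᵥ φ) ⬝ᵥ (Dm g.A *ᵥ φ))) → ∀ h : ℝ, C * Γ ≤ h →
    g.LastE ℓ h |Zw par0 g.A 1| := by
  obtain ⟨C, hC, H⟩ := gram_covL
  refine ⟨4 * C, by linarith, fun g hA ℓ h8 Γ hΓ hgap h hh β hβ F => ?_⟩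
  have hl : (0 : ℝ) < ℓ := by exact_mod_cast (by omega : 0 < ℓ)
  have h0 : 0 < h := lt_of_lt_of_le (by positivity) hh
  have hD : ∀ φ, Dm g.A *ᵥ φ = 0 → φ = 0 := fun φ hφ => by
    have := hgap φ
    rw [hφ, zero_dotProduct, mul_zero] at this
    exact dotProduct_self_eq_zero.1 (le_antisymm this (P144Z.C.dot_nonneg φ))
  have hG := H _ _ (W.isD_Dm hA) ℓ (Γ * ℓ) h8 (le_mul_of_one_le_left hl.le hΓ)
    (fun v => by rw [← mulVec_mulVec]; exact hgap _)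
  have e : C * (Γ * ℓ) / ℓ = C * Γ := by field_simp
  rw [e] at hG
  have h1 := pn_evGE (X := univ) (covL_anti (W.isD_Dm hA).anti ℓ) (by omega) hG (by positivity)
    (half_pos h0) (h := h) (by linarith) hβ (mem_el_univ F)
  rw [TL, Om_inv g hD, LM.evG_smo, LM.smo_eq, LM.noF_act, ps, RN.pn_smul le_rfl one_pos hβ]
  refine mul_le_mul_of_nonneg_left (le_trans ?_ h1) (abs_nonneg _)
  exact pn_noFE (by omega) (half_pos h0) hβ le_rfl one_pos (mem_el_univ _)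

end Vale.Agent.P144Z.IO
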