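import Vale.Agent.P144D.I.O.MainA
import Vale.Agent.P144D.I.O.Flow

/-!
Universality with insertions for every good class of boundaries.
-/

namespace Vale.Agent.P144Z.IO

open Finset Matrix Geo Mn

theorem mainGen : MainGen := by
  obtain ⟨ε₁, hε₁, hI⟩ := flowSI
  obtain ⟨L₁, hL₁, hP⟩ := flowU
  refine ⟨ε₁, hε₁, fun c' hc' => ?_⟩
  obtain ⟨η₁, hη₁, L₂, hI⟩ := hI c' hc'
  refine ⟨η₁, hη₁, max (max L₁ L₂) 64, fun L hL C₁ hC₁ ε hε => ?_⟩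
  simp only [ge_iff_le, max_le_iff] at hL
  obtain ⟨⟨l1, l2⟩, l3⟩ := hL
  obtain ⟨C, hC, ηa, hηa, hP⟩ := hP L l1
  obtain ⟨C', hC', ηb, hηb, hD⟩ := W.FD.flowS (L := L) (by omega) hC₁
  obtain ⟨C'', hC'', ηc, hηc, hI⟩ := hI L l2 C₁ hC₁
  set E := C + C' + C'' with hE
  have hE0 : 0 < E := by linarith
  set η := min (min ηa (min ηb ηc)) (min ε 1 / (20000 * E)) with hη
  have hm0 : 0 < min ε 1 := lt_min hε one_pos
  have hη0 : 0 < η := by positivity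
  have hCη : E * η ≤ min ε 1 / 20000 := by
    calc E * η ≤ E * (min ε 1 / (20000 * E)) :=
          mul_le_mul_of_nonneg_left (min_le_right _ _) hE0.le
      _ = _ := by field_simp
  have hm1 := min_le_left ε 1
  have hm2 := min_le_right ε 1
  have m1 : η ≤ min ηa (min ηb ηc) := min_le_left _ _
  simp only [le_min_iff] at m1
  refine ⟨η, hη0, fun R => ?_⟩
  obtain ⟨δa, hδa, hP⟩ := hP η hη0 m1.1 R
  obtain ⟨δb, hδb, hD⟩ := hD η hη0 m1.2.1 R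
  obtain ⟨δc, hδc, hI⟩ := hI η hη0 m1.2.2 R
  refine ⟨min δa (min δb δc), by positivity, fun q hR hq => ?_⟩
  subst hR
  have d2 : min δa (min δb δc) ≤ δb := (min_le_right _ _).trans (min_le_left _ _)
  have d3 : min δa (min δb δc) ≤ δc := (min_le_right _ _).trans (min_le_right _ _)
  obtain ⟨Z, z1, z2, z3, hP⟩ :=
    hP q rfl ⟨hq.ok, hq.small.trans (min_le_left _ _), hq.bulk, hq.x, hq.Z⟩
  replace hD := hD q rfl ⟨hq.ok, hq.small.trans d2, hq.bulk, hq.x, hq.Z⟩ Z z2 z3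
  replace hI := hI q rfl ⟨hq.ok, hq.small.trans d3, hq.bulk, hq.x, hq.Z⟩ Z z2 z3
  have e1 : C * η ≤ E * η := mul_le_mul_of_nonneg_right (by linarith) hη0.le
  have e2 : C' * η ≤ E * η := mul_le_mul_of_nonneg_right (by linarith) hη0.le
  have e3 : C'' * η ≤ E * η := mul_le_mul_of_nonneg_right (by linarith) hη0.le
  have hP' : MN.Pl L q Z (E * η) C := fun N₀ Λ hΛ => by
    obtain ⟨w, hw, J₀, hP⟩ := hP N₀ Λ hΛ
    refine ⟨w, hw, J₀, fun J hJ r h1 h2 => ?_⟩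
    obtain ⟨M₀, hP⟩ := hP J hJ r h1 h2
    exact ⟨M₀, fun g a1 a2 a3 N a4 a5 => (hP g a1 a2 a3 N a4 a5).mono e1 le_rfl⟩
  obtain ⟨w, J₀, h⟩ := MN.exists_ref l3 hq.ok hP'
  obtain ⟨σ, hσ, hσ'⟩ := exists_sigma l3 (w := w) (J₀ := J₀) fun i => h (J₀ + i) (by omega) _
    le_rfl (Nat.mul_le_mul_left _ (sc_mono (by omega) (by omega)))
  have hZ : 1 / 2 ≤ Z := by
    have := abs_le.1 z1
    linarith
  refine ⟨Real.exp σ, Z, ?_, by linarith, MN.main_plane l3 hq.ok hP' hσ', fun Q c hc hcL hQ =>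
    ⟨mainQ_of l3 hq.ok (by positivity) hZ hP' hσ' hQ fun Λ h hh => ?_,
      mainJQ_of l3 hq.ok (by positivity) hZ hP' hσ' hQ fun K => ?_⟩⟩
  · have := Real.abs_exp_sub_one_le (x := σ) (by linarith)
    linarith
  · obtain ⟨w, hw, b, hb, J₁, hD⟩ := hD Λ h hh
    exact ⟨w, hw, b, hb, J₁, fun g hJ hg hM u hu hf ⟨c₁, c₂, e, k1, b', k2, k3, k4⟩ =>
      flowD_mona (hD g hJ hg hM u hu hf ⟨c₁, c₂, e, k1, b', k2, k3, fun x => (k4 x).trans d2⟩) e2⟩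
  · obtain ⟨θ, hθ, hI⟩ := hI K
    refine ⟨θ, hθ, fun Λ h hh => ?_⟩
    obtain ⟨w, hw, b, hb, J₁, hI⟩ := hI Λ h hh
    exact ⟨w, hw, b, hb, J₁, fun g hJ hg hM =>
      ⟨flowD_mona (hI g hJ hg hM).1 e3, (hI g hJ hg hM).2 c hc hcL⟩⟩

end Vale.Agent.P144Z.IO
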