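import Vale.Agent.P144D.I.O.Est0
import Vale.Agent.P144D.I.Conv
import Vale.Agent.P144D.FD.Both

/-!
# The main estimate for a class of good boundaries, without insertions
-/

namespace Vale.Agent.P144Z.IO

open Finset Matrix Geo
open Mn hiding Br Gd WW WW_eq br_good en_eq exc_sub mix_eq ok_bare ok_one ps_br ps_cf ps_wt see_en
  ss top_le
open MN hiding sep_ff sep_fs flat' br_good not_exc medium WW_zero large err ss_eq final

theorem dom0_of {Q : Cls} {M : ℕ} [NeZero M] {P B : Gauge M} {ι : Type} [Fintype ι]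
    [DecidableEq ι] {y : ι → Tor M} {d : ι → Fin 2} {n L J N Λ : ℕ} {Γ : ℝ} (hL : 1 ≤ L)
    (D : DomQ Q P B y d n L J N Λ Γ) :
    (geoD M (P * B) y d J).Dom0 P L n Λ (8 * sc L J) Γ := by
  have h8 := FM.eight_le_sc hL J
  have hlo := D.lo
  have hs : Str P B (2 * (8 * sc L J)) := by
    rw [← mul_assoc]
    exact D.str
  exact
    { ok := ⟨Both.isW_mul D.P_ok D.str.sign, fun k => FM.enSrc_ok _ _⟩
      on := fun _ => rfl
      w := Both.isW D.P_ok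
      lo := le_rfl
      hi := Nat.mul_le_mul_left _ (FM.sc_mono hL (Nat.le_succ _))
      Mlo := by change _ ≤ M; omega
      Mhi := D.hi.trans (Nat.mul_le_mul_left _ (by omega))
      sep := D.sep
      card := D.cnt
      fl := Both.fl D.P_ok D.str (by omega)
      eqv := Both.eqv (M := M) hs (by omega) (by omega)
      gap := D.gap
      ne := Both.ne_zero D.gap }

theorem main0 {L : ℕ} {q : Par} {Z a b σ C₁ c η δ : ℝ} {Q : Cls} (hL : 64 ≤ L) (hq : q.Ok)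
    (ha : 0 ≤ a) (hZ : 1 / 2 ≤ Z) (hF : MN.Pl L q Z a b) (hσ : MN.Sg L q Z a b σ)
    (hQ : Q.Ok L C₁ c)
    (hD : ∀ (Λ : ℕ) (h : ℝ), 0 < h → ∃ w > 0, ∃ b > 0, ∃ J₀ : ℕ, ∀ g : Geo, J₀ ≤ g.J →
      g.PreS L q.R C₁ → g.M ≤ Λ * sc L g.J → ∀ u : Cor g.M, u.Ok → u.Off g.A → u.Sm q.R η δ →
        g.FlowD L q u Z w a b h) (n k Λ : ℕ) (Γ : ℝ) (hΓ : 1 ≤ Γ) :
    ∃ B : ℝ, ∀ ε > 0, ∃ J₀ : ℕ, ∀ (g : Geo) (A' : Gauge g.M) (r : ℕ), J₀ ≤ g.J →
      Fintype.card g.K = k → g.Dom0 A' L n Λ r Γ → Q g.M g.A g.J → Q g.M A' g.J →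
      ∀ u : Cor g.M, u.Ok → u.Off A' → u.Sm q.R η δ → ∀ K : ℝ, g.LastB (sc L g.J) Γ K →
        |g.mixD A' q u - Real.exp σ ^ n * Z ^ k * g.mixD A' par0 0| ≤
          ε / (r : ℝ) ^ k * (K / |Zw par0 A' 1|) ∧
        |g.mixD A' par0 0| ≤ B / (r : ℝ) ^ k * (K / |Zw par0 A' 1|) := by
  obtain ⟨Cg, hCg, hg⟩ := LM.lastB_gap
  have hh : Γ ≤ Cg * Γ := le_mul_of_one_le_left (by linarith) hCg
  obtain ⟨w, hw, b', hb', J₁, hD⟩ := hD (8 * Λ * L) (Cg * Γ) (by linarith)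
  obtain ⟨w₂, J₂, hR⟩ := exists_ref hL hq hF
  have hP : 0 < (8 * L / w) ^ k := by have : (0 : ℝ) < L := by positivity
                                      positivity
  refine ⟨(8 * L / w) ^ k * (2 ^ k * Real.exp (4 * k)), fun ε hε => ?_⟩
  set s := (8 * L / w) ^ k * (Real.exp (n * σ) * Real.exp (4 * k) * 10) with hs
  have hs0 : 0 < s := by positivity
  obtain ⟨J₃, hJ₃⟩ := small_e (8 * k + 1) (Real.exp 1) b' (cE L Λ n k * a)
    (ε := min (1 / 2) (ε / s)) (by positivity)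
  refine ⟨max (max J₁ J₂) (max J₃ (q.R + 1)), fun g A' r hJ hk D Q1 Q0 u hu hoff hsm K H =>
    ?_⟩
  simp only [max_le_iff] at hJ
  obtain ⟨⟨k1, k2⟩, k3, k4⟩ := hJ
  have h1 := D.lo
  have h2 := D.Mlo
  have h3 : g.J < sc L g.J := by
    have := Nat.lt_pow_self (n := g.J) (show 1 < L by omega)
    unfold sc
    omega
  have h4 := sc_mono (L := L) (by omega) (show 1 ≤ g.J by omega)
  have h5 : sc L 1 = 8 * L := by simp [sc]
  have hM : g.M ≤ 8 * Λ * L * sc L g.J := by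
    calc g.M ≤ Λ * (8 * sc L (g.J + 1)) := D.Mhi.trans (Nat.mul_le_mul_left _ D.hi)
      _ = _ := by rw [sc_eq (Nat.le_succ g.J)]; simp; ring
  have n1 : ∀ f, flux A' f ≠ -1 := fun f e => by
    rw [D.fl] at e
    split_ifs at e with h
    · norm_num at e
    · exact h e
  have n2 : ∀ f, flux g.A f = 1 → flux A' f = 1 := fun f e => by
    rw [D.fl, e, ite_self]
  have h6 : 16 * sc L g.J ≤ g.M := by omega
  have h7 : 16 * (q.R + 1) ≤ g.M := by omega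
  have pre : ∀ G : Geo, G.OkW → (∀ i, (G.src i).on = true) → 16 * sc L G.J ≤ G.M →
      16 * (q.R + 1) ≤ G.M → G.SepW (8 * sc L G.J) → Q G.M G.A G.J → G.PreS L q.R C₁ :=
    fun G a1 a2 a3 a4 a5 a6 => ⟨a1, a2, a3, a4, a5, (hQ G a1 a2 a3 a5 a6).1⟩
  have F := hD g k1 (pre g D.ok D.on h6 h7 ⟨fun f a f' b c => D.sep.ff f a f' b (by omega),
    fun i f hf => D.sep.fs i f (by omega), fun i i' e => h1.trans_lt (D.sep.ss i i' e)⟩ Q1) hM
    u hu (fun X hX => hoff X fun x hx => n2 x (hX x hx)) hsm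
  have F0 := hD (bare g A') k1 (pre _ (ok_bare D.w) (fun i => i.elim) h6 h7
    ⟨fun f e => absurd e (n1 f), fun i => i.elim, fun i => i.elim⟩ Q0) hM u hu hoff hsm
  have F1 := fun i => hD (one g A' i) k1 (pre _ (ok_one D.ok D.w i) (fun _ => D.on i) h6 h7
    ⟨fun f e => absurd e (n1 f), fun _ f hf => n2 f (D.sep.fs i f (le_trans hf h1)),
      fun _ _ e => absurd rfl e⟩ Q0) hM u hu hoff hsm
  obtain ⟨G, A₀, N, f₀, hG, hf₀, D₀⟩ := hR g.J k2 r h1 D.hi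
  have hK := lastB_nonneg (by omega) (by linarith) H
  obtain ⟨r1, r2⟩ := final D (σ := σ) (by omega) (by omega) hq (by omega) hu hw ha hb'.le
    (by linarith) F F0 F1 (lastB_mono (by omega) (by linarith) H hh)
    (hg (bare g A') D.w _ (by omega) Γ hΓ D.gap _ le_rfl)
    (fun i => hg (one g A' i) D.w _ (by omega) Γ hΓ D.gap _ le_rfl)
    (fun f hf => by
      rw [ss_eq D hq (by omega) hu hoff D₀ hG hf hf₀, ← hG]
      exact hσ _ _ _ _ _ _ _ D₀ _ hf₀) hk (hJ₃ g.J k3) (min_le_left _ _)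
  have hr0 : (0 : ℝ) < (r : ℝ) ^ k := pow_pos (by exact_mod_cast (by omega : 0 < r)) k
  have p1 := pow_r hw D.hi k
  have hy : 0 ≤ K / |Zw par0 A' 1| := by positivity
  generalize K / |Zw par0 A' 1| = y at *
  generalize (w * sc L g.J) ^ k = β at *
  constructor
  · rw [div_mul_eq_mul_div, le_div_iff₀ hr0]
    refine (mul_le_mul_of_nonneg_left p1 (abs_nonneg _)).trans ?_
    rw [mul_left_comm, mul_comm _ β]
    refine (mul_le_mul_of_nonneg_left r1 hP.le).trans ?_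
    have := mul_le_mul_of_nonneg_right ((le_div_iff₀ hs0).1 (min_le_right (1 / 2) (ε / s))) hy
    rw [hs] at this ⊢
    linarith
  · rw [div_mul_eq_mul_div, le_div_iff₀ hr0]
    refine (mul_le_mul_of_nonneg_left p1 (abs_nonneg _)).trans ?_
    rw [mul_left_comm, mul_comm _ β, mul_assoc, mul_assoc]
    refine mul_le_mul_of_nonneg_left ?_ hP.le
    have hβ : 0 ≤ β := nonneg_of_mul_nonneg_right (hr0.le.trans p1) hP
    have z1 : 1 ≤ 2 ^ k * |Z ^ k| := by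
      rw [abs_of_nonneg (by positivity), ← mul_pow]
      exact one_le_pow₀ (by linarith)
    rw [abs_mul] at r2
    have z2 := mul_le_mul_of_nonneg_left r2 (by positivity : (0 : ℝ) ≤ 2 ^ k)
    have z3 := mul_le_mul_of_nonneg_right z1 (mul_nonneg hβ (abs_nonneg (g.mixD A' par0 0)))
    linarith

theorem mainQ_of {L : ℕ} {q : Par} {Z a b σ C₁ c η δ : ℝ} {Q : Cls} (hL : 64 ≤ L) (hq : q.Ok)
    (ha : 0 ≤ a) (hZ : 1 / 2 ≤ Z) (hF : MN.Pl L q Z a b) (hσ : MN.Sg L q Z a b σ)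
    (hQ : Q.Ok L C₁ c)
    (hD : ∀ (Λ : ℕ) (h : ℝ), 0 < h → ∃ w > 0, ∃ b > 0, ∃ J₀ : ℕ, ∀ g : Geo, J₀ ≤ g.J →
      g.PreS L q.R C₁ → g.M ≤ Λ * sc L g.J → ∀ u : Cor g.M, u.Ok → u.Off g.A → u.Sm q.R η δ →
        g.FlowD L q u Z w a b h) : MainQ Q q (Real.exp σ) Z L η δ := by
  intro N Λ Γ H hΓ hH
  choose B h using fun p : ℕ × ℕ =>
    main0 hL hq ha hZ hF hσ hQ hD p.1 p.2 Λ (max Γ H) (le_max_of_le_left hΓ)
  refine ⟨∑ p ∈ range (N + 1) ×ˢ range (N + 1), |B p|, fun ε' hε' => ?_⟩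
  choose J₀ h using fun p => h p ε' hε'
  refine ⟨(range (N + 1) ×ˢ range (N + 1)).sup J₀,
    fun J hJ M _ P S Δ ι _ _ y d n K D h1 h2 h3 hK hl => ?_⟩
  have h8 := FM.eight_le_sc (L := L) (by omega) J
  have hn : n ≤ (univ.filter fun f => flux S f = -1).card := by
    rw [← D.cnt]
    exact card_le_card fun f hf =>
      mem_filter.2 ⟨mem_univ _, Both.flux_B D.P_ok D.str.sign (mem_filter.1 hf).2⟩
  have hp : (n, Fintype.card ι) ∈ range (N + 1) ×ˢ range (N + 1) := by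
    have := D.card
    simp only [mem_product, mem_range]
    omega
  have hZ' : 0 < |Zw par0 P 1| := abs_pos.2 (Both.ne_zero D.gap)
  obtain ⟨k1, k2⟩ := h (n, Fintype.card ι) (geoD M (P * S) y d J) P (8 * sc L J)
    ((le_sup hp).trans hJ) rfl (dom0_of (by omega)
      { D with
        gap := fun φ => (D.gap φ).trans (mul_le_mul_of_nonneg_right
          (by have := le_max_left Γ H; gcongr) (C.dot_nonneg _)) }) D.bd D.bd0 Δ h1 h3 h2 _
    (Both.lastB_mono hl (by change 1 ≤ sc L J; omega) hH (le_max_right _ _) (by positivity))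
  replace k1 := k1.trans_eq (congrArg _ (mul_div_cancel_right₀ K hZ'.ne'))
  replace k2 := k2.trans_eq (congrArg _ (mul_div_cancel_right₀ K hZ'.ne'))
  have e1 : (0 : ℝ) < (sc L J : ℝ) ^ Fintype.card ι := by positivity
  have e2 : (sc L J : ℝ) ^ Fintype.card ι ≤ ((8 * sc L J : ℕ) : ℝ) ^ Fintype.card ι :=
    pow_le_pow_left₀ (by positivity) (by exact_mod_cast (by omega)) _
  refine ⟨k1.trans (by gcongr), k2.trans (mul_le_mul_of_nonneg_right ?_ hK)⟩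
  have e3 : |B (n, Fintype.card ι)| ≤ ∑ p ∈ range (N + 1) ×ˢ range (N + 1), |B p| :=
    single_le_sum (f := fun p => |B p|) (fun _ _ => abs_nonneg _) hp
  exact (div_le_div_of_nonneg_right (le_abs_self _) (e1.le.trans e2)).trans
    (div_le_div₀ ((abs_nonneg _).trans e3) e3 e1 e2)

theorem mainBothJ_of (h : MainGen) : MainBothJ := by
  obtain ⟨ε₁, hε₁, h⟩ := h
  obtain ⟨ε₀, hε₀, hS⟩ := W.FD.steps
  intro c c' n₁ hc hc'
  obtain ⟨η', hη', L₁, h⟩ := h c' hc'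
  obtain ⟨L₂, hS⟩ := hS c 8 hc
  refine ⟨min η' (min 1 (ε₀ / (162 * ((n₁ + 1) * c)))), by positivity, fun η₁ hη0 hη n₂ =>
    ⟨max (max L₁ L₂) (max ⌈8000 * c ^ 2⌉₊ (max ⌈(1 + 81 * n₂) * c ^ 2 / (ε₀ / 2)⌉₊
      ⌈c ^ 2 / ε₁⌉₊)), fun L hL ε hε => ?_⟩⟩
  simp only [le_min_iff] at hη
  simp only [ge_iff_le, max_le_iff, Nat.ceil_le] at hL
  obtain ⟨⟨l1, l2⟩, l3, l4, l5⟩ := hL
  rw [div_le_iff₀ (by positivity), mul_comm (L : ℝ)] at l4 l5
  have hη2 : 81 * (n₁ * c * η₁) ≤ ε₀ / 2 := by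
    have h1 := hη.2.2
    rw [le_div_iff₀ (by positivity)] at h1
    have h2 : 0 ≤ c * η₁ := by positivity
    nlinarith
  have hL3 : 1 ≤ L := by
    have h1 : (1 : ℝ) ≤ L := by nlinarith
    exact_mod_cast h1
  obtain ⟨C₁, hC₁, hS⟩ := hS L l2
  obtain ⟨η₂, hη₂, h⟩ := h L l1 C₁ hC₁ ε hε
  refine ⟨η₂, hη₂, fun R => ?_⟩
  obtain ⟨δ₀, hδ₀, h⟩ := h R
  refine ⟨δ₀, hδ₀, fun q hR hq => ?_⟩
  obtain ⟨Zσ, Zε, z1, z2, z3, h⟩ := h q hR hq
  obtain ⟨h1, h2⟩ := h (fun _ _ A J => BAll A L J c η₁ n₁ n₂) c hc l5 fun g a1 a2 a3 a4 a5 => by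
    have hb := Both.bnd a5 hc hη0 hη.2.1 hη2 l3 l4
    refine ⟨hS g g.M ⟨a1, a2, a3, Nat.le_mul_of_pos_right _ ?_, a4, hb⟩, fun j hj => ?_⟩
    · have := FM.eight_le_sc hL3 g.J
      omega
    · obtain ⟨_, _, _, _, -, -, -, -, -, a6⟩ := hb j hj
      exact a6.sch
  refine ⟨Zσ, Zε, z1, z2, z3, fun N Λ Γ H hΓ hH => ?_, fun K => ?_⟩
  · obtain ⟨C, h1⟩ := h1 N Λ Γ H hΓ hH
    refine ⟨C, fun ε' hε' => ?_⟩
    obtain ⟨J₀, h1⟩ := h1 ε' hε'
    exact ⟨J₀, fun J hJ M _ P B Δ ι _ _ y d n K D => h1 J hJ M P B Δ ι y d n K { D with }⟩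
  · obtain ⟨θ, hθ, h2⟩ := h2 K
    refine ⟨θ, hθ, fun N Λ Γ hΓ => ?_⟩
    obtain ⟨C, h2⟩ := h2 N Λ Γ hΓ
    refine ⟨C, fun ε' hε' => ?_⟩
    obtain ⟨J₀, h2⟩ := h2 ε' hε'
    refine ⟨J₀, fun J hJ M _ P k s u ν o O hk D a1 a2 a3 => ?_⟩
    obtain ⟨z, hz, h2⟩ := h2 J hJ M P k s u ν o O hk
      { D with ch := fun i => (D.ch i).mono hη0.le hη.1 } a1 a2 a3
    exact ⟨z, hz, fun B ι _ _ y d n K' D' => h2 B ι y d n K' { D' with }⟩

end Vale.Agent.P144Z.IO
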