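import Vale.Agent.P144D.I.O.Loc0
import Vale.Agent.P144D.I.O.Agree
import Vale.Agent.P144D.I.O.Fin
import Vale.Agent.P144D.I.O.MainQ

/-!
The main estimate with insertions for a class of good boundaries.
-/

namespace Vale.Agent.P144Z.IO

open Finset Matrix Geo Mn

theorem flowD_mona {g : Geo} {L : ℕ} {q : Par} {u : Cor g.M} {Z w a a' b h : ℝ}
    (H : g.FlowD L q u Z w a b h) (ha : a ≤ a') : g.FlowD L q u Z w a' b h :=
  ⟨H.conv, H.conv0, fun j hj => FM.anch_le (H.early j hj) (by gcongr), H.early0, H.flow0,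
    H.last, H.size⟩

theorem cE_le {L Λ n m N : ℕ} (hn : n ≤ N) (hm : m ≤ N) : MN.cE L Λ n m ≤ MN.cE L Λ N N := by
  have h1 : (n : ℝ) ≤ N := by exact_mod_cast hn
  have h2 : (m : ℝ) ≤ N := by exact_mod_cast hm
  have h3 : ((m + 3).factorial : ℝ) ≤ (N + 3).factorial := by
    exact_mod_cast Nat.factorial_le (by omega)
  have h4 : (4 : ℝ) ^ (m + 2) ≤ 4 ^ (N + 2) := pow_le_pow_right₀ (by norm_num) (by omega)
  unfold MN.cE
  gcongr

theorem hedge_near {M : ℕ} [NeZero M] (s : Tor M × Fin 4) : tdist (hedge s).1 s.1 ≤ 1 := by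
  obtain ⟨x, a⟩ := s
  fin_cases a
  · change tdist x x ≤ 1
    rw [tdist_self]; omega
  · change tdist x x ≤ 1
    rw [tdist_self]; omega
  · exact GeoA.tdist_sub_uv x 0
  · exact GeoA.tdist_sub_uv x 1

theorem flux_rem {M : ℕ} {A : Gauge M} {e : Tor M × Fin 2} (h : A e = 0) : flux A e.1 = 0 := by
  obtain ⟨x, d⟩ := e
  fin_cases d
  · rw [flux, show A (x, 0) = 0 from h]; simp
  · rw [flux, show A (x, 1) = 0 from h]; simp

theorem nu_pos {M : ℕ} [NeZero M] {A : Gauge M} {L J : ℕ} {s : Tor M × Fin 4}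
    {u : ℕ → Tor M × Fin 4 → ℝ} {ν : ℕ → ℝ} {c η : ℝ} (h : MkCh A L J s u ν c η) (hJ : 2 ≤ J) :
    0 < ν J := by
  obtain ⟨j, rfl⟩ : ∃ j, J = j + 1 := ⟨J - 1, by omega⟩
  exact (h.pos j (by omega) (by omega)).pos'

/-- Removing the weights of the norm. -/
theorem div_out {w l x y : ℝ} {m k N : ℕ} {ν : Fin k → ℝ} (hw : 0 < w) (hl : 0 < l)
    (hν : ∀ i, 0 < ν i) (hx : 0 ≤ x) (hN : m + k ≤ N)
    (h : (w * l) ^ m * (∏ i, w / ν i) * x ≤ y) :
    x ≤ (1 + 1 / w) ^ N * y / l ^ m * ∏ i, ν i := by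
  have h0 : 0 < ∏ i, ν i := prod_pos fun i _ => hν i
  have h1 : 1 ≤ (1 + 1 / w) ^ N * w ^ (m + k) := by
    have h2 : (1 + 1 / w) ^ (m + k) ≤ (1 + 1 / w) ^ N :=
      pow_le_pow_right₀ (le_add_of_nonneg_right (by positivity)) hN
    refine le_trans ?_ (mul_le_mul_of_nonneg_right h2 (by positivity))
    rw [← mul_pow]
    refine one_le_pow₀ ?_
    rw [add_mul, one_div_mul_cancel hw.ne']
    linarith
  rw [prod_div_distrib, prod_const, card_univ, Fintype.card_fin] at h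
  have h3 := mul_le_mul_of_nonneg_left h (show 0 ≤ (1 + 1 / w) ^ N / l ^ m * ∏ i, ν i by positivity)
  have h4 : (1 + 1 / w) ^ N / l ^ m * (∏ i, ν i) * ((w * l) ^ m * (w ^ k / ∏ i, ν i) * x) =
      (1 + 1 / w) ^ N * w ^ (m + k) * x := by
    rw [mul_pow, pow_add]
    field_simp
  rw [h4] at h3
  refine (le_mul_of_one_le_left hx h1).trans (h3.trans (le_of_eq (by ring)))

theorem mixJ_eq {M : ℕ} [NeZero M] (q : Par) (P B : Gauge M) {k : ℕ} (s : Fin k → Tor M × Fin 4)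
    (O : Fin k → (Tor M × Fin 2 → Bool) → ℝ) {ι : Type} [Fintype ι] [DecidableEq ι]
    (y : ι → Tor M) (d : ι → Fin 2) (J : ℕ) :
    mixJ q P B s O y d = (geoD M (P * B) y d J).mixDJ s P q O := by
  rw [mixJ, ← ZwC_zero q P 1]
  rfl

section

variable {g : Geo} {A' : Gauge g.M} {L n Λ : ℕ} {Γ : ℝ}
  (D : g.Dom0 A' L n Λ (8 * sc L g.J) Γ)
include D

theorem sepW_bare : (bare g A').SepW (8 * sc L g.J) ∧ ∀ i, (one g A' i).SepW (8 * sc L g.J) := by
  have n1 : ∀ f, flux A' f ≠ -1 := fun f e => by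
    rw [D.fl] at e
    split_ifs at e with h
    · norm_num at e
    · exact h e
  have n2 : ∀ f, flux g.A f = 1 → flux A' f = 1 := fun f e => by
    rw [D.fl, e, ite_self]
  exact ⟨⟨fun f e => absurd e (n1 f), fun i => i.elim, fun i => i.elim⟩,
    fun i => ⟨fun f e => absurd e (n1 f), fun _ f hf => n2 f (D.sep.fs i f hf),
      fun _ _ e => absurd rfl e⟩⟩

/-- A removed half-edge is far from the sources and from the fluxes. -/
theorem far_rem (hL : 1 ≤ L) {s : g.P × Fin 4} (hs : g.A (hedge s) = 0) :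
    (∀ κ, 7 * sc L g.J < tdist (g.src κ).y s.1) ∧
      ∀ f, tdist f s.1 ≤ 7 * sc L g.J → flux g.A f ≠ -1 := by
  have h0 := flux_rem hs
  have h1 := hedge_near s
  have h8 := eight_le_sc hL g.J
  refine ⟨fun κ => not_le.1 fun h => ?_, fun f h e => ?_⟩
  · have h2 := tdist_triangle (hedge s).1 s.1 (g.src κ).y
    rw [tdist_comm s.1] at h2
    have h3 := D.sep.fs κ (hedge s).1 (by omega)
    rw [h0] at h3
    exact zero_ne_one h3
  · have h2 := tdist_triangle (hedge s).1 s.1 f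
    rw [tdist_comm s.1] at h2
    have h3 := D.sep.ff f e (hedge s).1 (fun h' => by
      rw [← h', h0] at e
      norm_num at e) (by omega)
    rw [h0] at h3
    exact zero_ne_one h3

open Classical in
/-- The exponent is `n σ` up to a small error. -/
theorem err_sig {q : Par} {Z w a b h σ : ℝ} (hL : 8 ≤ L) (hr : 80 ≤ 8 * sc L g.J) (hq : q.Ok)
    (hR : 16 * (q.R + 1) ≤ g.M) (hw : 0 < w) (ha : 0 ≤ a) (F : g.FlowD L q 0 Z w a b h)
    (F0 : (bare g A').FlowD L q 0 Z w a b h) (F1 : ∀ k, (one g A' k).FlowD L q 0 Z w a b h)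
    (hσ : ∀ f, flux g.A f = -1 →
      |MN.ss g A' L q 0 f (8 * sc L g.J / 20) - σ| ≤ 9600 * (a / 2 ^ g.J)) :
    g.ps (w * sc L g.J) univ (MN.WW g A' L q 0 - (n * σ) • 1) ≤
      MN.cE L Λ n (Fintype.card g.K) * a / 2 ^ g.J := by
  have h8 := eight_le_sc (L := L) (by omega) g.J
  have hβ : 0 < w * sc L g.J := by positivity
  have hs : |∑ f ∈ univ.filter (fun f => flux g.A f = -1),
      MN.ss g A' L q 0 f (8 * sc L g.J / 20) - n * σ| ≤ n * (9600 * (a / 2 ^ g.J)) := by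
    have h1 := sum_le_card_nsmul _ _ _ fun f (hf : f ∈ univ.filter fun f => flux g.A f = -1) =>
      hσ f (mem_filter.1 hf).2
    have h2 := (abs_sum_le_sum_abs _ _).trans h1
    rwa [sum_sub_distrib, sum_const, D.card, nsmul_eq_mul, nsmul_eq_mul] at h2
  have b1 := err D hL hr hq hR (Cor.ok_zero _) hw ha F F0 F1
  have b3 : g.ps (w * sc L g.J) univ ((∑ f ∈ univ.filter (fun f => flux g.A f = -1),
      MN.ss g A' L q 0 f (8 * sc L g.J / 20) - n * σ) • (1 : g.E)) ≤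
      n * (9600 * (a / 2 ^ g.J)) := by
    rw [Geo.ps, RN.pn_smul le_rfl one_pos hβ]
    exact (mul_le_of_le_one_right (abs_nonneg _) (RN.pn_one le_rfl one_pos hβ)).trans hs
  have b4 := (RN.pn_add le_rfl one_pos hβ _ _).trans (add_le_add b1 b3)
  rw [sub_smul, sub_add_sub_cancel] at b4
  refine b4.trans ?_
  have h0 : 0 ≤ n * (9600 * (a / 2 ^ g.J)) := by positivity
  rw [MN.cE]
  ring_nf at h0 ⊢
  linarith

end

theorem mainJQ_of {L : ℕ} {q : Par} {Z a b σ C₁ c c' η₁ : ℝ} {Q : Cls} (hL : 64 ≤ L) (hq : q.Ok)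
    (ha : 0 ≤ a) (hZ : 1 / 2 ≤ Z) (hF : MN.Pl L q Z a b) (hσ : MN.Sg L q Z a b σ)
    (hQ : Q.Ok L C₁ c)
    (hD : ∀ K : ℕ, ∃ θ > (0 : ℝ), ∀ (Λ : ℕ) (h : ℝ), 0 < h → ∃ w > 0, ∃ b > 0, ∃ J₀ : ℕ, ∀ g : Geo,
      J₀ ≤ g.J → g.PreS L q.R C₁ → g.M ≤ Λ * sc L g.J → g.FlowD L q 0 Z w a b h ∧
        (g.SchA L c → ∀ (k : ℕ) (s : Fin k → g.P × Fin 4) (u : Fin k → ℕ → g.P × Fin 4 → ℝ)
          (ν : Fin k → ℕ → ℝ) (o : ℝ) (O : Fin k → g.Cfg → ℝ), g.MkPre s u ν L c' η₁ →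
          LocO s K O → |o| ≤ 1 → (∀ i n, |O i n - o| ≤ θ) → g.FlowI s L q o O K u ν w b h)) :
    MainJQ Q q (Real.exp σ) Z L c' η₁ := by
  classical
  intro K
  obtain ⟨θ, hθ, hD⟩ := hD K
  refine ⟨θ, hθ, fun N Λ Γ hΓ => ?_⟩
  obtain ⟨Cg, hCg, hg⟩ := LM.lastB_gap
  obtain ⟨Ce, hCe, he⟩ := lastE_gap
  have g1 : Cg * Γ ≤ (Cg + Ce) * Γ := by nlinarith
  have g2 : Ce * Γ ≤ (Cg + Ce) * Γ := by nlinarith
  have hh : 0 < (Cg + Ce) * Γ := by positivity
  obtain ⟨w, hw, b', hb', J₁, hD⟩ := hD Λ _ hh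
  obtain ⟨w₂, J₂, hR⟩ := MN.exists_ref hL hq hF
  set W := (1 + 1 / w) ^ (2 * N) with hW
  have hW0 : 0 < W := by positivity
  refine ⟨W * (2 ^ N * Real.exp (5 * N)), fun ε hε => ?_⟩
  set t := W * (Real.exp (N * |σ|) * Real.exp (5 * N) * 10) with ht
  have ht0 : 0 < t := by positivity
  obtain ⟨J₃, hJ₃⟩ := MN.small_e (8 * N + 1) (Real.exp 1) (2 * b') (MN.cE L Λ N N * a)
    (ε := min (1 / 2) (ε / t)) (by positivity)
  refine ⟨max (max J₁ J₂) (max J₃ (q.R + 2)), fun J hJ M _ P k s u ν o O hk hs hO ho hθ' => ?_⟩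
  simp only [ge_iff_le, max_le_iff] at hJ
  obtain ⟨⟨k1, k2⟩, k3, k4⟩ := hJ
  set z₀ := ((bare (geoD M P (ι := Empty) Empty.elim Empty.elim J) P).flowI s L q o O K u J).z
    with hz₀
  refine ⟨fun i => if |z₀ i - o| ≤ 1 / 2 then z₀ i else o, fun i => ?_,
    fun B ι _ _ y d n K' D hgap hK => ?_⟩
  · beta_reduce
    split_ifs with h1
    · exact h1
    · simp
  have D0 := dom0_of (by omega) D
  rw [mixJ_eq q P B s O y d J, mixJ_eq par0 P B s 1 y d J]
  set g := geoD M (P * B) y d J with hg0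
  have h3 : J < sc L J := by
    have := Nat.lt_pow_self (n := J) (show 1 < L by omega)
    unfold sc
    omega
  have h4 := sc_mono (L := L) (by omega) (show 1 ≤ J by omega)
  have h5 : sc L 1 = 8 * L := by simp [sc]
  have hlo := D.lo
  have h6 : 16 * sc L J ≤ M := by omega
  have h7 : 16 * (q.R + 1) ≤ M := by omega
  obtain ⟨s0, s1⟩ := sepW_bare (g := g) D0
  obtain ⟨q1, q2⟩ := hQ g D0.ok D0.on h6 D.sep D.bd
  obtain ⟨F, FI⟩ := hD g k1 ⟨D0.ok, D0.on, h6, h7, D.sep, q1⟩ D.hi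
  have F0 := (hD (bare g P) k1 ⟨MN.ok_bare D0.w, fun i => i.elim, h6, h7, s0,
    (hQ (bare g P) (MN.ok_bare D0.w) (fun i => i.elim) h6 s0 D.bd0).1⟩ D.hi).1
  have F1 := fun i => (hD (one g P i) k1 ⟨MN.ok_one D0.ok D0.w i, fun _ => D0.on i, h6, h7, s1 i,
    (hQ (one g P i) (MN.ok_one D0.ok D0.w i) (fun _ => D0.on i) h6 (s1 i) D.bd0).1⟩ D.hi).1
  have far := fun i => far_rem (g := g) D0 (by omega) (s := s i)
    (mul_eq_zero_of_left (hs.rem i) _)
  obtain ⟨u', hu', hz⟩ := agreeI (g := g) (A' := P) (T := 7 * sc L J) (by omega)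
    (by change 1 ≤ J; omega) D0.ok D0.w hq h7 le_rfl (by change _ ≤ M; omega) (s := s)
    (fun i => D0.eqv (s i).1 _ (by omega) (far i).2) (fun i => (far i).1) (u := u) (ν := ν)
    ⟨fun i i' e => lt_of_le_of_lt (by change 7 * sc L J ≤ _; omega) (hs.sep i i' e),
      fun _ κ => κ.elim, hs.ch⟩
  replace FI := FI q2 k s u' ν o O hu' hO ho hθ'
  have hz' : (fun i => if |z₀ i - o| ≤ 1 / 2 then z₀ i else o) =
      (g.flowI s L q o O K u' g.J).z := by
    have e : z₀ = (g.flowI s L q o O K u' g.J).z := (hz o O K hO).symm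
    funext i
    rw [e, if_pos (FI.z i)]
  obtain ⟨G, A₀, N₀, f₀, hG, hf₀, D₀⟩ := hR J k2 _ le_rfl D0.hi
  have hn : n ≤ N ∧ Fintype.card ι ≤ N := by
    have h1 : n ≤ (univ.filter fun f => flux B f = -1).card := by
      rw [← D.cnt]
      exact card_le_card fun f hf =>
        mem_filter.2 ⟨mem_univ _, Both.flux_B D.P_ok D.str.sign (mem_filter.1 hf).2⟩
    have := D.card
    omega
  have hν := fun i => nu_pos (hs.ch i) (by omega)
  have n1 : (n : ℝ) ≤ N := by exact_mod_cast hn.1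
  have n2 : (Fintype.card ι : ℝ) ≤ N := by exact_mod_cast hn.2
  have n3 : (k : ℝ) ≤ N := by exact_mod_cast hk
  obtain ⟨r1, r2⟩ := finalI (g := g) (A' := P) (n := n) (σ := σ) (m := Fintype.card ι)
    (e := min (1 / 2) (ε / t)) D0.ok D0.on D0.w D0.ne (by omega) hq hw hb'.le hh hO ho hν F FI F0 F1
    (he (g.xt s) D0.ok.sign _ (by omega) Γ hΓ hgap _ g2)
    (hg (bare g P) D0.w _ (by omega) Γ hΓ D.gap _ g1)
    (fun i => hg (one g P i) D0.w _ (by omega) Γ hΓ D.gap _ g1)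
    (WW_zero D0 (by omega) (by omega) F F0 F1)
    (err_sig (g := g) D0 (by omega) (by change 80 ≤ 8 * sc L J; omega) hq h7 hw ha F F0 F1
      fun f hf => by
        have h1 := hσ _ _ _ _ _ _ _ D₀ _ hf₀
        rw [← ss_eq D0 hq h7 (Cor.ok_zero _) (fun _ _ _ => rfl) D₀ hG hf hf₀, hG] at h1
        exact h1) rfl
    (le_trans (by
      have a0 : 0 ≤ Real.exp (2 * (b' / 2 ^ J)) - 1 :=
        sub_nonneg.2 (Real.one_le_exp (by positivity))
      have a1 := cE_le (L := L) (Λ := Λ) hn.1 hn.2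
      rw [mul_div_assoc 2]
      change _ * (_ * (Real.exp (2 * (b' / 2 ^ J)) - 1)) +
        MN.cE L Λ n (Fintype.card ι) * a / 2 ^ J ≤ _
      gcongr) (hJ₃ J k3)) (min_le_left _ _)
  have hy := abs_pos.2 D0.ne
  have y1 : |Zw par0 (g.xt s).A 1| / |Zw par0 P 1| ≤ K' := (div_le_iff₀ hy).2 hK
  have y0 : 0 ≤ |Zw par0 (g.xt s).A 1| / |Zw par0 P 1| := by positivity
  have hl : (0 : ℝ) < sc L J := by exact_mod_cast (by omega : 0 < sc L J)
  have hp : 0 < ∏ i, ν i J := prod_pos fun i _ => hν i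
  have x1 : Real.exp (4 * Fintype.card ι + k) ≤ Real.exp (5 * N) := Real.exp_le_exp.2 (by linarith)
  have x2 : Real.exp (n * σ) ≤ Real.exp (N * |σ|) := Real.exp_le_exp.2
    ((mul_le_mul_of_nonneg_left (le_abs_self σ) (Nat.cast_nonneg n)).trans (by gcongr))
  have hK0 := y0.trans y1
  replace r1 := r1.trans (mul_le_mul_of_nonneg_left y1 (by positivity))
  replace r2 := r2.trans (mul_le_mul_of_nonneg_left y1 (by positivity))
  rw [hz']
  constructor
  · refine (div_out (N := 2 * N) hw hl hν (abs_nonneg _) (by omega) r1).trans ?_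
    have e0 : 0 ≤ min (1 / 2) (ε / t) := by positivity
    have e1 := (le_div_iff₀ ht0).1 (min_le_right (1 / 2) (ε / t))
    generalize min (1 / 2) (ε / t) = e at e0 e1 ⊢
    calc _ ≤ W * (Real.exp (N * |σ|) * Real.exp (5 * N) * (10 * e) * K') /
          (sc L J : ℝ) ^ Fintype.card ι * ∏ i, ν i J := by gcongr
      _ = e * t / (sc L J : ℝ) ^ Fintype.card ι * (K' * ∏ i, ν i J) := by rw [ht]; ring
      _ ≤ _ := by gcongr
  · have z1 : 1 ≤ 2 ^ N * |Z ^ Fintype.card ι| := by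
      have z2 : (2 : ℝ) ^ Fintype.card ι ≤ 2 ^ N := pow_le_pow_right₀ one_le_two hn.2
      refine le_trans ?_ (mul_le_mul_of_nonneg_right z2 (abs_nonneg _))
      rw [abs_of_nonneg (by positivity), ← mul_pow]
      exact one_le_pow₀ (by linarith)
    have z3 := div_out (N := 2 * N) hw hl hν (abs_nonneg _) (by omega) r2
    rw [abs_mul] at z3
    refine (le_mul_of_one_le_left (abs_nonneg _) z1).trans ?_
    rw [mul_assoc]
    refine (mul_le_mul_of_nonneg_left z3 (by positivity)).trans ?_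
    calc _ ≤ 2 ^ N * (W * (Real.exp (5 * N) * K') / (sc L J : ℝ) ^ Fintype.card ι *
          ∏ i, ν i J) := by gcongr
      _ = _ := by ring

end Vale.Agent.P144Z.IO
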